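import Vale.Agent.P092TL.Tail
import Vale.Agent.P092SY.Sys
import Vale.Agent.P092BF.Defs

/-!
P092 (helper93), block B5: the link between the concrete two-sided system and the coupling.
-/

set_option linter.all false

open scoped InnerProductSpace ENNReal
open MeasureTheory Filter Topology ContinuousLinearMap

namespace Vale.Agent.P092RK

open Vale.Agent.P092.RC (Cm)
open Vale.Agent.P092CP Vale.Agent.P092ST Vale.Agent.P092ST.Amb Vale.Agent.P092FA Vale.Agent.P092SY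
  Vale.Agent.P092BF

variable {G G' K 𝒦 : Type} [Group G] [TopologicalSpace G] [IsTopologicalGroup G]
  [LocallyCompactSpace G] [SecondCountableTopology G] [T2Space G] [MeasurableSpace G] [BorelSpace G]
  [Group G'] [TopologicalSpace G'] [IsTopologicalGroup G'] [LocallyCompactSpace G']
  [SecondCountableTopology G'] [T2Space G'] [MeasurableSpace G'] [BorelSpace G']
  [NormedAddCommGroup K] [InnerProductSpace ℂ K] [CompleteSpace K] {μ : Measure G}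
  [μ.IsHaarMeasure] {μ' : Measure G'} [μ'.IsHaarMeasure] {W : Set (K →L[ℂ] K)}
  [NormedAddCommGroup 𝒦] [InnerProductSpace ℂ 𝒦] [CompleteSpace 𝒦]
  {C : Cpl μ μ' W} {A : Amb G C.t.Γ 𝒦} (Φ : Fr C A) {ω x : 𝒦 →L[ℂ] 𝒦} {f : C.t.Γ → ℝ}

theorem dg_eq (S : Side μ W) {x : G} {γ : S.Γ} (h : x ∈ S.cell γ) : dg S x = γ :=
  (S.fund x).unique (S.fund x).choose_spec.1 h

theorem bd_dg (S : Side μ W) {f : S.Γ → ℝ} (hf : P092WN.Bd f) : Bd fun x => (f (dg S x) : ℂ) := by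
  obtain ⟨c, hc⟩ := hf
  have := S.cnt
  refine Bd.ofReal (fun B hB => ?_) fun x => hc _
  have e : (fun x => f (dg S x)) ⁻¹' B = ⋃ γ ∈ f ⁻¹' B, S.cell γ := Set.ext fun x => by
    simp only [Set.mem_iUnion, Set.mem_preimage]
    exact ⟨fun h => ⟨_, h, (S.fund x).choose_spec.1⟩, fun ⟨γ, a, b⟩ => by rwa [dg_eq S b]⟩
  rw [e]
  exact MeasurableSet.biUnion (Set.to_countable _) fun γ _ => S.meas_cell γ

theorem P_mg (S : Side μ W) {f : S.Γ → ℝ} (hf : P092WN.Bd f) (γ : S.Γ) :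
    S.P (S.cell γ) * mg S f = (f γ : ℂ) • S.P (S.cell γ) := by
  rw [mg, Side.P, ← S.m_mul (Bd.ind (S.meas_cell γ)) (bd_dg S hf),
    ← S.m_smul _ (Bd.ind (S.meas_cell γ))]
  refine congrArg _ (funext fun x => ?_)
  by_cases h : x ∈ S.cell γ
  · simp [h, dg_eq S h]
  · simp [h]

/-- the first coordinate -/
noncomputable def ev0 (A : Amb G C.t.Γ 𝒦) : HH A →L[ℂ] 𝒦 :=
  lp.evalCLM ℂ (fun _ : ℕ => 𝒦) 2 0 ∘L (HH A).subtypeL

/-- the link map -/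
noncomputable def pL (ω : 𝒦 →L[ℂ] 𝒦) : HH A →L[ℂ] K := adjoint (Φ.ι 0) ∘L star ω ∘L ev0 A

theorem ev0_lm (hx : P092SY.Inv A x) (v : HH A) : ev0 A (lm A x v) = x (ev0 A v) :=
  congrArg (fun η : l2 𝒦 => η 0) (hx.coe v)

theorem norm_ev0 (v : HH A) : ‖ev0 A v‖ ≤ ‖v‖ := lp.norm_apply_le_norm two_ne_zero (v : l2 𝒦) 0

theorem norm_adj (ξ : 𝒦) : ‖adjoint (Φ.ι 0) ξ‖ ≤ ‖ξ‖ :=
  (le_of_opNorm_le _ ((LinearIsometryEquiv.norm_map _ _).trans_le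
    (opNorm_le_bound _ zero_le_one fun ξ => by rw [Φ.norm_ι, one_mul])) ξ).trans_eq (one_mul _)

theorem mg_adj (hf : P092WN.Bd f) (ξ : 𝒦) :
    adjoint (Φ.ι 0) (Mf A f ξ) = mg C.t f (adjoint (Φ.ι 0) ξ) :=
  Φ.adj_diag (fun i η => sub_eq_zero.1 (Φ.zero_of_Pj fun γ => by
    rw [map_sub, ← mul_ap, Φ.Pj_Mf hf, smul_apply, Φ.Pj_cell, Φ.Pj_cell, ← mul_ap, P_mg _ hf,
      smul_apply, map_smul, sub_self])) 0 ξ

include Φ in
theorem ex_fin (ξ : 𝒦) {ε : ℝ} (hε : 0 < ε) :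
    ∃ F : Finset C.t.Γ, ‖∑ γ ∈ F, A.Pj {γ} ξ - ξ‖ ≤ ε := by
  classical
  have h := ENNReal.tendsto_tsum_compl_atTop_zero (f := fun γ => ‖A.Pj {γ} ξ‖ₑ ^ 2)
    (by rw [← Φ.enorm_Pj]; finiteness)
  obtain ⟨F, hF⟩ := (h.eventually (ge_mem_nhds (show (0 : ℝ≥0∞) < ‖ε‖ₑ ^ 2 by
    simp [pos_iff_ne_zero, hε.ne']))).exists
  refine ⟨F, le_trans (enorm_le_iff_norm_le.1 ((ENNReal.pow_le_pow_left_iff two_ne_zero).1
    (le_trans (le_of_eq ?_) hF))) (Real.norm_of_nonneg hε.le).le⟩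
  rw [Φ.enorm_Pj]
  refine (tsum_congr fun γ => ?_).trans (tsum_subtype {γ | γ ∉ F} fun γ => ‖A.Pj {γ} ξ‖ₑ ^ 2).symm
  rw [map_sub, map_sum, Finset.sum_congr rfl fun δ _ => show A.Pj {γ} (A.Pj {δ} ξ) =
    if γ = δ then A.Pj {γ} ξ else 0 by
      split_ifs with e
      · rw [← e, ← mul_ap, Pj_sq]
      · rw [← mul_ap, Pj_ne e, zero_apply], Finset.sum_ite_eq]
  by_cases e : γ ∈ F <;> simp [e]

theorem adj_V (hω : A.Iso ω) (h : G) (ξ : 𝒦) :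
    adjoint (Φ.ι 0) ((star ω) (tw A ω h ξ)) = C.s.π h (adjoint (Φ.ι 0) ((star ω) ξ)) := by
  rw [← mul_ap, tw, mul_assoc, hω.iso', ← mul_assoc, p_mul_V, mul_ap, Φ.V_eq, comp_apply,
    comp_apply, Φ.iso]

include Φ in
theorem ex_col (hω : A.Iso ω) {ε : ℝ} (hε : 0 < ε) : ∃ F : Finset C.t.Γ,
    ‖adjoint (Φ.ι 0) ((star ω) ((∑ γ ∈ F, fc A γ ω) (A.Ω 0))) - C.t.Ω‖ ≤ ε ∧
      ‖(∑ γ ∈ F, fc A γ ω) (A.Ω 0)‖ ≤ 1 + ε := by
  obtain ⟨F, hF⟩ := ex_fin Φ (ω (A.Ω 0)) hε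
  simp only [← Φ.fc_Ω] at hF
  rw [← sum_apply] at hF
  refine ⟨F, ?_, (norm_le_norm_add_norm_sub' _ _).trans (add_le_add hω.n2_eq.le hF)⟩
  have e : adjoint (Φ.ι 0) ((star ω) (ω (A.Ω 0))) = C.t.Ω := by
    rw [← mul_ap, hω.iso, A.Ω_zero, Φ.Ω_eq, Φ.iso]
  rw [← e, ← map_sub, ← map_sub]
  exact (norm_adj Φ _).trans ((le_of_opNorm_le _ hω.nrm' _).trans ((one_mul _).trans_le hF))

/-- **The link**, for any system with the data of the concrete system. -/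
theorem lk_of {H₀ : Type} [NormedAddCommGroup H₀] [InnerProductSpace ℂ H₀]
    {S : P092WN.Sys G C.t.Γ (HH A) H₀} (I : P092TL.Is Φ ω S) (hω : A.Iso ω) : Lk C S (pL Φ ω) where
  p_le v := (norm_adj Φ _).trans ((le_of_opNorm_le _ hω.nrm' _).trans
    ((one_mul _).trans_le (norm_ev0 v)))
  p_L h v := by
    rw [I.L, pL, comp_apply, comp_apply, ev0_lm (Φ.inv_deg (P092TL.deg_tw hω.deg h)), adj_V Φ hω]
    rfl
  left ε hε := by
    obtain ⟨F, h1, -⟩ := ex_col Φ hω hε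
    have d : A.Deg 1 (∑ γ ∈ F, fc A γ ω) := Deg.sum fun γ _ => Φ.deg_fc hω.deg γ
    have hx := (Φ.cm_iff _).1 (deg_one_iff.1 (d.star_mul hω.deg)) 0 0
    refine ⟨F.map (Equiv.inv _).toEmbedding,
      fun s => adjoint (Φ.ι 0) ∘L star (fc A s⁻¹ ω) ∘L ev0 A, _, hx, ?_, fun v => ?_,
      fun s _ f hf v => ?_⟩
    · have h2 := C.norm_adj_Ω (hx.sub C.t.M_one)
      rw [sub_apply, one_apply_eq_self] at h2
      rw [← h2, map_sub, adjoint_comp, adjoint_comp, adjoint_adjoint, ← star_eq_adjoint (_ * _),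
        star_mul, star_star, ← star_eq_adjoint 1, star_one, sub_apply, comp_apply, comp_apply,
        ← Φ.Ω_eq]
      exact h1
    · rw [Finset.sum_map, I.L]
      simp only [Equiv.toEmbedding_apply, Equiv.inv_apply, inv_inv, comp_apply,
        ev0_lm (Φ.inv_deg (P092TL.deg_tw hω.deg 1)), pL]
      rw [← map_sum, ← sum_apply, ← star_sum, tw, Φ.V_eq, map_one]
      rfl
    · have hf' : P092WN.Bd fun γ => f (s * γ) := hf.imp fun c hc δ => hc _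
      have h2 := congrArg star (Φ.Mf_fc hf' s⁻¹ ω)
      simp only [mul_inv_cancel_left, star_mul] at h2
      rw [Φ.star_Mf hf', Φ.star_Mf hf] at h2
      simp only [comp_apply, I.m, ev0_lm (Φ.inv_Mf hf'), ← mg_adj Φ hf]
      rw [← mul_ap, ← h2, mul_ap]
  right ε hε := by
    obtain ⟨F, h1, h2⟩ := ex_col Φ hω (lt_min hε one_pos)
    have d : A.Deg 1 (∑ γ ∈ F, fc A γ ω) := Deg.sum fun γ _ => Φ.deg_fc hω.deg γ
    have c : (∑ γ ∈ F, fc A γ ω) * A.V 1 = ∑ γ ∈ F, fc A γ ω := by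
      rw [Finset.sum_mul]
      refine Finset.sum_congr rfl fun γ _ => ?_
      rw [← Φ.fc_mul fun δ => ContinuousLinearMap.ext fun ξ => by
        simp only [mul_ap, Φ.V_eq, map_one, comp_apply, one_apply_eq_self, Φ.adj_cell, Φ.Pj_cell], hω.col]
    have d1 := P092TL.deg_tw hω.deg 1
    have d2 := P092TL.hs_tw hω.deg 1
    have e : ∑ t ∈ F, Φ.rg 1 1 (fc A t ω) (S.ζ 1) = vv A (tw A ω 1 * ∑ γ ∈ F, fc A γ ω) := by
      rw [I.ζ, Finset.mul_sum, P092TL.vv_sum F fun t => d2.mul_right d1 (Φ.deg_fc hω.deg t)]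
      exact Finset.sum_congr rfl fun t _ => Φ.rg_T d1 d2 (Φ.deg_fc hω.deg t)
    refine ⟨F, fun t g => Φ.rg g 1 (fc A t ω), fun t _ => ⟨I.rt_rg (Φ.deg_fc hω.deg t),
      fun g => I.ct_rg g (Φ.deg_fc hω.deg t) ((Φ.norm_fc t ω).trans hω.nrm),
      fun g f hf => I.hom_rg g (Φ.deg_fc hω.deg t) (P092TL.hom_fc Φ t ω) hf⟩, ?_, ?_⟩
    · have h3 : ev0 A (vv A (tw A ω 1 * ∑ γ ∈ F, fc A γ ω)) =
          tw A ω 1 ((∑ γ ∈ F, fc A γ ω) (A.Ω 0)) :=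
        (congrArg (fun η : l2 𝒦 => η 0) (coe_vv (Φ.vec_mem (d1.mul d) (d2.mul_right d1 d)))).trans
          ((d2.mul_right d1 d).vec_ap 0)
      rw [e, pL, comp_apply, comp_apply, h3, adj_V Φ hω, map_one, one_apply_eq_self]
      exact h1.trans (min_le_left _ _)
    · rw [e]
      refine (P092TL.norm_vv _).trans (((hs_col c).hs_mul1 (hω.norm_ζ 1)).trans ?_)
      rw [hs_eq_n2 c]
      exact h2.trans (by linarith [min_le_right ε 1])

theorem is_sys (hω : A.Iso ω) : P092TL.Is Φ ω (Φ.sys hω) :=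
  ⟨fun _ => rfl, fun _ => rfl, fun _ => rfl, fun _ _ => rfl, fun _ _ => Iff.rfl, fun _ => Iff.rfl,
    fun _ _ => Iff.rfl⟩

/-- **The link** for the concrete system. -/
theorem lk (hω : A.Iso ω) : Lk C (Φ.sys hω) (pL Φ ω) := lk_of Φ (is_sys Φ hω) hω

end Vale.Agent.P092RK
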