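import Vale.Agent.P092TH.Mod

/-!
P092 (helper93), block REL: the interface between the pieces.
-/

set_option linter.all false

open scoped InnerProductSpace ENNReal NNReal CompactlySupported Pointwise
open MeasureTheory Filter Topology ContinuousLinearMap Set

namespace Vale.Agent.P092RK

open Vale.Agent.P092CP Vale.Agent.P092RD Vale.Agent.P092TH
open Vale.Agent.P092.RC (Cm Moore)

variable {G G' K : Type} [Group G] [TopologicalSpace G] [MeasurableSpace G]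
  [Group G'] [TopologicalSpace G'] [MeasurableSpace G']
  [NormedAddCommGroup K] [InnerProductSpace ℂ K] [CompleteSpace K] {μ : Measure G}
  {μ' : Measure G'} {W : Set (K →L[ℂ] K)}
  {Y Y' Z₀ : Type} [TopologicalSpace Y] [MeasurableSpace Y] [MulAction G' Y] [TopologicalSpace Y']
  [MeasurableSpace Y'] [MulAction G' Y'] [MeasurableSpace Z₀] [MulAction G' Z₀]

/-- localisers: covariant measures which are module maps over `E` -/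
structure Loc (C : Cpl μ μ' W) (dir : Z₀ → Y) (E : POM Y K) (Ψ : POM Z₀ K) : Prop where
  cm : ∀ F, Bd F → Cm W (Ψ.f F)
  cov : Cov C.t.π Ψ
  mod : ∀ φ F, Bd φ → Bd F → Ψ.f (φ ∘ dir * F) = E.f φ * Ψ.f F

/-- covariant projection valued measures in `B` -/
structure Pvm (C : Cpl μ μ' W) (E : POM Y K) : Prop where
  isP : E.IsP
  cm : ∀ F, Bd F → Cm W (E.f F)
  cov : Cov C.t.π E

/-- unitaries which transform by the multiplier `κ` -/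
structure Un (C : Cpl μ μ' W) (S : Set G) (E : POM Y K) (κ : G' → Y → ℂ) (u : K →L[ℂ] K) :
    Prop where
  mem : u ∈ Xm C S E κ
  l : star u * u = 1
  r : u * star u = 1

/-- the two multipliers and the phase on the opposite pairs -/
structure Ker (Op : Set (Y × Y')) (κ : G' → Y → ℂ) (κ' : G' → Y' → ℂ) (e : Y × Y' → ℂ) :
    Prop where
  opn : IsOpen Op
  inv : ∀ (k : G') x y, (x, y) ∈ Op → (k • x, k • y) ∈ Op
  meas : Measurable e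
  cont : ContinuousOn e Op
  ne : ∀ p, ‖e p‖ = 1
  mκ : ∀ k, Measurable (κ k)
  nκ : ∀ k x, ‖κ k x‖ = 1
  cκ' : Continuous fun p : G' × Y' => κ' p.1 p.2
  nκ' : ∀ k y, ‖κ' k y‖ = 1
  coc : ∀ k h y, κ' (k * h) y = κ' k y * κ' h (k⁻¹ • y)
  rel : ∀ (k : G') x y, (x, y) ∈ Op → e (k⁻¹ • x, k⁻¹ • y) * κ k x * κ' k y = e (x, y)

/-- properness on the opposite pairs -/
def PR (μ' : Measure G') (dir : Z₀ → Y) (L : Set Z₀) (Q : Set Y) (Q' : Set Y') (c : ℝ≥0∞) : Prop :=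
  ∀ (y : Y') (z : Z₀), μ' {h | h • y ∈ Q' ∧ h • z ∈ L ∧ dir (h • z) ∈ Q} ≤ c

/-- `∑ φ j ⊗ p j` approximates `(f ⊗ f') e` and lives on `Q × Q'` -/
structure Ap (Op : Set (Y × Y')) (e : Y × Y' → ℂ) (Q : Set Y) (Q' : Set Y') (f : Y → ℂ)
    (f' : C_c(Y', ℝ)) {n : ℕ} (φ : Fin n → Y → ℂ) (p : Fin n → C_c(Y', ℝ)) (ε : ℝ) : Prop where
  mQ : MeasurableSet Q
  mQ' : MeasurableSet Q'
  sub : Q ×ˢ Q' ⊆ Op
  bf : Measurable f
  bφ : ∀ j, Bd (φ j)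
  nf : ∀ x, ‖f x‖ ≤ 1
  nf' : ∀ y, |f' y| ≤ 1
  zf : ∀ x, x ∉ Q → f x = 0
  zf' : ∀ y, y ∉ Q' → f' y = 0
  zφ : ∀ j x, x ∉ Q → φ j x = 0
  zp : ∀ j y, y ∉ Q' → p j y = 0
  le : ∀ x y, ‖∑ j, φ j x * p j y - f x * f' y * e (x, y)‖ ≤ ε

/-- `∫ g(h) π(h) P(L) D P(V⁻¹) π(h)⁻¹ dh` -/
noncomputable def Av (S : Side μ W) (V L : Set G) (D : K →L[ℂ] K) (g : G → ℂ) : K →L[ℂ] K :=
  gram μ (fun h => S.P L * S.π h⁻¹) fun h => g h • (D * (S.P V⁻¹ * S.π h⁻¹))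

/-- **EST**: the estimate at one point of the path; `M` depends only on the window -/
def EST (C : Cpl μ μ' W) (V : Set G') (y₀ : Y') (dir : Z₀ → Y) (Op : Set (Y × Y')) (e : Y × Y' → ℂ)
    (κ : G' → Y → ℂ) (κ' : G' → Y' → ℂ) (M : ℝ≥0∞) : Prop :=
  ∀ (E : POM Y K) (Ψ : POM Z₀ K) (u r : K →L[ℂ] K) (L' : Set G') (L : Set Z₀) (Q : Set Y)
    (Q' : Set Y') (c : ℝ≥0∞) (f : Y → ℂ) (f' : C_c(Y', ℝ)) (n : ℕ) (φ : Fin n → Y → ℂ)
    (p : Fin n → C_c(Y', ℝ)) (ε : ℝ), Pvm C E → Loc C dir E Ψ → Un C ∅ E κ u → Cm W r →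
    IsCompact L' → MeasurableSet L → PR μ' dir L Q Q' c → Ap Op e Q Q' f f' φ p ε →
    C.t.Tr (Ψ.P L * (∑ j, E.f (φ j) * C.t.m (fun x => (wf μ' V y₀ (p j) x : ℂ)) -
      star u * E.f f * (((μ'.real V)⁻¹ : ℝ) : ℂ) • Av C.t V L' r
        fun h => f' (h • y₀) * κ' h (h • y₀))) ≤ M * c * (ENNReal.ofReal ε ^ 2 +
      C.t.Tr ((u * E.f ({x | (x, y₀) ∈ Op}.indicator fun x => e (x, y₀)) - C.t.P L' * r) *
        C.t.P V⁻¹))

/-- **RS**: the relation up to an error in the Hilbert-Schmidt norm -/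
def RS (C : Cpl μ μ' W) (dir : Z₀ → Y) (E : POM Y K) (E' : POM Y' K) (Op : Set (Y × Y'))
    (M : ℝ≥0∞) (e : Y × Y' → ℂ) (u u' : K →L[ℂ] K) : Prop :=
  ∀ ε : ℝ, 0 < ε → ∃ χ : ℂ, ∀ (Ψ : POM Z₀ K) (L : Set Z₀) (Q : Set Y) (Q' : Set Y') (c : ℝ≥0∞)
    (f : Y → ℂ) (f' : C_c(Y', ℝ)) (n : ℕ) (φ : Fin n → Y → ℂ) (p : Fin n → C_c(Y', ℝ)),
    Loc C dir E Ψ → MeasurableSet L → PR μ' dir L Q Q' c → Ap Op e Q Q' f f' φ p ε →
    C.t.Tr (Ψ.P L * (∑ j, E.f (φ j) * E'.f (fun y => (p j y : ℂ)) -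
      χ • (star u * E.f f * E'.f (fun y => (f' y : ℂ)) * star u'))) ≤ M * c * ENNReal.ofReal ε ^ 2

/-- the heights `H`, `H'` over `E`, `E'` add up to `c - δ` -/
def Out (E : POM Y K) (E' : POM Y' K) (H H' : POM ℝ K) (Op : Set (Y × Y')) (δ : Y × Y' → ℝ)
    (c : ℝ) : Prop :=
  ∀ (I J : Set ℝ) (Q : Set Y) (Q' : Set Y'), MeasurableSet I → MeasurableSet J → IsCompact Q →
    IsCompact Q' → Q ×ˢ Q' ⊆ Op → (∀ a ∈ I, ∀ b ∈ J, ∀ x ∈ Q, ∀ y ∈ Q', a + b + δ (x, y) ≠ c) →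
    H.P I * E.P Q * (E'.P Q' * H'.P J) = 0

/-- the geometric data -/
structure Geo (Op : Set (Y × Y')) (δ : Y × Y' → ℝ) (co : G' → Y → ℝ) (co' : G' → Y' → ℝ) :
    Prop where
  opn : IsOpen Op
  inv : ∀ (k : G') x y, (x, y) ∈ Op → (k • x, k • y) ∈ Op
  meas : Measurable δ
  cont : ContinuousOn δ Op
  mco : ∀ k, Measurable (co k)
  cco : Continuous fun p : G' × Y' => co' p.1 p.2
  coc : ∀ k h y, co' (k * h) y = co' k (h • y) + co' h y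
  rel : ∀ (k : G') x y, (x, y) ∈ Op → δ (k • x, k • y) + co k x + co' k y = δ (x, y)

/-- the static data: two boundary calculi with their heights and a localiser -/
structure St [TopologicalSpace Z₀] (C : Cpl μ μ' W) (dir : Z₀ → Y) (Op : Set (Y × Y'))
    (co : G' → Y → ℝ) (co' : G' → Y' → ℝ) (S' : Set G) (E : POM Y K) (E' : POM Y' K)
    (H H' : POM ℝ K) (Ψ₀ : POM Z₀ K) : Prop where
  mdir : Measurable dir
  pE : Pvm C E
  pE' : Pvm C E'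
  pH : H.IsP
  pH' : H'.IsP
  u : ∀ t, H.f (POM.ex t id) ∈ Xm C ∅ E fun k => POM.ex t (co k⁻¹)
  u' : ∀ t, H'.f (POM.ex t id) ∈ Xm C S' E' fun k => POM.ex t (co' k⁻¹)
  loc : Loc C dir E Ψ₀
  one : ∃ c : ℂ, c ≠ 0 ∧ Ψ₀.f 1 = c • 1
  pr : ∀ L Q Q', IsCompact L → IsCompact Q → IsCompact Q' → Q ×ˢ Q' ⊆ Op →
    ∃ c, c ≠ ∞ ∧ PR μ' dir L Q Q' c

/-- the path: `E'` is the limit of the windows, `E` is fixed and `u` is an eigenvector -/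
structure Path [IsTopologicalGroup G] [BorelSpace G] (C : Cpl μ μ' W) (V : Set G') (y₀ : Y')
    (S' : Set G) (E : POM Y K) (E' : POM Y' K) (u : K →L[ℂ] K) {ι : Type} (U : Ultrafilter ι)
    (a : ι → G) : Prop where
  bp : Bp μ' V
  moore : Moore S'
  fix : ∀ n φ, Bd φ → C.s.π (a n) * E.f φ * C.s.π (a n)⁻¹ = E.f φ
  ph : ∀ n, ∃ χ : ℂ, C.s.π (a n) * u * C.s.π (a n)⁻¹ = χ • u
  lm : ∀ O ∈ 𝓝 (1 : G), ∃ B, B ⊆ O ∧ Bp μ B ∧ Lm C U (fun n => un μ B (a n)) V (fun _ => y₀) E'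
  ai : ∀ s ∈ S', Tendsto (fun n => (a n)⁻¹ * s * a n) U (𝓝 1)

/-- **CORE**: the abstract form of REL -/
def CORE [IsTopologicalGroup G] [BorelSpace G] (C : Cpl μ μ' W) (Y Y' Z₀ : Type)
    [TopologicalSpace Y] [MeasurableSpace Y] [MulAction G' Y] [TopologicalSpace Y']
    [MeasurableSpace Y'] [MulAction G' Y'] [TopologicalSpace Z₀] [MeasurableSpace Z₀]
    [MulAction G' Z₀] : Prop :=
  ∀ (V : Set G') (y₀ : Y') (dir : Z₀ → Y) (Op : Set (Y × Y')) (δ : Y × Y' → ℝ) (co : G' → Y → ℝ)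
    (co' : G' → Y' → ℝ) (S' : Set G) (E : POM Y K) (E' : POM Y' K) (H H' : POM ℝ K)
    (Ψ₀ : POM Z₀ K) (U : Ultrafilter ℕ) (a : ℕ → G), Geo Op δ co co' →
    St C dir Op co co' S' E E' H H' Ψ₀ → (∀ t, Path C V y₀ S' E E' (H.f (POM.ex t id)) U a) →
    ∃ c, Out E E' H H' Op δ c

end Vale.Agent.P092RK
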