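import Vale.Agent.P092RK.CoreR
import Vale.Agent.P092RX.Est

/-!
P092 (helper93), block REL: `CORE` from the end game.
-/

set_option linter.all false

open scoped InnerProductSpace ENNReal NNReal CompactlySupported Pointwise
open MeasureTheory Filter Topology ContinuousLinearMap Set

namespace Vale.Agent.P092RK

open Vale.Agent.P092CP Vale.Agent.P092RD Vale.Agent.P092TH

variable {G G' K : Type} [Group G] [TopologicalSpace G] [IsTopologicalGroup G]
  [LocallyCompactSpace G] [SecondCountableTopology G] [T2Space G] [MeasurableSpace G] [BorelSpace G]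
  [Group G'] [TopologicalSpace G'] [IsTopologicalGroup G'] [LocallyCompactSpace G']
  [SecondCountableTopology G'] [T2Space G'] [MeasurableSpace G'] [BorelSpace G']
  [NormedAddCommGroup K] [InnerProductSpace ℂ K] [CompleteSpace K] {μ : Measure G}
  [μ.IsHaarMeasure] {μ' : Measure G'} [μ'.IsHaarMeasure] {W : Set (K →L[ℂ] K)}

/-- the end game -/
def ENDG (C : Cpl μ μ' W) (Y Y' Z₀ : Type) [TopologicalSpace Y] [MeasurableSpace Y] [MulAction G' Y]
    [TopologicalSpace Y'] [MeasurableSpace Y'] [MulAction G' Y'] [TopologicalSpace Z₀]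
    [MeasurableSpace Z₀] [MulAction G' Z₀] : Prop :=
  ∀ (dir : Z₀ → Y) (Op : Set (Y × Y')) δ (co : G' → Y → ℝ) (co' : G' → Y' → ℝ) S' E E' H H' Ψ₀
    (M : ℝ≥0∞), Geo Op δ co co' → St C dir Op co co' S' E E' H H' Ψ₀ → M ≠ ∞ →
    (∀ t, RS C dir E E' Op M (POM.ex t δ) (H.f (POM.ex t id)) (H'.f (POM.ex t id))) →
    ∃ c, Out E E' H H' Op δ c

variable {Y Y' Z₀ : Type} [TopologicalSpace Y] [MeasurableSpace Y] [BorelSpace Y]
  [SecondCountableTopology Y] [MulAction G' Y] [ContinuousSMul G' Y] [TopologicalSpace Y']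
  [MeasurableSpace Y'] [BorelSpace Y'] [CompactSpace Y'] [T2Space Y']
  [SecondCountableTopology Y'] [MulAction G' Y'] [ContinuousSMul G' Y'] [TopologicalSpace Z₀]
  [MeasurableSpace Z₀] [BorelSpace Z₀] [SecondCountableTopology Z₀] [MulAction G' Z₀]
  [ContinuousSMul G' Z₀] {C : Cpl μ μ' W}

theorem core_end (h : ENDG C Y Y' Z₀) : CORE C Y Y' Z₀ :=
  core_of (fun _ y₀ _ hV md => P092RX.est C hV y₀ md) h

end Vale.Agent.P092RK
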