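import Vale.Agent.P092.H790.Fld

/-!
P092, rank one, block A (helper93): strong integrals of bounded fields of operators and complex
powers.
-/

set_option linter.all false

open scoped InnerProductSpace
open MeasureTheory Filter Topology ContinuousLinearMap

namespace Vale.Agent.P092RK

open Vale.Agent.P092.H790 (aesm_field)

variable {Ω K : Type*} [MeasurableSpace Ω] {ν : Measure Ω} [NormedAddCommGroup K]
  [InnerProductSpace ℂ K] [CompleteSpace K]

/-- bounded strongly measurable fields -/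
structure Sf (ν : Measure Ω) (T : Ω → K →L[ℂ] K) : Prop where
  meas : ∀ ξ, AEStronglyMeasurable (fun ω => T ω ξ) ν
  bdd : ∃ C : ℝ, ∀ ω, ‖T ω‖ ≤ C

variable {S T : Ω → K →L[ℂ] K}

theorem Sf.const (x : K →L[ℂ] K) : Sf ν fun _ : Ω => x :=
  ⟨fun _ => aestronglyMeasurable_const, _, fun _ => le_rfl⟩

theorem Sf.mul (hS : Sf ν S) (hT : Sf ν T) : Sf ν fun ω => S ω * T ω := by
  obtain ⟨C, hC⟩ := hS.bdd
  obtain ⟨D, hD⟩ := hT.bdd
  exact ⟨fun ξ => aesm_field hS.meas (hT.meas ξ), C * D, fun ω => (norm_mul_le _ _).trans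
    (mul_le_mul (hC ω) (hD ω) (norm_nonneg _) ((norm_nonneg _).trans (hC ω)))⟩

theorem Sf.smul (hT : Sf ν T) {f : Ω → ℂ} (hf : AEStronglyMeasurable f ν) {c : ℝ}
    (hc : ∀ ω, ‖f ω‖ ≤ c) : Sf ν fun ω => f ω • T ω := by
  obtain ⟨D, hD⟩ := hT.bdd
  exact ⟨fun ξ => hf.smul (hT.meas ξ), c * D, fun ω => (norm_smul_le _ _).trans
    (mul_le_mul (hc ω) (hD ω) (norm_nonneg _) ((norm_nonneg _).trans (hc ω)))⟩

variable [IsFiniteMeasure ν]

theorem Sf.int (hT : Sf ν T) (ξ : K) : Integrable (fun ω => T ω ξ) ν := by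
  obtain ⟨D, hD⟩ := hT.bdd
  exact (integrable_const (D * ‖ξ‖)).mono' (hT.meas ξ) (ae_of_all _ fun ω =>
    ((T ω).le_opNorm ξ).trans (mul_le_mul_of_nonneg_right (hD ω) (norm_nonneg _)))

theorem Sf.int_sq (hT : Sf ν T) (ξ : K) : Integrable (fun ω => ‖T ω ξ‖ ^ 2) ν := by
  obtain ⟨D, hD⟩ := hT.bdd
  refine (integrable_const ((D * ‖ξ‖) ^ 2)).mono' ((hT.meas ξ).norm.pow 2) (ae_of_all _ fun ω => ?_)
  rw [norm_pow, norm_norm]
  exact pow_le_pow_left₀ (norm_nonneg _)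
    (((T ω).le_opNorm ξ).trans (mul_le_mul_of_nonneg_right (hD ω) (norm_nonneg _))) 2

theorem norm_int_le {C : ℝ} (hC : ∀ ω, ‖T ω‖ ≤ C) (ξ : K) :
    ‖∫ ω, T ω ξ ∂ν‖ ≤ C * ν.real Set.univ * ‖ξ‖ :=
  (norm_integral_le_of_norm_le_const (C := C * ‖ξ‖) (ae_of_all _ fun ω =>
    ((T ω).le_opNorm ξ).trans (mul_le_mul_of_nonneg_right (hC ω) (norm_nonneg _)))).trans_eq
    (by ring)

theorem Sf.exists_int (hT : Sf ν T) : ∃ I : K →L[ℂ] K, ∀ ξ, I ξ = ∫ ω, T ω ξ ∂ν := by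
  obtain ⟨D, hD⟩ := hT.bdd
  exact ⟨LinearMap.mkContinuous
    { toFun := fun ξ => ∫ ω, T ω ξ ∂ν
      map_add' := fun ξ η => by simp only [map_add]; exact integral_add (hT.int ξ) (hT.int η)
      map_smul' := fun c ξ => by simp only [map_smul]; exact integral_smul c _ }
    _ (norm_int_le hD), fun _ => rfl⟩

open Classical in
/-- the strong integral -/
noncomputable def sI (ν : Measure Ω) (T : Ω → K →L[ℂ] K) : K →L[ℂ] K :=
  if h : ∃ I : K →L[ℂ] K, ∀ ξ, I ξ = ∫ ω, T ω ξ ∂ν then h.choose else 0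

theorem Sf.sI_apply (hT : Sf ν T) (ξ : K) : sI ν T ξ = ∫ ω, T ω ξ ∂ν := by
  rw [sI, dif_pos hT.exists_int]; exact hT.exists_int.choose_spec ξ

theorem Sf.inner_sI (hT : Sf ν T) (η ξ : K) : ⟪η, sI ν T ξ⟫_ℂ = ∫ ω, ⟪η, T ω ξ⟫_ℂ ∂ν := by
  rw [hT.sI_apply, integral_inner (hT.int ξ)]

theorem Sf.norm_sI (hT : Sf ν T) {C : ℝ} (h0 : 0 ≤ C) (hC : ∀ ω, ‖T ω‖ ≤ C) :
    ‖sI ν T‖ ≤ C * ν.real Set.univ :=
  opNorm_le_bound _ (by positivity) fun ξ => by rw [hT.sI_apply]; exact norm_int_le hC ξ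

theorem Sf.star_sI (hT : Sf ν T) (hS : Sf ν fun ω => star (T ω)) :
    star (sI ν T) = sI ν fun ω => star (T ω) := by
  rw [star_eq_adjoint, eq_comm, eq_adjoint_iff]
  intro ξ η
  rw [← inner_conj_symm, hS.inner_sI, hT.inner_sI, ← integral_conj]
  refine integral_congr_ae (ae_of_all _ fun ω => ?_)
  simp only [inner_conj_symm, star_eq_adjoint, adjoint_inner_left]

theorem Sf.mul_sI (hT : Sf ν T) (x y : K →L[ℂ] K) :
    x * sI ν T * y = sI ν fun ω => x * T ω * y := by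
  ext ξ
  rw [(((Sf.const x).mul hT).mul (Sf.const y)).sI_apply]
  change x (sI ν T (y ξ)) = _
  rw [hT.sI_apply, ← x.integral_comp_comm (hT.int _)]
  rfl

/-- the bilinear map `(x, y) ↦ ∫ U x z y V` -/
theorem exists_bil {U V z : Ω → K →L[ℂ] K} (hU : Sf ν U) (hV : Sf ν V) (hz : Sf ν z) :
    ∃ B : (K →L[ℂ] K) →L[ℂ] (K →L[ℂ] K) →L[ℂ] (K →L[ℂ] K),
      ∀ x y, B x y = sI ν fun ω => U ω * x * z ω * y * V ω := by
  have k : ∀ x y, Sf ν fun ω => U ω * x * z ω * y * V ω := fun x y =>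
    (((hU.mul (Sf.const x)).mul hz).mul (Sf.const y)).mul hV
  obtain ⟨a, ha⟩ := hU.bdd
  obtain ⟨b, hb⟩ := hV.bdd
  obtain ⟨c, hc⟩ := hz.bdd
  refine ⟨LinearMap.mkContinuous₂ (LinearMap.mk₂ ℂ
    (fun x y => sI ν fun ω => U ω * x * z ω * y * V ω) (fun x x' y => ?_) (fun t x y => ?_)
    (fun x y y' => ?_) (fun t x y => ?_)) (|a| * |c| * |b| * ν.real Set.univ) fun x y => ?_,
    fun _ _ => rfl⟩
  · ext ξ
    rw [add_apply, (k _ _).sI_apply, (k _ _).sI_apply, (k _ _).sI_apply,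
      ← integral_add ((k _ _).int ξ) ((k _ _).int ξ)]
    simp only [mul_add, add_mul, add_apply]
  · ext ξ
    rw [smul_apply, (k _ _).sI_apply, (k _ _).sI_apply, ← integral_smul]
    simp only [mul_smul_comm, smul_mul_assoc, smul_apply]
  · ext ξ
    rw [add_apply, (k _ _).sI_apply, (k _ _).sI_apply, (k _ _).sI_apply,
      ← integral_add ((k _ _).int ξ) ((k _ _).int ξ)]
    simp only [mul_add, add_mul, add_apply]
  · ext ξ
    rw [smul_apply, (k _ _).sI_apply, (k _ _).sI_apply, ← integral_smul]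
    simp only [mul_smul_comm, smul_mul_assoc, smul_apply]
  · refine ((k x y).norm_sI (C := |a| * ‖x‖ * |c| * ‖y‖ * |b|) (by positivity)
      fun ω => ?_).trans_eq (by ring)
    have h1 := (ha ω).trans (le_abs_self a)
    have h2 := (hb ω).trans (le_abs_self b)
    have h3 := (hc ω).trans (le_abs_self c)
    refine (norm_mul_le _ _).trans (mul_le_mul ((norm_mul_le _ _).trans ?_) h2 (norm_nonneg _)
      (by positivity))
    gcongr
    refine (norm_mul_le _ _).trans (mul_le_mul ((norm_mul_le _ _).trans ?_) h3 (norm_nonneg _)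
      (by positivity))
    gcongr

/-- complex powers of `exp l` -/
noncomputable def pw (l : K →L[ℂ] K) (u : ℂ) : K →L[ℂ] K := NormedSpace.exp (u • l)

variable {l : K →L[ℂ] K}

theorem pw_add (u v : ℂ) : pw l (u + v) = pw l u * pw l v := by
  letI : NormedAlgebra ℚ (K →L[ℂ] K) := .restrictScalars ℚ ℂ _
  rw [pw, add_smul, NormedSpace.exp_add_of_commute (((Commute.refl l).smul_left u).smul_right v)]
  rfl

theorem pw_zero : pw l 0 = 1 := by rw [pw, zero_smul, NormedSpace.exp_zero]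

theorem pw_one : pw l 1 = NormedSpace.exp l := by rw [pw, one_smul]

theorem pw_pw (u v : ℂ) (ξ : K) : pw l u (pw l v ξ) = pw l (u + v) ξ := by rw [pw_add]; rfl

theorem star_pw (hl : IsSelfAdjoint l) (u : ℂ) : star (pw l u) = pw l (starRingEnd ℂ u) := by
  rw [pw, NormedSpace.star_exp, star_smul, hl.star_eq]; rfl

theorem sq_pw (hl : IsSelfAdjoint l) (u : ℂ) (ξ : K) :
    ‖pw l u ξ‖ ^ 2 = (⟪ξ, pw l (2 * u.re : ℝ) ξ⟫_ℂ).re := by
  rw [← inner_self_eq_norm_sq (𝕜 := ℂ), ← adjoint_inner_right, ← star_eq_adjoint, star_pw hl, pw_pw,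
    add_comm, Complex.add_conj]
  rfl

theorem norm_pw (hl : IsSelfAdjoint l) {u v : ℂ} (e : u.re = v.re) (ξ : K) :
    ‖pw l u ξ‖ = ‖pw l v ξ‖ := by
  rw [← sq_eq_sq₀ (norm_nonneg _) (norm_nonneg _), sq_pw hl, sq_pw hl, e]

theorem diff_pw : Differentiable ℂ (pw l) := fun u =>
  (hasDerivAt_exp_smul_const (𝕂 := ℂ) l u).differentiableAt

theorem bdd_pw (hl : IsSelfAdjoint l) : ∃ C : ℝ, 0 ≤ C ∧ ∀ u : ℂ, |u.re| ≤ 1 → ‖pw l u‖ ≤ C := by
  obtain ⟨C, hC⟩ := (isCompact_Icc (a := (-1 : ℝ)) (b := 1)).exists_bound_of_continuousOn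
    (f := fun t : ℝ => pw l t) (diff_pw.continuous.comp Complex.continuous_ofReal).continuousOn
  refine ⟨|C|, abs_nonneg C, fun u hu => opNorm_le_bound _ (abs_nonneg C) fun ξ => ?_⟩
  rw [norm_pw hl (u := u) (v := (u.re : ℂ)) rfl]
  exact (le_opNorm _ _).trans (mul_le_mul_of_nonneg_right
    ((hC _ (abs_le.1 hu)).trans (le_abs_self C)) (norm_nonneg _))

theorem comm_pw {x : K →L[ℂ] K} (h : Commute l x) (u : ℂ) : Commute (pw l u) x :=
  (h.smul_left u).exp_left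

end Vale.Agent.P092RK
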