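import Vale.Agent.P092RK.Conv

/-!
P092, rank one, block K (helper93): the uncertainty principle and the differential inequality.
-/

set_option linter.all false

open MeasureTheory Filter Topology Set Real
open scoped InnerProductSpace

namespace Vale.Agent.P092RK

variable {m : ℕ} {H : Type*} [NormedAddCommGroup H] [InnerProductSpace ℝ H] [CompleteSpace H]

theorem le_of_der {f f' : ℝ → ℝ} {p q : ℝ} (hpq : p ≤ q)
    (hd : ∀ a ∈ Icc p q, HasDerivAt f (f' a) a) (hn : ∀ a ∈ Icc p q, f' a ≤ 0) : f q ≤ f p :=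
  antitoneOn_of_deriv_nonpos (convex_Icc p q)
    (fun a ha => (hd a ha).continuousAt.continuousWithinAt)
    (fun a ha => (hd a (interior_subset ha)).differentiableAt.differentiableWithinAt)
    (fun a ha => by rw [(hd a (interior_subset ha)).deriv]; exact hn a (interior_subset ha))
    (left_mem_Icc.2 hpq) (right_mem_Icc.2 hpq) hpq

theorem Z_eq {a : ℝ} (ha : 0 < a) : Z m a = Z m 1 * a ^ ((m : ℝ) / 2) := by
  unfold Z
  rw [mul_one, mul_rpow (by have := pi_pos; positivity) ha.le]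

theorem Z_deriv {a : ℝ} (ha : 0 < a) : HasDerivAt (Z m) (m / (2 * a) * Z m a) a := by
  have h := (hasDerivAt_rpow_const (x := a) (p := (m : ℝ) / 2) (Or.inl ha.ne')).const_mul (Z m 1)
  refine (h.congr_deriv ?_).congr_of_eventuallyEq ?_
  · rw [Z_eq ha, rpow_sub_one ha.ne']; field_simp
  · filter_upwards [Ioi_mem_nhds ha] with b hb using Z_eq hb

/-- normalised Gaussian average -/
noncomputable def Ga (a : ℝ) (h : Eu m → ℝ) : ℝ := I0 a h / Z m a

theorem Ga_deriv {a : ℝ} (ha : 0 < a) {h : Eu m → ℝ} (hh : Bc h) :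
    HasDerivAt (fun a => Ga a h) (-(Nn a h / (a ^ 2 * Z m a))) a := by
  have hz := (Z_pos (m := m) ha).ne'
  refine ((I0_deriv ha hh).div (Z_deriv ha) hz).congr_deriv ?_
  rw [Nn]; field_simp; ring

variable {T : Eu m → H →L[ℝ] H}

theorem ZR.Ga_anti (h : ZR T) (ξ : H) {a b : ℝ} (ha : 0 < a) (hab : a ≤ b) :
    Ga b (hf T ξ) ≤ Ga a (hf T ξ) :=
  le_of_der (f := fun a => Ga a (hf T ξ)) hab
    (fun c hc => Ga_deriv (ha.trans_le hc.1) (h.bch ξ)) fun c hc => by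
      have hc0 := ha.trans_le hc.1
      have := h.Nn_nonneg hc0 ξ
      have := Z_pos (m := m) hc0
      rw [neg_nonpos]; positivity

theorem ZR.Ga_nonneg (h : ZR T) (ξ : H) {a : ℝ} (ha : 0 < a) : 0 ≤ Ga a (hf T ξ) :=
  div_nonneg (h.I0_nonneg ha ξ) (Z_pos ha).le

theorem ZR.Ga_le (h : ZR T) (ξ : H) {a : ℝ} (ha : 0 < a) : Ga a (hf T ξ) ≤ ‖ξ‖ ^ 2 := by
  rw [Ga, div_le_iff₀ (Z_pos ha), mul_comm]; exact h.I0_le ha ξ

/-- the infinitesimal data attached to a smooth spherical vector -/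
structure Dat (T : Eu m → H →L[ℝ] H) (c κ : ℝ) (v x : H) (u z : Fin m → H) : Prop where
  der : ∀ j, HasDerivAt (fun s : ℝ => T (s • eb j) v) (z j) 0
  rad : ∀ y : Eu m, ∑ j, y j * ⟪T y (z j), v⟫_ℝ = -(‖y‖ ^ 2 * hf T x y)
  eqv : ∀ j, ∀ y ≠ 0, hf T (u j) y = c * hf T x y
  unc : ∀ j y y', ⟪T y (z j), T y' v⟫_ℝ =
    κ * (⟪T y (u j), T y' x⟫_ℝ - ⟪T y x, T y' (u j)⟫_ℝ)

variable {c κ : ℝ} {v x : H} {u z : Fin m → H}

theorem Dat.I2_eq (h : ZR T) (d : Dat T c κ v x u z) {a : ℝ} (ha : 0 < a) :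
    I2 a (hf T x) = 2 / a * Nn a (hf T v) := by
  have h1 := radial ha (h := hf T v) (d := fun j y => ⟪T y (z j), v⟫_ℝ) (h.bch v)
    (fun j => h.bc2 _ _) fun j y => by
      have := HasDerivAt.inner ℝ (h.line (d.der j) y) (hasDerivAt_const (0 : ℝ) v)
      unfold HasLineDerivAt hf
      simpa using this
  simp only [d.rad] at h1
  have h2 : ∫ y, ea a y * -(‖y‖ ^ 2 * hf T x y) = -I2 a (hf T x) := by
    rw [I2, ← integral_neg]
    exact integral_congr_ae (ae_of_all _ fun y => by ring)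
  rw [h2] at h1
  rw [Nn]; field_simp; field_simp at h1; linarith

theorem Dat.ae (d : Dat T c κ v x u z) (j : Fin m) :
    ∀ᵐ y : Eu m, hf T (u j) y = c * hf T x y := by
  haveI : Nonempty (Fin m) := ⟨j⟩
  filter_upwards [compl_mem_ae_iff.2 (measure_singleton (0 : Eu m))] with y hy using d.eqv j y hy

theorem Dat.I0_u (d : Dat T c κ v x u z) (j : Fin m) (a : ℝ) :
    I0 a (hf T (u j)) = c * I0 a (hf T x) := by
  rw [I0, I0, ← integral_const_mul]
  refine integral_congr_ae ?_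
  filter_upwards [d.ae j] with y hy
  rw [hy]; ring

theorem Dat.I2_u (d : Dat T c κ v x u z) (j : Fin m) (a : ℝ) :
    I2 a (hf T (u j)) = c * I2 a (hf T x) := by
  rw [I2, I2, ← integral_const_mul]
  refine integral_congr_ae ?_
  filter_upwards [d.ae j] with y hy
  rw [hy]; ring

theorem Dat.unc_Pv (h : ZR T) (d : Dat T c κ v x u z) {a : ℝ} (ha : 0 < a) {f f' : Eu m → ℝ}
    (hf : Gd a f) (hf' : Gd a f') (j : Fin m) :
    ⟪Pv T f (z j), Pv T f' v⟫_ℝ =
      κ * (⟪Pv T f (u j), Pv T f' x⟫_ℝ - ⟪Pv T f x, Pv T f' (u j)⟫_ℝ) := by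
  have e : ∀ ξ η, ⟪Pv T f ξ, Pv T f' η⟫_ℝ = ∫ y', f' y' * ⟪Pv T f ξ, T y' η⟫_ℝ := by
    intro ξ η
    rw [Pv.eq_1 T f', ← integral_inner (hf'.smul ha (h.bc η))]
    simp only [inner_smul_right]
  have e2 : ∀ ξ η, ⟪Pv T f ξ, η⟫_ℝ = ∫ y, f y * ⟪T y ξ, η⟫_ℝ := by
    intro ξ η
    rw [Pv, real_inner_comm, ← integral_inner (hf.smul ha (h.bc ξ))]
    simp only [inner_smul_right, real_inner_comm η]
  have e3 : ∀ y', ⟪Pv T f (z j), T y' v⟫_ℝ =
      κ * (⟪Pv T f (u j), T y' x⟫_ℝ - ⟪Pv T f x, T y' (u j)⟫_ℝ) := by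
    intro y'
    simp only [e2]
    rw [← integral_sub (hf.mul ha (h.bc2 _ _)) (hf.mul ha (h.bc2 _ _)), ← integral_const_mul]
    refine integral_congr_ae (ae_of_all _ fun y => ?_)
    simp only [d.unc]; ring
  have b : ∀ ξ η, Bc fun y' => ⟪ξ, T y' η⟫_ℝ := fun ξ η => by
    simpa only [real_inner_comm ξ] using h.bc2 η ξ
  simp only [e]
  rw [← integral_sub (hf'.mul ha (b _ _)) (hf'.mul ha (b _ _)), ← integral_const_mul]
  refine integral_congr_ae (ae_of_all _ fun y => ?_)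
  simp only [e3]; ring

/-- the constant in the uncertainty principle -/
noncomputable def Dc (m : ℕ) (c κ : ℝ) : ℝ := 2 * m * |κ| * √(c * m / 2)

theorem Dat.Nn_le (h : ZR T) (d : Dat T c κ v x u z) (hc : 0 ≤ c) {a : ℝ} (ha : 0 < a) :
    Nn a (hf T v) ≤ Dc m c κ * (a * √a) * I0 a (hf T x) := by
  have hb := half_pos ha
  have e : 2 * (a / 2) = a := by ring
  set W := Z m (a / 2 / 2) with hW
  have hW0 : 0 < W := Z_pos (half_pos hb)
  set I := I0 a (hf T x) with hI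
  have hI0 : 0 ≤ I := h.I0_nonneg ha x
  have h2 : 0 ≤ I2 a (hf T x) := by
    rw [d.I2_eq h ha]; have := h.Nn_nonneg ha v; positivity
  have hA : ∀ ξ, ‖Pv T (ea (a / 2)) ξ‖ ^ 2 = W * I0 a (hf T ξ) := fun ξ => by
    have := h.norm_A hb ξ; rwa [e] at this
  have hB : ∀ ξ, ∑ j, ‖Pv T (fun y => y j * ea (a / 2) y) ξ‖ ^ 2 = W * Nn a (hf T ξ) := fun ξ => by
    have := h.norm_B hb ξ; rwa [e] at this
  have hB' : ∀ ξ j, ‖Pv T (fun y => y j * ea (a / 2) y) ξ‖ ^ 2 ≤ W * Nn a (hf T ξ) := fun ξ j => by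
    rw [← hB]
    exact Finset.single_le_sum (f := fun j => ‖Pv T (fun y => y j * ea (a / 2) y) ξ‖ ^ 2)
      (fun _ _ => sq_nonneg _) (Finset.mem_univ j)
  have hN : Nn a (hf T x) ≤ m * a / 2 * I := by rw [Nn]; linarith
  have key : ∀ p q : ℝ, 0 ≤ p → 0 ≤ q → p ^ 2 * q ^ 2 ≤ c * (m * a / 2) * (W * I) ^ 2 →
      p * q ≤ √(c * m / 2) * √a * (W * I) := by
    intro p q hp hq hpq
    refine (pow_le_pow_iff_left₀ (by positivity) (by positivity) two_ne_zero).1 ?_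
    rw [mul_pow, mul_pow, mul_pow, sq_sqrt (by positivity), sq_sqrt ha.le]
    linarith
  have hj : ∀ j, ‖Pv T (fun y => y j * ea (a / 2) y) v‖ ^ 2 ≤
      2 * |κ| * √(c * m / 2) * (a * √a) * (W * I) := by
    intro j
    have k1 := key ‖Pv T (ea (a / 2)) (u j)‖ ‖Pv T (fun y => y j * ea (a / 2) y) x‖
      (norm_nonneg _) (norm_nonneg _) (by
        rw [hA, d.I0_u, ← hI]
        calc _ ≤ W * (c * I) * (W * (m * a / 2 * I)) :=
              mul_le_mul_of_nonneg_left ((hB' x j).trans (mul_le_mul_of_nonneg_left hN hW0.le))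
                (by positivity)
          _ = _ := by ring)
    have k2 := key ‖Pv T (ea (a / 2)) x‖ ‖Pv T (fun y => y j * ea (a / 2) y) (u j)‖
      (norm_nonneg _) (norm_nonneg _) (by
        have : Nn a (hf T (u j)) = c * Nn a (hf T x) := by
          rw [Nn, Nn, d.I0_u, d.I2_u]; ring
        rw [hA, ← hI]
        calc _ ≤ W * I * (W * (c * (m * a / 2 * I))) := by
              refine mul_le_mul_of_nonneg_left ((hB' _ j).trans ?_) (by positivity)
              rw [this]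
              exact mul_le_mul_of_nonneg_left (mul_le_mul_of_nonneg_left hN hc) hW0.le
          _ = _ := by ring)
    rw [← real_inner_self_eq_norm_sq]
    nth_rewrite 1 [h.A_der hb (d.der j)]
    rw [e, real_inner_smul_left, d.unc_Pv h hb (gd_ea _) (gd_co _ j)]
    have k3 := abs_real_inner_le_norm (Pv T (ea (a / 2)) (u j))
      (Pv T (fun y => y j * ea (a / 2) y) x)
    have k4 := abs_real_inner_le_norm (Pv T (ea (a / 2)) x)
      (Pv T (fun y => y j * ea (a / 2) y) (u j))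
    calc _ ≤ a * (|κ| * (2 * (√(c * m / 2) * √a * (W * I)))) := by
          refine mul_le_mul_of_nonneg_left ((le_abs_self _).trans ?_) ha.le
          rw [abs_mul]
          refine mul_le_mul_of_nonneg_left ((abs_sub _ _).trans ?_) (abs_nonneg _)
          linarith
      _ = _ := by ring
  have hs := Finset.sum_le_sum fun j (_ : j ∈ Finset.univ) => hj j
  rw [hB, Finset.sum_const, Finset.card_univ, Fintype.card_fin, nsmul_eq_mul] at hs
  refine le_of_mul_le_mul_left (hs.trans_eq ?_) hW0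
  rw [Dc]; ring

theorem Dc_nonneg (m : ℕ) (c κ : ℝ) : 0 ≤ Dc m c κ := by unfold Dc; positivity

theorem Dat.I0_deriv (h : ZR T) (d : Dat T c κ v x u z) {a : ℝ} (ha : 0 < a) :
    HasDerivAt (fun a => I0 a (hf T x)) (Nn a (hf T v) / (2 * a ^ 3)) a := by
  refine (P092RK.I0_deriv ha (h.bch x)).congr_deriv ?_
  rw [d.I2_eq h ha]; field_simp; ring

theorem Dat.I0_bdd (h : ZR T) (d : Dat T c κ v x u z) (hc : 0 ≤ c) {a : ℝ} (ha : 1 ≤ a) :
    I0 a (hf T x) ≤ I0 1 (hf T x) * exp (Dc m c κ) := by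
  set D := Dc m c κ with hD
  have hD0 : 0 ≤ D := Dc_nonneg _ _ _
  have h1 := le_of_der (f := fun a => I0 a (hf T x) * exp (D / √a))
    (f' := fun a => exp (D / √a) * (Nn a (hf T v) - D * (a * √a) * I0 a (hf T x)) / (2 * a ^ 3))
    ha (fun b hb => ?_) (fun b hb => ?_)
  · simp only [sqrt_one, div_one] at h1
    refine le_trans ?_ h1
    exact le_mul_of_one_le_right (h.I0_nonneg (by linarith) x) (one_le_exp (by positivity))
  · have hb0 : 0 < b := by linarith [hb.1]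
    have hs : 0 < √b := sqrt_pos.2 hb0
    have h2 := ((hasDerivAt_const b D).div (hasDerivAt_sqrt hb0.ne') hs.ne').exp
    refine ((d.I0_deriv h hb0).mul h2).congr_deriv ?_
    have e : b = √b ^ 2 := (sq_sqrt hb0.le).symm
    simp only [Pi.div_apply]
    generalize √b = s at e hs
    subst e
    field_simp
    ring
  · have hb0 : 0 < b := by linarith [hb.1]
    have := d.Nn_le h hc hb0
    exact div_nonpos_of_nonpos_of_nonneg
      (mul_nonpos_of_nonneg_of_nonpos (exp_pos _).le (by linarith)) (by positivity)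

theorem Z_le (hm : 2 ≤ m) {a : ℝ} (ha : 0 < a) (ha1 : a ≤ 1) : Z m a ≤ Z m 1 * a := by
  rw [Z_eq ha]
  refine mul_le_mul_of_nonneg_left ?_ (Z_pos one_pos).le
  have : (2 : ℝ) ≤ m := by exact_mod_cast hm
  calc a ^ ((m : ℝ) / 2) ≤ a ^ (1 : ℝ) := rpow_le_rpow_of_exponent_ge ha ha1 (by linarith)
    _ = a := rpow_one a

theorem Dat.I0_one (h : ZR T) (d : Dat T c κ v x u z) (hm : 2 ≤ m) :
    I0 1 (hf T x) ≤ Z m 1 / 2 * (‖v‖ ^ 2 - Ga 1 (hf T v)) := by
  have hZ := Z_pos (m := m) one_pos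
  have h1 : ∀ ε, 0 < ε → ε ≤ 1 → I0 1 (hf T x) ≤
      Z m 1 / 2 * (‖v‖ ^ 2 - Ga 1 (hf T v)) + Z m 1 * ‖x‖ ^ 2 * ε := by
    intro ε hε hε1
    have h2 := le_of_der (f := fun a => I0 a (hf T x) + Z m 1 / 2 * Ga a (hf T v))
      (f' := fun a => Nn a (hf T v) / (2 * a ^ 3 * Z m a) * (Z m a - Z m 1 * a))
      hε1 (fun b hb => ?_) (fun b hb => ?_)
    · have h3 := h.I0_le hε x
      have h4 := mul_le_mul_of_nonneg_right (Z_le hm hε hε1) (sq_nonneg ‖x‖)
      have h5 := mul_le_mul_of_nonneg_left (h.Ga_le v hε) (half_pos hZ).le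
      linarith
    · have hb0 : 0 < b := hε.trans_le hb.1
      refine ((d.I0_deriv h hb0).add ((Ga_deriv hb0 (h.bch v)).const_mul _)).congr_deriv ?_
      have := (Z_pos (m := m) hb0).ne'
      field_simp
      ring
    · have hb0 : 0 < b := hε.trans_le hb.1
      have := h.Nn_nonneg hb0 v
      have := Z_pos (m := m) hb0
      exact mul_nonpos_of_nonneg_of_nonpos (by positivity) (by linarith [Z_le hm hb0 hb.2])
  have h6 : Tendsto (fun ε : ℝ => Z m 1 / 2 * (‖v‖ ^ 2 - Ga 1 (hf T v)) + Z m 1 * ‖x‖ ^ 2 * ε)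
      (𝓝[>] 0) (𝓝 (Z m 1 / 2 * (‖v‖ ^ 2 - Ga 1 (hf T v)) + Z m 1 * ‖x‖ ^ 2 * 0)) :=
    (Continuous.tendsto (by fun_prop) 0).mono_left nhdsWithin_le_nhds
  rw [mul_zero, add_zero] at h6
  refine ge_of_tendsto h6 ?_
  filter_upwards [Ioc_mem_nhdsGT one_pos] with ε hε using h1 ε hε.1 hε.2

theorem Dat.rate (h : ZR T) (d : Dat T c κ v x u z) (hc : 0 ≤ c) (hm : 2 ≤ m) {a b : ℝ}
    (ha : 1 ≤ a) (hab : a ≤ b) :
    Ga a (hf T v) - Ga b (hf T v) ≤ Dc m c κ * exp (Dc m c κ) * a ^ (-(((m : ℝ) - 1) / 2)) *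
      (‖v‖ ^ 2 - Ga 1 (hf T v)) := by
  set D := Dc m c κ with hD
  have hD0 : 0 ≤ D := Dc_nonneg _ _ _
  set R := ‖v‖ ^ 2 - Ga 1 (hf T v) with hR
  have hR0 : 0 ≤ R := sub_nonneg.2 (h.Ga_le v one_pos)
  have hm' : (2 : ℝ) ≤ m := by exact_mod_cast hm
  set p : ℝ := ((m : ℝ) - 1) / 2 with hp
  have h1 := le_of_der (f := fun a => D * exp D * a ^ (-p) * R - Ga a (hf T v))
    (f' := fun a => D * exp D * (-p * a ^ (-p - 1)) * R + Nn a (hf T v) / (a ^ 2 * Z m a))
    hab (fun s hs => ?_) (fun s hs => ?_)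
  · have : 0 ≤ D * exp D * b ^ (-p) * R := by
      have : 0 ≤ b := by linarith
      positivity
    linarith
  · have hs0 : 0 < s := by linarith [hs.1]
    refine ((((hasDerivAt_rpow_const (p := -p) (Or.inl hs0.ne')).const_mul
      (D * exp D)).mul_const R).sub (Ga_deriv hs0 (h.bch v))).congr_deriv ?_
    ring
  · have hs1 : 1 ≤ s := ha.trans hs.1
    have hs0 : 0 < s := by linarith
    have hZ := Z_pos (m := m) one_pos
    have h2 : Nn s (hf T v) ≤ D * (s * √s) * (Z m 1 / 2 * R * exp D) :=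
      (d.Nn_le h hc hs0).trans (mul_le_mul_of_nonneg_left ((d.I0_bdd h hc hs1).trans
        (mul_le_mul_of_nonneg_right (d.I0_one h hm) (exp_pos _).le)) (by positivity))
    have h3 : s * √s = s ^ (-p - 1) * (s ^ 2 * s ^ ((m : ℝ) / 2)) := by
      rw [sqrt_eq_rpow, ← rpow_natCast s 2, ← rpow_add hs0, ← rpow_add hs0,
        ← rpow_one_add' hs0.le (by norm_num)]
      congr 1
      rw [hp]; push_cast; ring
    have h4 : Nn s (hf T v) / (s ^ 2 * Z m s) ≤ D * exp D * (1 / 2 * s ^ (-p - 1)) * R := by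
      rw [div_le_iff₀ (by have := Z_pos (m := m) hs0; positivity), Z_eq hs0]
      refine h2.trans_eq ?_
      rw [h3]; ring
    have h5 : D * exp D * (1 / 2 * s ^ (-p - 1)) * R ≤ D * exp D * (p * s ^ (-p - 1)) * R := by
      have : 1 / 2 ≤ p := by rw [hp]; linarith
      gcongr
    linarith

end Vale.Agent.P092RK
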