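import Vale.Agent.P092RK.Approx
import Vale.Agent.P092RK.Core

/-!
P092, rank one, block K (helper93): the Heisenberg type structure and the decay rate.
-/

set_option linter.all false

open Matrix MeasureTheory Filter Topology Set
open scoped InnerProductSpace

namespace Vale.Agent.P092RK

open Vale.Agent.P092.H793.Re Vale.Agent.P092RG

variable {n : ℕ} {G : Type} [Group G] [TopologicalSpace G] {ρ : G →* SLn n} {w : Fin n → ℝ}

/-- the Clifford action of `g 2` on `g 1` -/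
def Jy (y X : Mat n) : Mat n := y * Xᵀ - Xᵀ * y

/-- the Clifford constant -/
noncomputable def cc (w : Fin n → ℝ) : ℝ := 2 / ip (diagonal w) (diagonal w)

section alg

variable (h : R1 ρ w) {X U y : Mat n}
include h

theorem cc_pos : 0 < cc w := div_pos two_pos h.h2_pos

theorem Jy_mem (hy : y ∈ h.g 2) (hX : X ∈ h.g 1) : Jy y X ∈ h.g 1 :=
  h.mem_cast (h.br_mem hy (h.tr_mem hX)) (by norm_num)

theorem comm21 (hy : y ∈ h.g 2) (hX : X ∈ h.g 1) : y * X = X * y :=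
  h.comm_of_big hy hX (by norm_num)

theorem comm22 {y' : Mat n} (hy : y ∈ h.g 2) (hy' : y' ∈ h.g 2) : y * y' = y' * y :=
  h.comm_of_big hy hy' (by norm_num)

theorem br_Jy (hy : y ∈ h.g 2) (hX : X ∈ h.g 1) :
    X * Jy y X - Jy y X * X = -(cc w * ip X X) • y := by
  have e : X * Jy y X - Jy y X * X = y * (X * Xᵀ - Xᵀ * X) - (X * Xᵀ - Xᵀ * X) * y := by
    have h1 := comm21 h hy hX
    calc _ = X * y * Xᵀ - X * Xᵀ * y - y * Xᵀ * X + Xᵀ * (y * X) := by unfold Jy; noncomm_ring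
      _ = y * X * Xᵀ - X * Xᵀ * y - y * Xᵀ * X + Xᵀ * (X * y) := by rw [h1]
      _ = _ := by noncomm_ring
  rw [e, h.sl2 hX, Matrix.mul_smul, Matrix.smul_mul, ← smul_sub, ← neg_sub, hy.2.comm, cc]
  match_scalars
  ring

theorem Jy_Jy (hy : y ∈ h.g 2) (hX : X ∈ h.g 1) : Jy y (Jy y X) = -(cc w * ip y y) • X := by
  have e : Jy y (Jy y X) = X * (y * yᵀ - yᵀ * y) - (y * yᵀ - yᵀ * y) * X := by
    have h1 := comm21 h hy hX
    calc _ = y * X * yᵀ - y * yᵀ * X - X * yᵀ * y + yᵀ * (X * y) := by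
          simp only [Jy, transpose_sub, transpose_mul, transpose_transpose]; noncomm_ring
      _ = X * y * yᵀ - y * yᵀ * X - X * yᵀ * y + yᵀ * (y * X) := by rw [h1]
      _ = _ := by noncomm_ring
  rw [e, h.sl2 hy, Matrix.mul_smul, Matrix.smul_mul, ← smul_sub, ← neg_sub, hX.2.comm, cc]
  match_scalars
  ring

omit h in
theorem ip_Jy (y X U : Mat n) : ip (Jy y X) U = -ip y (X * U - U * X) := by
  rw [Jy, ← neg_sub, ip_neg_left, ip_br, transpose_transpose]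

omit h in
theorem ip_Jy_self (y X : Mat n) : ip X (Jy y X) = 0 := by
  rw [ip_comm, ip_Jy, sub_self, ip_zero_right, neg_zero]

theorem ip_Jy_Jy {y' : Mat n} (hy' : y' ∈ h.g 2) (hX : X ∈ h.g 1) (y : Mat n) :
    ip (Jy y X) (Jy y' X) = cc w * ip X X * ip y y' := by
  rw [ip_Jy, br_Jy h hy' hX, ip_smul_right]; ring

theorem skew_of_ort {j : ℝ} (hX : X ∈ h.g j) (hU : U ∈ h.g j) (h0 : ip X U = 0) :
    (X * Uᵀ - Uᵀ * X)ᵀ = -(X * Uᵀ - Uᵀ * X) := by
  have h1 := h.sl2' hX hU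
  rw [h0, mul_zero, zero_div, zero_smul] at h1
  simp only [transpose_sub, transpose_mul, transpose_transpose]
  exact eq_neg_of_add_eq_zero_right h1

theorem exists_emb : ∃ e : Eu h.m2 →ₗ[ℝ] Mat n, (∀ y, e y ∈ h.g 2) ∧
    (∀ y y', ip (e y) (e y') = ⟪y, y'⟫_ℝ) ∧ ∀ Y ∈ h.g 2, ∃ y, e y = Y := by
  let core : InnerProductSpace.Core ℝ (h.g 2) :=
    { inner := fun x y => ip x.1 y.1
      conj_inner_symm := fun x y => ip_comm _ _
      re_inner_nonneg := fun x => ip_nonneg _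
      add_left := fun x y z => ip_add_left _ _ _
      smul_left := fun x y r => ip_smul_left _ _ _
      definite := fun x hx => Subtype.ext (eq_zero_of_ip hx) }
  letI := core.toNormedAddCommGroup
  letI := InnerProductSpace.ofCore core.toCore
  let b := stdOrthonormalBasis ℝ (h.g 2)
  refine ⟨(h.g 2).subtype ∘ₗ b.repr.symm.toLinearEquiv.toLinearMap, fun y => (b.repr.symm y).2,
    fun y y' => b.repr.symm.inner_map_map y y', fun Y hY => ⟨b.repr ⟨Y, hY⟩, ?_⟩⟩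
  exact congrArg Subtype.val (b.repr.symm_apply_apply ⟨Y, hY⟩)

end alg

/-- orthonormal coordinates on `g 2` -/
noncomputable def emb (h : R1 ρ w) : Eu h.m2 →ₗ[ℝ] Mat n := (exists_emb h).choose

theorem emb_mem (h : R1 ρ w) (y : Eu h.m2) : emb h y ∈ h.g 2 := (exists_emb h).choose_spec.1 y

theorem ip_emb (h : R1 ρ w) (y y' : Eu h.m2) : ip (emb h y) (emb h y') = ⟪y, y'⟫_ℝ :=
  (exists_emb h).choose_spec.2.1 y y'

theorem ip_emb_self (h : R1 ρ w) (y : Eu h.m2) : ip (emb h y) (emb h y) = ‖y‖ ^ 2 := by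
  rw [ip_emb, real_inner_self_eq_norm_sq]

theorem emb_surj (h : R1 ρ w) {Y : Mat n} (hY : Y ∈ h.g 2) : ∃ y, emb h y = Y :=
  (exists_emb h).choose_spec.2.2 Y hY

/-- the long root group -/
noncomputable def nz (h : R1 ρ w) (y : Eu h.m2) : G := ex ρ (emb h y)

theorem nz_cont (h : R1 ρ w) : Continuous (nz h) := by
  refine (emb_mat h.rs.emb).isInducing.continuous_iff.2 ?_
  have : (fun g : G => (ρ g).1) ∘ nz h = fun y => NormedSpace.exp (emb h y) :=
    funext fun y => mat_ex (emb_mem h y).1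
  rw [this]
  exact continuous_exp.comp (emb h).continuous_of_finiteDimensional

theorem nz_add (h : R1 ρ w) (y y' : Eu h.m2) : nz h (y + y') = nz h y * nz h y' := by
  rw [nz, map_add, ex_add h.rs.emb (emb_mem h y).1 (emb_mem h y').1
    (comm22 h (emb_mem h y) (emb_mem h y'))]
  rfl

theorem nz_zero (h : R1 ρ w) : nz h 0 = 1 := by rw [nz, map_zero, ex_zero h.rs.emb]

variable {H : Type*} [NormedAddCommGroup H] [InnerProductSpace ℝ H] [CompleteSpace H]
variable {π : G → H →L[ℝ] H} {S : Set H} {D : Mat n → H → H}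

theorem RR.zr (hπ : RR π) (h : R1 ρ w) : ZR fun y => π (nz h y) :=
  ⟨fun y y' ξ => by rw [nz_add, hπ.mul], fun ξ => by rw [nz_zero, hπ.one],
    fun y => hπ.inn _, fun ξ => (hπ.cont ξ).comp (nz_cont h)⟩

theorem Smo.adj1 (hS : Smo ρ π S D) (h : R1 ρ w) (hπ : RR π) {y U : Mat n} (hy : y ∈ h.g 2)
    (hU : U ∈ h.g 1) {ξ η : H} (hξ : ξ ∈ S) (hη : η ∈ S) :
    ⟪π (ex ρ y) (D U ξ), η⟫_ℝ = -⟪π (ex ρ y) ξ, D U η⟫_ℝ := by
  refine hS.adj h.rs.emb hπ hU.1 hU.1 ?_ hξ hη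
  rw [mat_ex hy.1, exp_ad (by simp [comm21 h hy hU]), comm21 h hy hU, sub_self, add_zero]

theorem Smo.key (hS : Smo ρ π S D) (h : R1 ρ w) (hπ : RR π) {y X : Mat n} (hy : y ∈ h.g 2)
    (hX : X ∈ h.g 1) {v : H} (hv : v ∈ S) (hk : ∀ κ, Ort ρ κ → π κ v = v) :
    ip y y * ⟪π (ex ρ y) (D X v), D X v⟫_ℝ = -(ip X X * ⟪π (ex ρ y) (D y v), v⟫_ℝ) := by
  have he := h.rs.emb
  have hU := Jy_mem h hy hX
  set U := Jy y X with hUd
  have hUt := (h.tr_mem hU).1
  have hx := hS.mem _ hX.1 v hv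
  have a1 := hS.brk _ _ hX.1 hU.1 v hv
  rw [br_Jy h hy hX, hS.smul hy.1 _ hv] at a1
  have a3 := hS.brk _ _ hX.1 hUt v hv
  rw [hS.skew (lie_bracket he hX.1 hUt) (skew_of_ort h hX hU (ip_Jy_self y X)) hv hk,
    hS.tr h.rs hU.1 hv hk] at a3
  have a4 := hS.adj he hπ (g := ex ρ y) hUt (lie_add he hUt (Jy_mem h hy hU).1)
    (by rw [mat_ex hy.1]; exact exp_ad (comm21 h hy (Jy_mem h hy hU))) hx hv
  rw [hS.add _ _ hUt (Jy_mem h hy hU).1 v hv, hS.tr h.rs hU.1 hv hk, Jy_Jy h hy hX,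
    hS.smul hX.1 _ hv, ← sub_eq_zero.1 a3.symm] at a4
  have a5 := hS.adj1 h hπ hy hU hx hv
  have a6 := congrArg (fun ξ => ⟪π (ex ρ y) ξ, v⟫_ℝ) a1
  simp only [map_smul, map_sub, inner_sub_left, real_inner_smul_left, a4, a5, inner_add_right,
    real_inner_smul_right] at a6
  refine mul_left_cancel₀ (cc_pos h).ne' ?_
  linarith

theorem Smo.dat (hS : Smo ρ π S D) (h : R1 ρ w) (hπ : RR π) {X : Mat n} (hX : X ∈ h.g 1)
    (h1 : ip X X = 1) {v : H} (hv : v ∈ S) (hk : ∀ κ, Ort ρ κ → π κ v = v) :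
    Dat (fun y => π (nz h y)) (cc w) (cc w)⁻¹ v (D X v) (fun j => D (Jy (emb h (eb j)) X) v)
      fun j => D (emb h (eb j)) v := by
  have hY : ∀ j, ip (emb h (eb j)) (emb h (eb j)) = 1 := fun j => by simp [ip_emb_self, eb]
  have key := fun y => hS.key h hπ (emb_mem h y) hX hv hk
  refine ⟨fun j => ?_, fun y => ?_, fun j y hy => ?_, fun j y y' => ?_⟩
  · simp only [nz, map_smul]
    exact hS.der _ (emb_mem h _).1 v hv
  · have e : emb h y = ∑ j, y j • emb h (eb j) := by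
      simp only [← map_smul, ← map_sum]
      congr 1
      ext i
      simp [eb, Finset.sum_apply, Pi.single_apply]
    have h2 := key y
    rw [ip_emb_self, h1, one_mul] at h2
    rw [hf, nz, h2, neg_neg]
    nth_rewrite 3 [e]
    rw [hS.sum h.rs.emb _ (fun j => (emb_mem h _).1) _ hv, map_sum, sum_inner]
    simp only [map_smul, real_inner_smul_left]
  · have h2 := key y
    have h3 := hS.key h hπ (emb_mem h y) (Jy_mem h (emb_mem h (eb j)) hX) hv hk
    rw [ip_Jy_Jy h (emb_mem h _) hX, hY, h1, ip_emb_self] at h3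
    rw [ip_emb_self, h1] at h2
    refine mul_left_cancel₀ (pow_ne_zero 2 (norm_ne_zero_iff.2 hy)) ?_
    simp only [hf, nz]
    linear_combination h3 - cc w * h2
  · have hU := Jy_mem h (emb_mem h (eb j)) hX
    have a1 := hS.brk _ _ hX.1 hU.1 v hv
    rw [br_Jy h (emb_mem h _) hX, hS.smul (emb_mem h _).1 _ hv, h1, mul_one] at a1
    have a2 := congrArg (fun ξ => ⟪π (nz h (y - y')) ξ, v⟫_ℝ) a1
    simp only [map_smul, map_sub, inner_sub_left, real_inner_smul_left, nz] at a2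
    rw [← map_sub, hS.adj1 h hπ (emb_mem h _) hX (hS.mem _ hU.1 v hv) hv,
      hS.adj1 h hπ (emb_mem h _) hU (hS.mem _ hX.1 v hv) hv] at a2
    simp only [(hπ.zr h).sub]
    simp only [nz]
    have := (cc_pos h).ne'
    field_simp
    linarith

theorem ZR.Ga_tendsto {m : ℕ} {T : Eu m → H →L[ℝ] H} (h : ZR T) {a : ℝ} (ha : 0 < a) :
    Continuous fun ξ => Ga a (hf T ξ) := by
  refine continuous_iff_continuousAt.2 fun v => ?_
  have key : ∀ ξ, ‖Ga a (hf T ξ) - Ga a (hf T v)‖ ≤ ‖ξ - v‖ * (‖ξ‖ + ‖v‖) := by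
    intro ξ
    rw [Ga, Ga, ← sub_div, norm_div, Real.norm_of_nonneg (Z_pos ha).le, div_le_iff₀ (Z_pos ha),
      I0, I0, ← integral_sub ((gd_ea a).mul ha (h.bch ξ)) ((gd_ea a).mul ha (h.bch v)),
      ← integral_ea ha, ← integral_const_mul]
    refine norm_integral_le_of_norm_le ((integrable_ea ha).const_mul _) (ae_of_all _ fun y => ?_)
    rw [← mul_sub, norm_mul, Real.norm_of_nonneg (ea_pos a y).le, mul_comm]
    refine mul_le_mul_of_nonneg_right ?_ (ea_pos a y).le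
    have e : hf T ξ y - hf T v y = ⟪T y (ξ - v), ξ⟫_ℝ + ⟪T y v, ξ - v⟫_ℝ := by
      simp only [hf, map_sub, inner_sub_left, inner_sub_right]; ring
    have h1 := norm_inner_le_norm (𝕜 := ℝ) (T y (ξ - v)) ξ
    have h2 := norm_inner_le_norm (𝕜 := ℝ) (T y v) (ξ - v)
    rw [h.norm] at h1 h2
    rw [e]
    refine (norm_add_le _ _).trans ?_
    linarith
  refine tendsto_iff_norm_sub_tendsto_zero.2 (squeeze_zero (fun _ => norm_nonneg _) key ?_)
  have : Continuous fun ξ : H => ‖ξ - v‖ * (‖ξ‖ + ‖v‖) := by fun_prop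
  simpa using this.tendsto v

/-- the constant in the decay estimate -/
noncomputable def Cr (h : R1 ρ w) : ℝ :=
  Dc h.m2 (cc w) (cc w)⁻¹ * Real.exp (Dc h.m2 (cc w) (cc w)⁻¹)

theorem Cr_nonneg (h : R1 ρ w) : 0 ≤ Cr h := mul_nonneg (Dc_nonneg _ _ _) (Real.exp_pos _).le

theorem exists_unit (h : R1 ρ w) : ∃ X ∈ h.g 1, ip X X = 1 := by
  obtain ⟨X, h1, h2, h3⟩ := h.one
  have hp := ip_pos h2
  refine ⟨(√(ip X X))⁻¹ • X, (h.g 1).smul_mem _ ⟨h1, h3⟩, ?_⟩
  rw [ip_smul_left, ip_smul_right, ← mul_assoc, ← mul_inv, Real.mul_self_sqrt hp.le,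
    inv_mul_cancel₀ hp.ne']

theorem RR.rate (hπ : RR π) (h : R1 ρ w) (hm : 2 ≤ h.m2) {v : H}
    (hk : ∀ κ, Ort ρ κ → π κ v = v) {a b : ℝ} (ha : 1 ≤ a) (hab : a ≤ b) :
    Ga a (hf (fun y => π (nz h y)) v) - Ga b (hf (fun y => π (nz h y)) v) ≤
      Cr h * a ^ (-(((h.m2 : ℝ) - 1) / 2)) * (‖v‖ ^ 2 - Ga 1 (hf (fun y => π (nz h y)) v)) := by
  obtain ⟨X, hX, h1⟩ := exists_unit h
  have hz := hπ.zr h
  have hc : IsClosed {v : H | Ga a (hf (fun y => π (nz h y)) v) -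
      Ga b (hf (fun y => π (nz h y)) v) ≤ Cr h * a ^ (-(((h.m2 : ℝ) - 1) / 2)) *
        (‖v‖ ^ 2 - Ga 1 (hf (fun y => π (nz h y)) v))} :=
    isClosed_le ((hz.Ga_tendsto (by linarith)).sub (hz.Ga_tendsto (by linarith)))
      (continuous_const.mul ((continuous_norm.pow 2).sub (hz.Ga_tendsto one_pos)))
  refine hc.closure_subset (Metric.mem_closure_iff.2 fun ε hε => ?_)
  obtain ⟨S, D, hS, u, hu, huk, hd⟩ := exists_smo h.rs.emb hπ hk (half_pos hε)
  refine ⟨u, (hS.dat h hπ hX h1 hu huk).rate hz (cc_pos h).le hm ha hab, ?_⟩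
  rw [dist_comm, dist_eq_norm]
  linarith

end Vale.Agent.P092RK
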