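import Vale.Agent.P092RK.Gard
import Mathlib.Analysis.Calculus.BumpFunction.InnerProduct

/-!
P092, rank one, block K (helper93): smooth spherical vectors are dense; the calculus of smooth
vectors.
-/

set_option linter.all false

open Matrix MeasureTheory Filter Topology Set
open scoped InnerProductSpace ContDiff

namespace Vale.Agent.P092RK

open Vale.Agent.P092.H793.Re Vale.Agent.P092RG

attribute [local instance] Matrix.linftyOpNormedRing Matrix.linftyOpNormedAlgebra

variable {n : ℕ} {G : Type} [Group G] [TopologicalSpace G] {ρ : G →* SLn n}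
variable {H : Type*} [NormedAddCommGroup H] [InnerProductSpace ℝ H] [CompleteSpace H]
variable {π : G → H →L[ℝ] H}

/-- the distance from the orthogonal group -/
noncomputable def qo (A : Mat n) : ℝ := ip (A * Aᵀ - 1) (A * Aᵀ - 1)

theorem qo_smooth : ContDiff ℝ ∞ (qo (n := n)) := by
  have ht : ContDiff ℝ ∞ fun A : Mat n => Aᵀ :=
    (LinearMap.toContinuousLinearMap (transposeLinearEquiv (Fin n) (Fin n) ℝ ℝ).toLinearMap).contDiff
  have hr : ContDiff ℝ ∞ fun A : Mat n => A.trace :=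
    (LinearMap.toContinuousLinearMap (traceLinearMap (Fin n) ℝ ℝ)).contDiff
  have h1 : ContDiff ℝ ∞ fun A : Mat n => A * Aᵀ - 1 := (contDiff_id.mul ht).sub contDiff_const
  exact hr.comp (h1.mul (ht.comp h1))

theorem qo_cpt : IsCompact {A : Mat n | qo A ≤ 1} := by
  have hb : {A : Mat n | qo A ≤ 1} ⊆ Set.univ.pi fun _ => Set.univ.pi fun _ =>
      Set.Icc (-2 : ℝ) 2 := by
    intro A hA i _ j _
    have h1 : (A * Aᵀ - 1) i i ^ 2 ≤ 1 := (sq_le_ip _ i i).trans hA
    rw [Matrix.sub_apply, Matrix.mul_apply, Matrix.one_apply_eq] at h1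
    simp only [Matrix.transpose_apply] at h1
    have h3 : A i j * A i j ≤ ∑ l, A i l * A i l :=
      Finset.single_le_sum (f := fun l => A i l * A i l)
        (fun l _ => mul_self_nonneg _) (Finset.mem_univ j)
    have h4 : ∑ l, A i l * A i l ≤ 2 := by nlinarith
    exact ⟨by nlinarith, by nlinarith⟩
  exact IsCompact.of_isClosed_subset
    (isCompact_univ_pi fun _ => isCompact_univ_pi fun _ => isCompact_Icc)
    (isClosed_le qo_smooth.continuous continuous_const) hb

theorem qo_ort {κ : G} (h : Ort ρ κ) (A : Mat n) : qo ((ρ κ).1 * A) = qo A := by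
  have e : (ρ κ).1 * A * ((ρ κ).1 * A)ᵀ - 1 = (ρ κ).1 * (A * Aᵀ - 1) * (ρ κ).1ᵀ := by
    rw [Matrix.mul_sub, Matrix.sub_mul, Matrix.mul_one, show (ρ κ).1 * (ρ κ).1ᵀ = 1 from h,
      transpose_mul]
    simp only [Matrix.mul_assoc]
  rw [qo, e, ip_ort (ort_symm h), qo]

theorem exists_smo (he : IsClosedEmbedding ρ) (h : RR π) {v : H}
    (hv : ∀ κ, Ort ρ κ → π κ v = v) {ε : ℝ} (hε : 0 < ε) :
    ∃ S D, Smo ρ π S D ∧ ∃ w ∈ S, (∀ κ, Ort ρ κ → π κ w = w) ∧ ‖w - v‖ ≤ ε := by
  haveI := topGroup he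
  haveI := locComp he
  haveI := secCount he
  haveI := t2 he
  letI : MeasurableSpace G := borel G
  haveI : BorelSpace G := ⟨rfl⟩
  set μ : Measure G := Measure.haar
  have hm := (emb_mat he).continuous
  have hq : Continuous fun g : G => qo (ρ g).1 := qo_smooth.continuous.comp hm
  obtain ⟨δ, hδ, hδ1, hd⟩ : ∃ δ : ℝ, 0 < δ ∧ δ ≤ 1 ∧ ∀ g, qo (ρ g).1 < δ → ‖π g v - v‖ ≤ ε := by
    have hc : IsCompact ({g : G | qo (ρ g).1 ≤ 1} ∩ {g | ε ≤ ‖π g v - v‖}) :=
      ((emb_mat he).isCompact_preimage qo_cpt).inter_right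
        (isClosed_le continuous_const ((h.cont v).sub continuous_const).norm)
    obtain ⟨δ, hδ, hd⟩ := hc.exists_forall_le' hq.continuousOn (a := 0) fun g hg => by
      refine lt_of_le_of_ne (ip_nonneg _) fun h0 => ?_
      have h1 : Ort ρ g := sub_eq_zero.1 (eq_zero_of_ip h0.symm)
      have h2 := hg.2
      rw [mem_setOf_eq, hv g h1, sub_self, norm_zero] at h2
      exact h2.not_gt hε
    refine ⟨min δ 1, lt_min hδ one_pos, min_le_right _ _, fun g hg => ?_⟩
    by_contra h1
    exact (hd g ⟨(hg.trans_le (min_le_right _ _)).le, (not_le.1 h1).le⟩).not_gt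
      (hg.trans_le (min_le_left _ _))
  let b : ContDiffBump (0 : ℝ) := ⟨δ / 2, δ, by positivity, by linarith⟩
  have hb : ∀ A : Mat n, b (qo A) ≠ 0 → qo A < δ := fun A hA => by
    have : qo A ∈ Function.support b := hA
    rw [b.support_eq, Metric.mem_ball, dist_zero_right] at this
    exact (le_abs_self _).trans_lt this
  have hs : HasCompactSupport fun A : Mat n => b (qo A) :=
    HasCompactSupport.intro qo_cpt fun A hA => by
      by_contra h0
      exact hA ((hb A h0).le.trans hδ1)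
  have hsG : HasCompactSupport fun g : G => b (qo (ρ g).1) :=
    hs.comp_isClosedEmbedding (emb_mat he)
  have hcG : Continuous fun g : G => b (qo (ρ g).1) := b.continuous.comp hq
  have hiG : Integrable (fun g : G => b (qo (ρ g).1)) μ :=
    hcG.integrable_of_hasCompactSupport hsG
  have hpos : 0 < ∫ g, b (qo (ρ g).1) ∂μ :=
    hcG.integral_pos_of_hasCompactSupport_nonneg_nonzero hsG (fun g => b.nonneg) (x := 1) (by
      have : qo (ρ 1).1 = 0 := by simp [qo, ip]
      rw [this, b.one_of_mem_closedBall (Metric.mem_closedBall_self (by positivity))]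
      exact one_ne_zero)
  set M := ∫ g, b (qo (ρ g).1) ∂μ with hM
  have hF : Tf fun A : Mat n => M⁻¹ * b (qo A) :=
    ⟨contDiff_const.mul (b.contDiff.comp qo_smooth), hs.mul_left⟩
  refine ⟨_, _, gv_smo μ he h v, _, ⟨_, hF, rfl⟩, fun κ hκ => ?_, ?_⟩
  · rw [gv_act μ he h hF]
    simp only [qo_ort (ort_inv' hκ)]
  · have h1 : ∫ g, M⁻¹ * b (qo (ρ g).1) ∂μ = 1 := by
      rw [integral_const_mul, ← hM, inv_mul_cancel₀ hpos.ne']
    have h2 : v = ∫ g, (M⁻¹ * b (qo (ρ g).1)) • v ∂μ := by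
      rw [integral_smul_const, h1, one_smul]
    rw [gv]
    nth_rewrite 2 [h2]
    rw [← integral_sub (gv_int μ he h hF.1.continuous hF.2 v) ((hiG.const_mul _).smul_const _)]
    refine (norm_integral_le_of_norm_le ((hiG.const_mul M⁻¹).mul_const ε)
      (ae_of_all _ fun g => ?_)).trans ?_
    · have h3 : 0 ≤ M⁻¹ * b (qo (ρ g).1) := mul_nonneg (inv_pos.2 hpos).le b.nonneg
      rw [← smul_sub, norm_smul, Real.norm_of_nonneg h3]
      by_cases h0 : b (qo (ρ g).1) = 0
      · simp [h0]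
      · exact mul_le_mul_of_nonneg_left (hd g (hb _ h0)) h3
    · rw [integral_mul_const, h1, one_mul]

variable {S : Set H} {D : Mat n → H → H}

theorem Smo.smul (hS : Smo ρ π S D) {X : Mat n} (hX : Lie ρ X) (c : ℝ) {w : H} (hw : w ∈ S) :
    D (c • X) w = c • D X w := by
  have h1 := hS.der _ (lie_smul c hX) w hw
  have h2 : HasDerivAt (fun s : ℝ => π (ex ρ (s • X)) w) (D X w) (0 * c) := by
    rw [zero_mul]; exact hS.der _ hX w hw
  have h3 := h2.scomp (0 : ℝ) ((hasDerivAt_id (0 : ℝ)).mul_const c)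
  simp only [smul_smul] at h1
  rw [h1.unique h3, one_mul]

theorem Smo.adj (hS : Smo ρ π S D) (he : IsClosedEmbedding ρ) (h : RR π) {g : G} {U U' : Mat n}
    (hU : Lie ρ U) (hU' : Lie ρ U') (hc : (ρ g).1 * U = U' * (ρ g).1) {w w' : H} (hw : w ∈ S)
    (hw' : w' ∈ S) : ⟪π g (D U w), w'⟫_ℝ = -⟪π g w, D U' w'⟫_ℝ := by
  have h1 := ((π g).hasFDerivAt.comp_hasDerivAt (0 : ℝ) (hS.der _ hU w hw)).inner ℝ
    (hasDerivAt_const (0 : ℝ) w')
  have h2 := (hasDerivAt_const (0 : ℝ) (π g w)).inner ℝ (hS.der _ (lie_neg hU') w' hw')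
  have e : (fun s : ℝ => ⟪(π g ∘ fun s : ℝ => π (ex ρ (s • U)) w) s, w'⟫_ℝ) =
      fun s : ℝ => ⟪π g w, π (ex ρ (s • -U')) w'⟫_ℝ := by
    funext s
    rw [Function.comp, ← h.mul, ex_conj he (lie_smul s hU) (lie_smul s hU') (by
      rw [Matrix.mul_smul, Matrix.smul_mul, hc]), h.mul, h.left, ex_inv he (lie_smul s hU'),
      smul_neg]
  rw [e] at h1
  have h3 := h1.unique h2
  have h4 := hS.smul hU' (-1) hw'
  rw [neg_one_smul, neg_one_smul] at h4
  rw [h4] at h3
  simpa using h3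

theorem Smo.skew (hS : Smo ρ π S D) {X : Mat n} (hX : Lie ρ X) (hs : Xᵀ = -X) {v : H} (hv : v ∈ S)
    (hk : ∀ κ, Ort ρ κ → π κ v = v) : D X v = 0 := by
  have h1 := hS.der _ hX v hv
  have e : (fun s : ℝ => π (ex ρ (s • X)) v) = fun _ => v := by
    funext s
    refine hk _ ?_
    show _ * _ = _
    rw [mat_ex (lie_smul s hX), ← Matrix.exp_transpose, transpose_smul, hs,
      ← Matrix.exp_add_of_commute _ _ (((Commute.refl X).neg_right.smul_left s).smul_right s)]
    simp
  rw [e] at h1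
  exact h1.unique (hasDerivAt_const _ _)

theorem Smo.tr (hS : Smo ρ π S D) (hρ : RS ρ) {X : Mat n} (hX : Lie ρ X) {v : H} (hv : v ∈ S)
    (hk : ∀ κ, Ort ρ κ → π κ v = v) : D Xᵀ v = D X v := by
  have ht := lie_transpose hρ.adj hX
  have h1 := hS.add _ _ (lie_sub hρ.emb hX ht) ht v hv
  rw [sub_add_cancel, hS.skew (lie_sub hρ.emb hX ht) (by simp) hv hk, zero_add] at h1
  exact h1.symm

theorem Smo.sum (hS : Smo ρ π S D) (he : IsClosedEmbedding ρ) {ι : Type*} (s : Finset ι)
    {Y : ι → Mat n} (hY : ∀ i, Lie ρ (Y i)) (c : ι → ℝ) {w : H} (hw : w ∈ S) :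
    D (∑ i ∈ s, c i • Y i) w = ∑ i ∈ s, c i • D (Y i) w := by
  classical
  induction s using Finset.induction_on with
  | empty => simpa using hS.smul lie_zero 0 hw
  | insert a s ha ih =>
    rw [Finset.sum_insert ha, Finset.sum_insert ha, hS.add _ _ (lie_smul _ (hY a))
      ((lieS he).sum_mem fun i _ => lie_smul _ (hY i)) w hw, ih, hS.smul (hY a) _ hw]

theorem exp_ad {y U : Mat n} (h : y * (y * U - U * y) = (y * U - U * y) * y) :
    NormedSpace.exp y * U = (U + (y * U - U * y)) * NormedSpace.exp y := by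
  set V := y * U - U * y with hV
  have hd : ∀ s : ℝ, HasDerivAt (fun s : ℝ => NormedSpace.exp (s • -y) * (U + s • V) *
      NormedSpace.exp (s • y)) 0 s := by
    intro s
    have h1 := ((hasDerivAt_exp_smul_const (𝕂 := ℝ) (-y) s).mul
      (((hasDerivAt_id s).smul_const V).const_add U)).mul (hasDerivAt_exp_smul_const' (𝕂 := ℝ) y s)
    refine h1.congr_deriv ?_
    have e : -y * (U + s • V) + V + (U + s • V) * y = 0 := by
      simp only [Matrix.add_mul, Matrix.mul_add, Matrix.neg_mul, Matrix.mul_smul, Matrix.smul_mul, h]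
      rw [hV]; module
    calc _ = NormedSpace.exp (s • -y) * (-y * (U + s • V) + V + (U + s • V) * y) *
          NormedSpace.exp (s • y) := by
          simp only [id, one_smul, Pi.mul_apply]; noncomm_ring
      _ = 0 := by rw [e]; simp
  have h2 := is_const_of_deriv_eq_zero (fun s => (hd s).differentiableAt)
    (fun s => (hd s).deriv) 1 0
  simp only [one_smul, zero_smul, NormedSpace.exp_zero, add_zero, one_mul, mul_one] at h2
  nth_rewrite 1 [← h2]
  rw [← Matrix.mul_assoc, ← Matrix.mul_assoc,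
    ← Matrix.exp_add_of_commute _ _ (Commute.refl y).neg_right]
  simp

end Vale.Agent.P092RK
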