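import Vale.Agent.P092RK.RDefs

/-!
P092 (helper93), block REL: the weighted averages over the target group.
-/

set_option linter.all false

open scoped InnerProductSpace ENNReal NNReal CompactlySupported Pointwise
open MeasureTheory Filter Topology ContinuousLinearMap Set

namespace Vale.Agent.P092RK

open Vale.Agent.P092CP Vale.Agent.P092RD Vale.Agent.P092TH
open Vale.Agent.P092.RC (Cm Moore)

variable {G K : Type} [Group G] [TopologicalSpace G] [IsTopologicalGroup G]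
  [LocallyCompactSpace G] [SecondCountableTopology G] [T2Space G] [MeasurableSpace G] [BorelSpace G]
  [NormedAddCommGroup K] [InnerProductSpace ℂ K] [CompleteSpace K] {μ : Measure G}
  [μ.IsHaarMeasure] {W : Set (K →L[ℂ] K)} (S : Side μ W) {V L : Set G} {g g' : G → ℂ}
  {D : K →L[ℂ] K} {b : ℝ}

theorem lint_Pi (hL : MeasurableSet L) (ξ : K) :
    ∫⁻ h, ‖S.P L (S.π h⁻¹ ξ)‖ₑ ^ 2 ∂μ = μ L * ‖ξ‖ₑ ^ 2 := by
  have := S.inv
  rw [← S.lint_P hL]
  exact lintegral_inv_eq_self fun h => ‖S.P L (S.π h ξ)‖ₑ ^ 2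

theorem sqi_P (hL : IsCompact L) : SqI μ (fun h => S.P L * S.π h⁻¹) √(μ.real L) :=
  ⟨fun ξ => (cont_inv S (S.P L) ξ).aestronglyMeasurable, Real.sqrt_nonneg _, fun ξ => by
    rw [← ENNReal.ofReal_pow (Real.sqrt_nonneg _), Real.sq_sqrt measureReal_nonneg,
      ofReal_measureReal hL.measure_ne_top]
    exact (lint_Pi S hL.measurableSet ξ).le⟩

theorem sqi_g (hV : IsCompact V) (hg : Measurable g) (h0 : 0 ≤ b) (hb : ∀ h, ‖g h‖ ≤ b)
    (D : K →L[ℂ] K) :
    SqI μ (fun h => g h • (D * (S.P V⁻¹ * S.π h⁻¹))) (b * ‖D‖ * √(μ.real V⁻¹)) :=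
  (sqi_P S hV.inv).mono
    (fun ξ => hg.aestronglyMeasurable.smul (cont_inv S (D * S.P V⁻¹) ξ).aestronglyMeasurable)
    (mul_nonneg h0 (norm_nonneg _)) fun h ξ => by
      rw [smul_apply, norm_smul, mul_assoc]
      exact mul_le_mul (hb h) (D.le_opNorm _) (norm_nonneg _) h0

theorem inner_Av (hV : IsCompact V) (hL : IsCompact L) (hg : Bd g) (D : K →L[ℂ] K) (ξ η : K) :
    ⟪ξ, Av S V L D g η⟫_ℂ = ∫ h, g h * ⟪S.P L (S.π h⁻¹ ξ), D (S.P V⁻¹ (S.π h⁻¹ η))⟫_ℂ ∂μ := by
  obtain ⟨b, h0, hb⟩ := hg.nonneg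
  rw [Av, (sqi_P S hL).inner_gram (sqi_g S hV hg.meas h0 hb D)]
  simp only [smul_apply, inner_smul_right, mul_ap]

theorem int_Av (hV : IsCompact V) (hL : IsCompact L) (hg : Bd g) (D : K →L[ℂ] K) (ξ η : K) :
    Integrable (fun h => g h * ⟪S.P L (S.π h⁻¹ ξ), D (S.P V⁻¹ (S.π h⁻¹ η))⟫_ℂ) μ := by
  obtain ⟨b, h0, hb⟩ := hg.nonneg
  simpa only [smul_apply, inner_smul_right, mul_ap] using
    (sqi_P S hL).integrable (sqi_g S hV hg.meas h0 hb D) ξ η

theorem norm_Av (hV : IsCompact V) (hL : IsCompact L) (hg : Measurable g) (h0 : 0 ≤ b)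
    (hb : ∀ h, ‖g h‖ ≤ b) (D : K →L[ℂ] K) :
    ‖Av S V L D g‖ ≤ √(μ.real L) * (b * ‖D‖ * √(μ.real V⁻¹)) :=
  (sqi_P S hL).norm_gram (sqi_g S hV hg h0 hb D)

theorem cm_Av (hV : IsCompact V) (hL : IsCompact L) (hg : Bd g) (hD : Cm W D) :
    Cm W (Av S V L D g) := by
  obtain ⟨b, h0, hb⟩ := hg.nonneg
  refine (sqi_P S hL).gram_cm (sqi_g S hV hg.meas h0 hb D) fun h => ?_
  have := cm_smul (g h) (S.conj _ (cm_mul (S.cm_P hL.measurableSet)
    (cm_mul hD (S.cm_P hV.inv.measurableSet))) h)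
  change Cm W (adjoint (S.P L * S.π h⁻¹) * _)
  rw [adj_mul, S.adj, inv_inv, S.adjoint_P hL.measurableSet, mul_smul_comm]
  simpa only [mul_assoc] using this

theorem conj_Av (hV : IsCompact V) (hL : IsCompact L) (hg : Bd g) (D : K →L[ℂ] K) (k : G) :
    S.π k * Av S V L D g * S.π k⁻¹ = Av S V L D fun h => g (k⁻¹ * h) := ext_inner fun ξ η => by
  rw [mul_ap, mul_ap, ← adjoint_inner_left, S.adj, inner_Av S hV hL hg,
    inner_Av S hV hL (hg.comp (measurable_const_mul _)), ← integral_mul_left_eq_self _ k⁻¹]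
  simp only [pi_ap, mul_inv_rev, inv_inv, mul_inv_cancel_right]

theorem Av_add (hV : IsCompact V) (hL : IsCompact L) (hg : Bd g) (hg' : Bd g') (D : K →L[ℂ] K) :
    Av S V L D (g + g') = Av S V L D g + Av S V L D g' := ext_inner fun ξ η => by
  rw [add_apply, inner_add_right, inner_Av S hV hL hg, inner_Av S hV hL hg',
    inner_Av S hV hL (hg.add hg'), ← integral_add (int_Av S hV hL hg D ξ η) (int_Av S hV hL hg' D ξ η)]
  simp only [Pi.add_apply, add_mul]

theorem Av_smul (hV : IsCompact V) (hL : IsCompact L) (hg : Bd g) (c : ℂ) (D : K →L[ℂ] K) :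
    Av S V L D (c • g) = c • Av S V L D g := ext_inner fun ξ η => by
  rw [smul_apply, inner_smul_right, inner_Av S hV hL hg, inner_Av S hV hL (hg.smul c),
    ← integral_const_mul]
  simp only [Pi.smul_apply, smul_eq_mul, mul_assoc]

theorem Av_smul' (hV : IsCompact V) (hL : IsCompact L) (hg : Bd g) (c : ℂ) (D : K →L[ℂ] K) :
    Av S V L (c • D) g = c • Av S V L D g := ext_inner fun ξ η => by
  rw [smul_apply, inner_smul_right, inner_Av S hV hL hg, inner_Av S hV hL hg, ← integral_const_mul]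
  simp only [smul_apply, inner_smul_right, mul_left_comm]

/-- the windows as integrals over the group -/
theorem lint_win (hV : MeasurableSet V) {w : G → ℝ≥0∞} (hw : Measurable w) (ξ : K) :
    ∫⁻ h, w h * ‖S.P V⁻¹ (S.π h⁻¹ ξ)‖ₑ ^ 2 ∂μ =
      ∫⁻ x, (∫⁻ u in V, w (x * u) ∂μ) * ‖S.U ξ x‖ₑ ^ 2 ∂μ := by
  have e : ∀ h, ‖S.P V⁻¹ (S.π h⁻¹ ξ)‖ₑ ^ 2 =
      ∫⁻ x, {p : G × G | p.2⁻¹ * p.1 ∈ V}.indicator 1 (h, x) * ‖S.U ξ x‖ₑ ^ 2 ∂μ := fun h => by
    have h1 := ap_eq (S.π_P hV.inv h) (S.π h⁻¹ ξ)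
    rw [mul_ap, mul_ap, pi_ap, mul_inv_cancel, map_one, one_apply_eq_self] at h1
    rw [← S.enorm_π h, h1, S.enorm_P (measurable_const_mul _ hV.inv),
      ← lintegral_indicator (measurable_const_mul _ hV.inv)]
    refine lintegral_congr fun x => ?_
    by_cases a : x⁻¹ * h ∈ V <;> simp [indicator, a]
  have m1 : Measurable ({p : G × G | p.2⁻¹ * p.1 ∈ V}.indicator (1 : G × G → ℝ≥0∞)) :=
    measurable_one.indicator ((measurable_snd.inv.mul measurable_fst) hV)
  have m2 := meas_sq (S.U ξ)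
  simp only [e]
  refine (lintegral_congr fun h => (lintegral_const_mul'' (w h)
    ((m1.comp measurable_prodMk_left).aemeasurable.mul m2)).symm).trans ((lintegral_lintegral_swap
    ((hw.comp measurable_fst).aemeasurable.mul (m1.aemeasurable.mul m2.comp_snd))).trans
      (lintegral_congr fun x => ?_))
  rw [← lintegral_indicator hV, ← lintegral_mul_const (f := V.indicator fun u => w (x * u)) _
    ((hw.comp (measurable_const_mul x)).indicator hV), ← lintegral_mul_left_eq_self _ x]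
  refine lintegral_congr fun u => ?_
  by_cases a : u ∈ V <;> simp [indicator, a]

theorem bd_win (hV : IsCompact V) (hg : Bd g) : Bd fun x => ∫ u in V, g (x * u) ∂μ :=
  let ⟨b, hb⟩ := hg.bdd
  ⟨((hg.meas.comp measurable_mul).stronglyMeasurable.integral_prod_right').measurable,
    b * μ.real V, fun x => norm_setIntegral_le_of_norm_le_const hV.measure_lt_top fun u _ => hb _⟩

/-- **The window identity** -/
theorem Av_win (hV : IsCompact V) (hg : Bd g) :
    Av S V V⁻¹ 1 g = S.m fun x => ∫ u in V, g (x * u) ∂μ := ext_inner fun ξ η => by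
  obtain ⟨b, h0, hb⟩ := hg.nonneg
  have mV := hV.measurableSet
  have e : ∀ h, ⟪S.P V⁻¹ (S.π h⁻¹ ξ), S.P V⁻¹ (S.π h⁻¹ η)⟫_ℂ =
      ∫ x, ⟪S.U ξ x, S.U η x⟫_ℂ * V.indicator 1 (x⁻¹ * h) ∂μ := fun h => by
    rw [← adjoint_inner_right, S.adjoint_P mV.inv, ← mul_ap (S.P _), S.P_sq mV.inv,
      ← adjoint_inner_right (S.π _), S.adj, inv_inv, ← mul_ap, ← mul_ap, Side.P,
      S.cov (Bd.ind mV.inv), S.inner_m ((Bd.ind mV.inv).comp (measurable_const_mul _))]
    refine integral_congr_ae (.of_forall fun x => ?_)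
    by_cases a : x⁻¹ * h ∈ V <;> simp [indicator, a]
  have i1 : Integrable (fun p : G × G => g p.2 * (⟪S.U ξ p.1, S.U η p.1⟫_ℂ *
      V.indicator 1 (p.1⁻¹ * p.2))) (μ.prod μ) :=
    ((measurePreserving_prod_inv_mul μ μ).integrable_comp_of_integrable
      ((L2.integrable_inner (S.U ξ) (S.U η)).mul_prod
        ((integrableOn_const hV.measure_ne_top).integrable_indicator mV))).bdd_mul
      (hg.meas.comp measurable_snd).aestronglyMeasurable (.of_forall fun p => hb _)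
  rw [inner_Av S hV hV.inv hg, S.inner_m (bd_win hV hg)]
  simp only [one_apply_eq_self, e, ← integral_const_mul]
  rw [← integral_integral_swap (f := fun x h => g h * (⟪S.U ξ x, S.U η x⟫_ℂ *
    V.indicator 1 (x⁻¹ * h))) i1]
  refine integral_congr_ae (.of_forall fun x => ?_)
  beta_reduce
  rw [← integral_mul_left_eq_self _ x, ← integral_indicator mV, ← integral_mul_const]
  refine integral_congr_ae (.of_forall fun u => ?_)
  by_cases a : u ∈ V <;> simp [a]

/-- the windows of `P092TH` -/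
theorem m_wf {Y : Type} [TopologicalSpace Y] [MeasurableSpace Y] [BorelSpace Y] [MulAction G Y]
    [ContinuousSMul G Y] (hV : Bp μ V) (y : Y) (F : C_c(Y, ℝ)) :
    (S.m fun x => (wf μ V y F x : ℂ)) =
      (((μ.real V)⁻¹ : ℝ) : ℂ) • Av S V V⁻¹ 1 fun h => (F (h • y) : ℂ) := by
  have hb : Bd fun h : G => (F (h • y) : ℂ) :=
    (bd_cc F).comp (continuous_id.smul continuous_const).measurable
  rw [Av_win S hV.cpt hb, ← S.m_smul _ (bd_win hV.cpt hb)]
  refine congrArg _ (funext fun x => ?_)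
  simp [wf, ProbabilityTheory.cond, integral_smul_measure, integral_complex_ofReal, Measure.real]

end Vale.Agent.P092RK
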