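import Vale.Agent.P092RK.Size
import Vale.Agent.P092RG.Rad
import Vale.Agent.P284.H15.T.Del

/-!
P092, rank one, block K (helper93): positive definite functions and cocycles.
-/

set_option linter.all false

open Matrix MeasureTheory Filter Topology Set
open scoped InnerProductSpace

namespace Vale.Agent.P092RK

open Vale.Agent.P092.H793.Re Vale.Agent.P092RG
open Vale.Agent.P092.H933 (URep fixedSub)

section gauss

variable {m : ℕ} {H : Type*} [NormedAddCommGroup H] [InnerProductSpace ℝ H] [CompleteSpace H]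
  {T : Eu m → H →L[ℝ] H}

theorem ea_shift {a : ℝ} (ha : 0 < a) {z : Eu m} (hz : ‖z‖ ^ 2 ≤ a) (y : Eu m) :
    ea a (z - y) ≤ Real.exp (1 / 4) * ea (2 * a) y := by
  rw [ea, ea, ← Real.exp_add]
  refine Real.exp_le_exp.2 ?_
  have h1 : ‖y‖ ≤ ‖z‖ + ‖z - y‖ := by
    simpa using norm_sub_le z (z - y)
  have h2 : ‖y‖ ^ 2 ≤ 2 * a + 2 * ‖z - y‖ ^ 2 := by
    nlinarith [norm_nonneg y, sq_nonneg (‖z‖ - ‖z - y‖)]
  rw [div_add_div _ _ (by norm_num) (by positivity), div_le_div_iff₀ (by positivity) (by positivity)]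
  nlinarith

theorem ZR.two_d (h : ZR T) (v : H) (y : Eu m) :
    ‖T y v - v‖ ^ 2 = 2 * (‖v‖ ^ 2 - hf T v y) := by
  rw [norm_sub_sq_real, h.norm, hf]; ring

theorem ZR.disp (h : ZR T) {v : H} {M : ℝ} (hM : ∀ b, 1 ≤ b → ‖v‖ ^ 2 - Ga b (hf T v) ≤ M)
    (z : Eu m) : ‖v‖ ^ 2 - hf T v z ≤ (2 * Real.exp (1 / 4) * 2 ^ ((m : ℝ) / 2) + 2) * M := by
  set a := max 1 (‖z‖ ^ 2) with ha
  have ha1 : 1 ≤ a := le_max_left _ _
  have ha0 : 0 < a := by linarith
  set d : Eu m → ℝ := fun y => ‖v‖ ^ 2 - hf T v y with hd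
  have d0 : ∀ y, 0 ≤ d y := fun y => sub_nonneg.2 ((le_abs_self _).trans (h.abs_hf v y))
  have db : Bc d := ⟨continuous_const.sub (h.bch v).1, 2 * ‖v‖ ^ 2, fun y => by
    rw [Real.norm_of_nonneg (d0 y)]; linarith [neg_le_of_abs_le (h.abs_hf v y)]⟩
  have di : ∀ b, 1 ≤ b → I0 b d ≤ Z m b * M := by
    intro b hb
    have hb0 : 0 < b := by linarith
    have : I0 b d = Z m b * (‖v‖ ^ 2 - Ga b (hf T v)) := by
      simp only [I0, hd, mul_sub]
      rw [integral_sub ((integrable_ea hb0).mul_const _) ((gd_ea b).mul hb0 (h.bch v)),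
        integral_mul_const, integral_ea hb0, Ga, I0, mul_div_cancel₀ _ (Z_pos hb0).ne']
    rw [this]
    exact mul_le_mul_of_nonneg_left (hM b hb) (Z_pos hb0).le
  have d1 : ∀ y, d z ≤ 2 * d (z - y) + 2 * d y := by
    intro y
    have e : T z v - v = T y (T (z - y) v - v) + (T y v - v) := by
      rw [map_sub, ← h.add, add_sub_cancel]; abel
    have h1 := norm_add_le (T y (T (z - y) v - v)) (T y v - v)
    rw [← e, h.norm] at h1
    have h2 := h.two_d v z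
    have h3 := h.two_d v (z - y)
    have h4 := h.two_d v y
    simp only [hd]
    nlinarith [norm_nonneg (T z v - v), sq_nonneg (‖T (z - y) v - v‖ - ‖T y v - v‖)]
  have db' : Bc fun y => d (z - y) :=
    ⟨db.1.comp (continuous_const.sub continuous_id), db.2.imp fun C hC y => hC _⟩
  have i1 := (gd_ea a).mul ha0 db'
  have i2 := (gd_ea a).mul ha0 db
  have h1 : ∫ y, ea a y * d (z - y) ≤ Real.exp (1 / 4) * I0 (2 * a) d := by
    have e : ∫ y, ea a y * d (z - y) = ∫ y, ea a (z - y) * d y := by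
      rw [← integral_sub_left_eq_self _ volume z]
      simp only [sub_sub_cancel]
    rw [e, I0, ← integral_const_mul]
    refine integral_mono_of_nonneg (ae_of_all _ fun y => mul_nonneg (ea_pos _ _).le (d0 y))
      (((gd_ea _).mul (by positivity) db).const_mul _) (ae_of_all _ fun y => ?_)
    simp only
    rw [← mul_assoc]
    exact mul_le_mul_of_nonneg_right (ea_shift ha0 (le_max_right _ _) y) (d0 y)
  have h2 : Z m a * d z ≤ 2 * (∫ y, ea a y * d (z - y)) + 2 * I0 a d := by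
    rw [← integral_ea ha0, ← integral_mul_const, I0, ← integral_const_mul, ← integral_const_mul,
      ← integral_add (i1.const_mul _) (i2.const_mul _)]
    refine integral_mono ((integrable_ea ha0).mul_const _) ((i1.const_mul _).add (i2.const_mul _))
      fun y => ?_
    have := mul_le_mul_of_nonneg_left (d1 y) (ea_pos a y).le
    simp only
    linarith
  have h3 := mul_le_mul_of_nonneg_left (di (2 * a) (by linarith)) (Real.exp_pos (1 / 4)).le
  rw [Z_two ha0] at h3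
  refine le_of_mul_le_mul_left ?_ (Z_pos (m := m) ha0)
  have h4 := di a ha1
  linarith

end gauss

variable {n : ℕ} {G : Type} [Group G] [TopologicalSpace G] {ρ : G →* SLn n} {w : Fin n → ℝ}

theorem rr_nz (h : R1 ρ w) (y : Eu h.m2) : h.rr (nz h y) = rad w ‖y‖ := by
  obtain ⟨κ, hκ, κ', hκ', e⟩ := nz_kak h y
  rw [e, h.rr_kak hκ hκ' (rad_nonneg (norm_nonneg _))]

theorem exists_nz (h : R1 ρ w) (hm : 0 < h.m2) (g : G) :
    ∃ y, ∃ κ ∈ h.K, ∃ κ' ∈ h.K, g = κ * nz h y * κ' := by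
  obtain ⟨κ, hκ, κ', hκ', s, hs, e⟩ := h.kak g
  have hc := Real.sqrt_pos.2 (cc_pos h)
  set y : Eu h.m2 := (2 * Real.sinh s / √(cc w)) • eb ⟨0, hm⟩ with hy
  obtain ⟨k, hk, k', hk', e'⟩ := nz_kak h y
  have h1 : rad w ‖y‖ = s := by
    have := Real.sinh_nonneg_iff.2 hs
    rw [rad, hy, norm_smul, Real.norm_of_nonneg (by positivity), eb, EuclideanSpace.norm_single,
      norm_one, mul_one, mul_div_cancel₀ _ hc.ne', mul_div_cancel_left₀ _ two_ne_zero,
      Real.arsinh_sinh]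
  refine ⟨y, κ * k⁻¹, h.K.mul_mem hκ (h.K.inv_mem hk), k'⁻¹ * κ', h.K.mul_mem (h.K.inv_mem hk') hκ',
    ?_⟩
  rw [e', h1, e]; group

/-- the Kazhdan type constant -/
noncomputable def Ck (h : R1 ρ w) : ℝ :=
  (2 * Real.exp (1 / 4) * 2 ^ ((h.m2 : ℝ) / 2) + 2) * (1 + Cr h)

theorem Ck_pos (h : R1 ρ w) : 0 < Ck h := by have := Cr_nonneg h; unfold Ck; positivity

theorem RR.kazh {H : Type*} [NormedAddCommGroup H] [InnerProductSpace ℝ H] [CompleteSpace H]
    {π : G → H →L[ℝ] H} (hπ : RR π) (h : R1 ρ w) (hm : 2 ≤ h.m2) {v : H}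
    (hk : ∀ κ, Ort ρ κ → π κ v = v) (g : G) :
    ‖v‖ ^ 2 - ⟪π g v, v⟫_ℝ ≤ Ck h * (‖v‖ ^ 2 - Ga 1 (hf (fun y => π (nz h y)) v)) := by
  obtain ⟨y, κ, hκ, κ', hκ', rfl⟩ := exists_nz h (by omega) g
  rw [hπ.mul, hπ.mul, hk κ' hκ', hπ.left, hk _ (h.K.inv_mem hκ), Ck, mul_assoc]
  refine (hπ.zr h).disp (fun b hb => ?_) y
  have := hπ.rate h hm hk le_rfl hb
  rw [Real.one_rpow, mul_one] at this
  linarith

theorem exists_rr_pd (he : IsClosedEmbedding ρ) {φ : G → ℝ} (hc : Continuous φ)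
    (hp : (Matrix.of fun g g' => φ (g⁻¹ * g') : Matrix G G ℝ).PosSemidef) :
    ∃ (H : Type) (_ : NormedAddCommGroup H) (_ : InnerProductSpace ℝ H) (_ : CompleteSpace H)
      (π : G → H →L[ℝ] H) (v : H), RR π ∧ ∀ g, ⟪π g v, v⟫_ℝ = φ g := by
  haveI := topGroup he
  obtain ⟨H, i1, i2, i3, e, π, h1, h2⟩ := Vale.Agent.P284.H15.Del.exists_gns hp
    (MulAction.toPermHom G G) fun g i j => by simp [mul_assoc]
  have h3 : ∀ g i, π g (e i) = e (g * i) := h2
  have h4 : ∀ i j, ⟪e i, e j⟫_ℝ = φ (i⁻¹ * j) := h1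
  have hm : ∀ g g' ξ, π (g * g') ξ = π g (π g' ξ) := fun g g' ξ => by rw [map_mul]; rfl
  let S : Submodule ℝ H :=
    { carrier := {ξ | Continuous fun g => π g ξ}
      add_mem' := fun ha hb => by simp only [mem_setOf_eq, map_add]; exact ha.add hb
      zero_mem' := by simp only [mem_setOf_eq, map_zero]; exact continuous_const
      smul_mem' := fun c _ ha => by simp only [mem_setOf_eq, map_smul]; exact ha.const_smul c }
  have hS : IsClosed (S : Set H) := by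
    refine isClosed_of_closure_subset fun ξ hξ => continuous_of_uniform_approx_of_continuous ?_
    intro u hu
    obtain ⟨ε, hε, hu⟩ := Metric.mem_uniformity_dist.1 hu
    obtain ⟨η, hη, hd⟩ := Metric.mem_closure_iff.1 hξ ε hε
    exact ⟨_, hη, fun g => hu (by rwa [(π g).dist_map])⟩
  have hi : ∀ g, ∀ ξ ∈ S, (π g).toContinuousLinearEquiv.toContinuousLinearMap ξ ∈ S := by
    intro g ξ hξ
    have : Continuous fun k => π (k * g) ξ := (hξ : Continuous _).comp (continuous_mul_right g)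
    simp only [hm] at this
    exact this
  have hv : e 1 ∈ S := by
    refine continuous_iff_continuousAt.2 fun g => tendsto_iff_norm_sub_tendsto_zero.2 ?_
    have e1 : ∀ k, ‖π k (e 1) - π g (e 1)‖ = √(2 * φ 1 - 2 * φ (k⁻¹ * g)) := fun k => by
      rw [← Real.sqrt_sq (norm_nonneg _), norm_sub_sq_real, ← real_inner_self_eq_norm_sq,
        ← real_inner_self_eq_norm_sq, h3, h3, h4, h4, h4]
      simp only [mul_one, inv_mul_cancel]
      congr 1; ring
    have : Continuous fun k => √(2 * φ 1 - 2 * φ (k⁻¹ * g)) := by fun_prop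
    simpa [e1] using this.tendsto g
  haveI := hS.completeSpace_coe
  refine ⟨S, inferInstance, inferInstance, inferInstance,
    fun g => (π g).toContinuousLinearEquiv.toContinuousLinearMap.restrict (hi g), ⟨e 1, hv⟩,
    ⟨fun g g' ξ => Subtype.ext (hm g g' ξ), fun ξ => Subtype.ext ?_,
      fun g ξ η => (π g).inner_map_map ξ.1 η.1, fun ξ => continuous_induced_rng.2 ξ.2⟩, fun g => ?_⟩
  · show π 1 ξ.1 = ξ.1
    rw [map_one]; rfl
  · show ⟪π g (e 1), e 1⟫_ℝ = φ g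
    rw [real_inner_comm, h3, h4]; simp

/-- **the decay rate** for positive definite functions -/
theorem rate_pd (h : R1 ρ w) (hm : 2 ≤ h.m2) {φ : G → ℝ} (hc : Continuous φ)
    (hp : (Matrix.of fun g g' => φ (g⁻¹ * g') : Matrix G G ℝ).PosSemidef)
    (hK : ∀ κ ∈ h.K, φ κ = φ 1) :
    (∀ a b, 1 ≤ a → a ≤ b → (Ga a fun y => φ (nz h y)) - (Ga b fun y => φ (nz h y)) ≤
      Cr h * a ^ (-(((h.m2 : ℝ) - 1) / 2)) * (φ 1 - Ga 1 fun y => φ (nz h y))) ∧
    ∀ g, φ 1 - φ g ≤ Ck h * (φ 1 - Ga 1 fun y => φ (nz h y)) := by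
  obtain ⟨H, i1, i2, i3, π, v, hπ, e⟩ := exists_rr_pd h.rs.emb hc hp
  have e1 : ‖v‖ ^ 2 = φ 1 := by rw [← e, hπ.one, real_inner_self_eq_norm_sq]
  have e2 : hf (fun y => π (nz h y)) v = fun y => φ (nz h y) := funext fun y => e _
  have hk : ∀ κ, Ort ρ κ → π κ v = v := fun κ hκ => by
    rw [← sub_eq_zero, ← norm_eq_zero, ← pow_eq_zero_iff two_ne_zero, norm_sub_sq_real, hπ.norm, e,
      hK κ hκ, e1]
    ring
  rw [← e1, ← e2]
  exact ⟨fun a b ha hab => hπ.rate h hm hk ha hab, fun g => e g ▸ hπ.kazh h hm hk g⟩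

theorem coc_bdd (h : R1 ρ w) (hm : 2 ≤ h.m2) {W : Type*} [NormedAddCommGroup W]
    [InnerProductSpace ℝ W] {b : G → W} (hc : Continuous b)
    (hb : ∀ g g', ‖b (g⁻¹ * g')‖ = ‖b g - b g'‖) (hK : ∀ κ ∈ h.K, b κ = 0) :
    ∃ M, ∀ g, ‖b g‖ ≤ M := by
  haveI := gauE_prob (m := h.m2) one_pos
  have hk := Ck_pos h
  have h1 : Tendsto (fun t : ℝ => ∫ y, Real.exp (-t * ‖b (nz h y)‖ ^ 2) ∂gauE h.m2 1) (𝓝[>] 0)
      (𝓝 (∫ _, (1 : ℝ) ∂gauE h.m2 1)) := by
    refine tendsto_integral_filter_of_dominated_convergence (fun _ => 1)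
      (Eventually.of_forall fun t => Continuous.aestronglyMeasurable ?_) ?_ (integrable_const _)
      (ae_of_all _ fun y => ?_)
    · have := nz_cont h
      fun_prop
    · filter_upwards [self_mem_nhdsWithin] with t ht
      refine ae_of_all _ fun y => ?_
      rw [Real.norm_of_nonneg (Real.exp_pos _).le, Real.exp_le_one_iff, neg_mul, neg_nonpos]
      exact mul_nonneg (le_of_lt ht) (sq_nonneg _)
    · have : Continuous fun t : ℝ => Real.exp (-t * ‖b (nz h y)‖ ^ 2) := by fun_prop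
      simpa using (this.tendsto 0).mono_left nhdsWithin_le_nhds
  simp only [integral_const, probReal_univ, smul_eq_mul, mul_one] at h1
  obtain ⟨t, ht, ht0⟩ := ((h1.eventually (lt_mem_nhds (show 1 - 1 / (2 * Ck h) < 1 by
    have : 0 < 1 / (2 * Ck h) := by positivity
    linarith))).and self_mem_nhdsWithin).exists
  have ht0 : 0 < t := ht0
  have hp : (Matrix.of fun g g' => Real.exp (-t * ‖b (g⁻¹ * g')‖ ^ 2) : Matrix G G ℝ).PosSemidef := by
    simp only [hb]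
    exact (Vale.Agent.P284.H15.Del.psd_gauss (E := W) ht0.le).submatrix b
  have h2 := (rate_pd h hm (φ := fun g => Real.exp (-t * ‖b g‖ ^ 2)) (by fun_prop) hp
    (fun κ hκ => by simp only [hK κ hκ, hK 1 h.K.one_mem])).2
  refine ⟨√(1 / t), fun g => Real.le_sqrt_of_sq_le ?_⟩
  have h3 := h2 g
  simp only [hK 1 h.K.one_mem, norm_zero, Ga_eq one_pos] at h3
  rw [zero_pow two_ne_zero, mul_zero, Real.exp_zero] at h3
  have h4 : Ck h * (1 / (2 * Ck h)) = 1 / 2 := by field_simp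
  have h5 : 1 / 2 ≤ Real.exp (-t * ‖b g‖ ^ 2) := by nlinarith
  have h6 := Real.add_one_le_exp (t * ‖b g‖ ^ 2)
  have h7 : Real.exp (-t * ‖b g‖ ^ 2) * Real.exp (t * ‖b g‖ ^ 2) = 1 := by
    rw [← Real.exp_add]; simp
  rw [le_div_iff₀ ht0]
  nlinarith [Real.exp_pos (t * ‖b g‖ ^ 2)]

/-- **cocycles are coboundaries**, with a bound -/
theorem cocycle (h : R1 ρ w) (hm : 2 ≤ h.m2) {𝓗 : Type} [NormedAddCommGroup 𝓗]
    [InnerProductSpace ℂ 𝓗] [CompleteSpace 𝓗] {σ : G →* (𝓗 →L[ℂ] 𝓗)} (hσ : URep σ) {b : G → 𝓗}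
    (hc : Continuous b) (hb : ∀ g g', b (g * g') = b g + σ g (b g')) (hK : ∀ κ ∈ h.K, b κ = 0) :
    ∃ η, (∀ g, b g = η - σ g η) ∧ (∀ κ ∈ h.K, σ κ η = η) ∧ (fixedSub σ).starProjection η = 0 ∧
      ‖η‖ ^ 2 ≤ (1 + Cr h) / 2 * ∫ y, ‖b (nz h y)‖ ^ 2 ∂gauE h.m2 1 := by
  obtain ⟨ζ, hζ⟩ : ∃ ζ, ∀ g, σ g ζ + b g = ζ := by
    letI : InnerProductSpace ℝ 𝓗 := InnerProductSpace.complexToReal
    obtain ⟨M, hM⟩ := coc_bdd h hm hc (fun g g' => by
      have := hb g (g⁻¹ * g')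
      rw [mul_inv_cancel_left] at this
      rw [this, sub_add_cancel_left, norm_neg, hσ.iso]) hK
    let π : G →* (𝓗 ≃ₗᵢ[ℂ] 𝓗) :=
      { toFun := fun g => LinearIsometryEquiv.ofSurjective ⟨(σ g).toLinearMap, hσ.iso g⟩
          fun ξ => ⟨σ g⁻¹ ξ, by
            show σ g (σ g⁻¹ ξ) = ξ
            rw [← URep.mul_apply, mul_inv_cancel, URep.one_apply]⟩
        map_one' := LinearIsometryEquiv.ext fun ξ => URep.one_apply ξ
        map_mul' := fun g g' => LinearIsometryEquiv.ext fun ξ => URep.mul_apply g g' ξ }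
    exact Vale.Agent.P284.H15.Del.fix_of_bdd (π := Vale.Agent.P284.H15.Del.toReal π) hb hM
  set P := (fixedSub σ).starProjection with hP
  have hf : ∀ g, σ g (P ζ) = P ζ := (fixedSub σ).starProjection_apply_mem ζ
  have h1 : ∀ g, b g = (ζ - P ζ) - σ g (ζ - P ζ) := fun g => by
    rw [map_sub, hf, sub_sub_sub_cancel_right, eq_sub_iff_add_eq', hζ]
  have h2 : ∀ κ ∈ h.K, σ κ (ζ - P ζ) = ζ - P ζ := fun κ hκ => by
    have := h1 κ
    rw [hK κ hκ] at this
    exact (sub_eq_zero.1 this.symm).symm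
  have h3 : P (ζ - P ζ) = 0 := by
    rw [map_sub, hP, Submodule.starProjection_eq_self_iff.2
      ((fixedSub σ).starProjection_apply_mem ζ), sub_self]
  refine ⟨ζ - P ζ, h1, h2, h3, ?_⟩
  haveI := gauE_prob (m := h.m2) one_pos
  have h4 := rate0 h hm hσ h2 h3 le_rfl
  have h5 : ∫ y, ‖b (nz h y)‖ ^ 2 ∂gauE h.m2 1 =
      2 * (‖ζ - P ζ‖ ^ 2 - GG h σ 1 (ζ - P ζ) (ζ - P ζ)) := by
    have e : ∀ y, ‖b (nz h y)‖ ^ 2 =
        2 * (‖ζ - P ζ‖ ^ 2 - (⟪σ (nz h y) (ζ - P ζ), ζ - P ζ⟫_ℂ).re) := fun y => by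
      rw [h1, norm_sub_rev, norm_sub_sq (𝕜 := ℂ), hσ.iso]
      simp only [RCLike.re_to_complex]; ring
    simp only [e]
    have hi : Integrable (fun y => (⟪σ (nz h y) (ζ - P ζ), ζ - P ζ⟫_ℂ).re) (gauE h.m2 1) :=
      ((bc_nz2 h hσ _ _).int one_pos).re
    rw [integral_const_mul, integral_sub (integrable_const _) hi, GG]
    simp
  rw [Real.one_rpow, mul_one] at h4
  rw [h5]
  linarith

end Vale.Agent.P092RK
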