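import Vale.Agent.P092RK.Mu
import Vale.Agent.P092UB.Defs
import Vale.Agent.P284.H15.T.Cx

/-!
P092, rank one, block A (helper93): limits of asymptotically unitary cocycles.
-/

set_option linter.all false

open MeasureTheory Filter Topology Set
open scoped InnerProductSpace

namespace Vale.Agent.P092RK

open Vale.Agent.P092.H793.Re Vale.Agent.P092RG
open Vale.Agent.P092.H933 (URep fixedSub)
open Vale.Agent.P284.H15.T (Cx)

section gen

variable {G : Type} [Group G] [TopologicalSpace G] [IsTopologicalGroup G]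

theorem cont_of_mod {X : Type*} [NormedAddCommGroup X] {b : G → X} {ω : G → ℝ}
    (hω : Tendsto ω (𝓝 1) (𝓝 0)) (hb : ∀ g u, ‖b (g * u) - b g‖ ≤ ω u) : Continuous b := by
  refine continuous_iff_continuousAt.2 fun g => tendsto_iff_norm_sub_tendsto_zero.2 ?_
  have h1 : Tendsto (fun x => g⁻¹ * x) (𝓝 g) (𝓝 1) := by
    simpa using (continuous_const_mul g⁻¹).tendsto g
  refine squeeze_zero (fun _ => norm_nonneg _) (fun x => ?_) (hω.comp h1)
  simpa using hb g (g⁻¹ * x)

theorem exists_urep {E : Type} [NormedAddCommGroup E] [InnerProductSpace ℂ E] [CompleteSpace E]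
    (π : G →* (E ≃ₗᵢ[ℂ] E)) : ∃ (S : Submodule ℂ E) (_ : CompleteSpace S)
      (σ : G →* (S →L[ℂ] S)), URep σ ∧ (∀ g ξ, (σ g ξ : E) = π g ξ) ∧
      ∀ ξ, (Continuous fun g => π g ξ) → ξ ∈ S := by
  have hm : ∀ g g' ξ, π (g * g') ξ = π g (π g' ξ) := fun g g' ξ => by rw [map_mul]; rfl
  let S : Submodule ℂ E :=
    { carrier := {ξ | Continuous fun g => π g ξ}
      add_mem' := fun ha hb => by simp only [mem_setOf_eq, map_add]; exact ha.add hb
      zero_mem' := by simp only [mem_setOf_eq, map_zero]; exact continuous_const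
      smul_mem' := fun c _ ha => by simp only [mem_setOf_eq, map_smul]; exact ha.const_smul c }
  have hS : IsClosed (S : Set E) := by
    refine isClosed_of_closure_subset fun ξ hξ => continuous_of_uniform_approx_of_continuous ?_
    intro u hu
    obtain ⟨ε, hε, hu⟩ := Metric.mem_uniformity_dist.1 hu
    obtain ⟨η, hη, hd⟩ := Metric.mem_closure_iff.1 hξ ε hε
    exact ⟨_, hη, fun g => hu (by rwa [(π g).dist_map])⟩
  have hi : ∀ g, ∀ ξ ∈ S, (π g).toContinuousLinearEquiv.toContinuousLinearMap ξ ∈ S := by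
    intro g ξ hξ
    have : Continuous fun k => π (k * g) ξ := (hξ : Continuous _).comp (continuous_mul_right g)
    simp only [hm] at this
    exact this
  refine ⟨S, hS.completeSpace_coe,
    { toFun := fun g => (π g).toContinuousLinearEquiv.toContinuousLinearMap.restrict (hi g)
      map_one' := ContinuousLinearMap.ext fun ξ => Subtype.ext (by
        show π 1 ξ.1 = ξ.1
        rw [map_one]; rfl)
      map_mul' := fun g g' => ContinuousLinearMap.ext fun ξ => Subtype.ext (hm g g' ξ) },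
    ⟨fun g ξ => (π g).norm_map ξ.1, fun ξ => tendsto_subtype_rng.2 ?_⟩, fun _ _ => rfl,
    fun _ h => h⟩
  have := (ξ.2 : Continuous _).tendsto 1
  rwa [map_one] at this

theorem four {X : Type*} [NormedAddCommGroup X] [InnerProductSpace ℝ X] (a b c d : X) :
    ⟪a - b, c - d⟫_ℝ = (-‖a - c‖ ^ 2 + ‖a - d‖ ^ 2 + ‖b - c‖ ^ 2 - ‖b - d‖ ^ 2) / 2 := by
  simp only [norm_sub_sq_real, inner_sub_left, inner_sub_right]; ring

/-- the invariant kernel on pairs -/
noncomputable def kk (ψ : G → ℝ) (i j : G × G) : ℝ :=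
  (-ψ (i.1⁻¹ * j.1) + ψ (i.1⁻¹ * j.2) + ψ (i.2⁻¹ * j.1) - ψ (i.2⁻¹ * j.2)) / 2

theorem exists_coc {ψ : G → ℝ} (hc : Continuous ψ) (h1 : ψ 1 = 0)
    (hs : ∀ g g', ψ (g⁻¹ * g') = ψ (g'⁻¹ * g))
    (hp : (Matrix.of (kk ψ) : Matrix (G × G) (G × G) ℝ).PosSemidef) :
    ∃ (E : Type) (_ : NormedAddCommGroup E) (_ : InnerProductSpace ℂ E) (_ : CompleteSpace E)
      (σ : G →* (E →L[ℂ] E)) (β : G → E), URep σ ∧ Continuous β ∧
      (∀ g g', β (g * g') = β g + σ g (β g')) ∧ ∀ g g', ‖β g - β g'‖ ^ 2 = ψ (g⁻¹ * g') := by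
  obtain ⟨H, i1, i2, i3, e, π, e1, e2⟩ := Vale.Agent.P284.H15.Del.exists_gns hp
    (MulAction.toPermHom G (G × G)) fun g i j => by simp [kk, mul_assoc]
  have e3 : ∀ i j, ⟪e i, e j⟫_ℝ = kk ψ i j := e1
  have e4 : ∀ g a b, π g (e (a, b)) = e (g * a, g * b) := fun g a b => e2 g (a, b)
  have e5 : ∀ a b, e (a, b) = e (a, 1) - e (b, 1) := by
    intro a b
    rw [← sub_eq_zero, ← inner_self_eq_zero (𝕜 := ℝ)]
    simp only [inner_sub_left, inner_sub_right, e3, kk, inv_mul_cancel, h1, hs b a, hs 1 a, hs 1 b]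
    ring
  have e6 : ∀ a b, ‖e (a, 1) - e (b, 1)‖ ^ 2 = ψ (a⁻¹ * b) := by
    intro a b
    rw [← e5, ← real_inner_self_eq_norm_sq, e3]
    simp only [kk, inv_mul_cancel, h1, hs b a]
    ring
  have e7 : Continuous fun a => e (a, 1) := by
    refine continuous_iff_continuousAt.2 fun g => tendsto_iff_norm_sub_tendsto_zero.2 ?_
    have : Continuous fun k => √(ψ (k⁻¹ * g)) := by fun_prop
    simpa [← e6, h1] using this.tendsto g
  obtain ⟨S, i4, σ, hσ, e8, e9⟩ := exists_urep (Cx.rep π)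
  have e10 : ∀ g a, Cx.rep π g (Cx.of (e (a, 1))) = Cx.of (e (g * a, 1)) - Cx.of (e (g, 1)) := by
    intro g a
    rw [Cx.rep_of, e4, e5, mul_one, map_sub]
  have hm : ∀ a, Cx.of (e (a, 1)) ∈ S := fun a => e9 _ (by
    simp only [e10]
    exact (Cx.of.continuous.comp (e7.comp (continuous_mul_right a))).sub
      (Cx.of.continuous.comp e7))
  refine ⟨S, inferInstance, inferInstance, i4, σ, fun a => ⟨_, hm a⟩, hσ,
    (Cx.of.continuous.comp e7).subtype_mk _, fun g g' => Subtype.ext ?_, fun g g' => ?_⟩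
  · rw [Submodule.coe_add, e8, e10, add_sub_cancel]
  · rw [← e6, Submodule.coe_norm, Submodule.coe_sub, ← map_sub, Cx.norm_sq]
    simp

theorem exists_sub [SecondCountableTopology G] {F : ℕ → G → ℝ} {B ω : G → ℝ}
    (hB : ∀ k g, |F k g| ≤ B g) (hω : Tendsto ω (𝓝 1) (𝓝 0))
    (hF : ∀ k g u, |F k (g * u) - F k g| ≤ ω u) : ∃ (φ : ℕ → ℕ) (f : G → ℝ), StrictMono φ ∧
      ∀ g, Tendsto (fun k => F (φ k) g) atTop (𝓝 (f g)) := by
  set D := TopologicalSpace.denseSeq G
  obtain ⟨a, -, φ, hφ, ha⟩ := (isCompact_univ_pi fun j => isCompact_Icc (a := -B (D j))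
    (b := B (D j))).tendsto_subseq (x := fun k j => F k (D j)) fun k j _ => abs_le.1 (hB k _)
  have h1 : ∀ g, CauchySeq fun k => F (φ k) g := by
    intro g
    refine Metric.cauchySeq_iff.2 fun ε hε => ?_
    have h2 : Tendsto (fun x => x⁻¹ * g) (𝓝 g) (𝓝 1) := by
      simpa using (show Continuous fun x : G => x⁻¹ * g by fun_prop).tendsto g
    obtain ⟨j, h3⟩ := (TopologicalSpace.denseRange_denseSeq G).mem_nhds
      ((hω.comp h2).eventually (gt_mem_nhds (show 0 < ε / 3 by positivity)))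
    obtain ⟨N, hN⟩ := Metric.cauchySeq_iff.1 (tendsto_pi_nhds.1 ha j).cauchySeq (ε / 3)
      (by positivity)
    refine ⟨N, fun k hk l hl => ?_⟩
    have h4 := hN k hk l hl
    have h5 := hF (φ k) (D j) ((D j)⁻¹ * g)
    have h6 := hF (φ l) (D j) ((D j)⁻¹ * g)
    rw [mul_inv_cancel_left, abs_le] at h5 h6
    have h7 : ω ((D j)⁻¹ * g) < ε / 3 := h3
    simp only [Function.comp_apply, Real.dist_eq, abs_lt] at h4 ⊢
    constructor <;> linarith [h4.1, h4.2, h5.1, h5.2, h6.1, h6.2]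
  choose f hf using fun g => cauchySeq_tendsto_of_complete (h1 g)
  exact ⟨φ, f, hφ, hf⟩

end gen

theorem sq_int {α X : Type*} [MeasurableSpace α] {m : Measure α} [SFinite m] [NormedAddCommGroup X]
    [InnerProductSpace ℝ X] [CompleteSpace X] {f : α → X} (hf : Integrable f m) :
    ‖∫ x, f x ∂m‖ ^ 2 = ∫ z, ⟪f z.1, f z.2⟫_ℝ ∂m.prod m := by
  rw [← real_inner_self_eq_norm_sq]
  exact (integral_prod_bilin (innerSL ℝ) hf hf).symm

variable {n : ℕ} {G : Type} [Group G] [TopologicalSpace G] {ρ : G →* SLn n} {w : Fin n → ℝ}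
  [IsTopologicalGroup G] [LocallyCompactSpace G] [SecondCountableTopology G] [T2Space G]
  [MeasurableSpace G] [BorelSpace G]

/-- the constant in the bound for cocycles -/
noncomputable def Cc (h : R1 ρ w) : ℝ := √((1 + Cr h) * (1 + 2 * cc w * h.m2))

theorem coc_gap (h : R1 ρ w) (hm : 2 ≤ h.m2) {m : Measure G} [IsProbabilityMeasure m] {R θ : ℝ}
    (hR : ∀ᵐ g ∂m, h.rr g ≤ R) (hθ : 0 ≤ θ)
    (gap : ∀ (E : Type) [NormedAddCommGroup E] [InnerProductSpace ℂ E] [CompleteSpace E]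
      (σ : G →* (E →L[ℂ] E)), URep σ → ∀ v, (∀ κ ∈ h.K, σ κ v = v) →
      (fixedSub σ).starProjection v = 0 → ‖∫ g, σ g v ∂m‖ ≤ θ * ‖v‖) :
    Vale.Agent.P092UB.COC h m (2 * θ * Cc h) := by
  intro X _ _ _ b M ω hM hω hb hK hd x ε hε
  by_contra h0
  obtain ⟨φ₁, p1, q1⟩ := extraction_of_frequently_atTop (not_eventually.1 h0)
  obtain ⟨φ₂, f, p2, q2⟩ := exists_sub (F := fun k g => ‖b (φ₁ k) g‖) (fun k g => by
    rw [abs_norm]; exact hM _ g) hω fun k g u => (abs_norm_sub_norm_le _ _).trans (hb _ g u)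
  have hφ := (p1.comp p2).tendsto_atTop
  set φ := φ₁ ∘ φ₂ with hφd
  replace q2 : ∀ g, Tendsto (fun k => ‖b (φ k) g‖) atTop (𝓝 (f g)) := q2
  have hM0 : 0 ≤ M := by simpa [h.rr_one] using (norm_nonneg _).trans (hM 0 1)
  have hf : Continuous f := cont_of_mod hω fun g u => le_of_tendsto' ((q2 _).sub (q2 g)).norm
    fun k => (abs_norm_sub_norm_le _ _).trans (hb _ g u)
  have q3 : ∀ g g', Tendsto (fun k => ‖b (φ k) g - b (φ k) g'‖ ^ 2) atTop
      (𝓝 (f (g⁻¹ * g') ^ 2)) := fun g g' => by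
    simpa using ((hd g g').comp hφ).add ((q2 (g⁻¹ * g')).pow 2)
  have fK : ∀ κ ∈ h.K, f κ = 0 := fun κ hκ =>
    tendsto_nhds_unique (q2 κ) (by simp [hK _ κ hκ])
  letI : ∀ k, InnerProductSpace ℝ (X k) := fun k => InnerProductSpace.complexToReal
  have q4 : ∀ i j : G × G, Tendsto (fun k => ⟪b (φ k) i.1 - b (φ k) i.2,
      b (φ k) j.1 - b (φ k) j.2⟫_ℝ) atTop (𝓝 (kk (fun g => f g ^ 2) i j)) := fun i j => by
    simp only [four]
    exact ((((q3 _ _).neg.add (q3 _ _)).add (q3 _ _)).sub (q3 _ _)).div_const 2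
  obtain ⟨E, i1, i2, i3, σ, β, hσ, c1, c2, c3⟩ := exists_coc (ψ := fun g => f g ^ 2) (hf.pow 2)
    (by simp [fK 1 h.K.one_mem]) (fun g g' => tendsto_nhds_unique (q3 g g')
      (by simpa only [norm_sub_rev] using q3 g' g))
    ⟨Matrix.ext fun i j => tendsto_nhds_unique (q4 j i) (by
      simpa only [real_inner_comm, Matrix.of_apply] using q4 i j), fun c => ge_of_tendsto'
      (tendsto_finset_sum _ fun i _ => tendsto_finset_sum _ fun j _ =>
        ((q4 i j).const_mul (star (c i))).mul_const (c j)) fun k =>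
      (Vale.Agent.P284.H15.Del.psd_gram fun i : G × G => b (φ k) i.1 - b (φ k) i.2).2 c⟩
  have b1 : β 1 = 0 := by simpa [URep.one_apply] using c2 1 1
  have c4 : ∀ g, ‖β g‖ ^ 2 = f g ^ 2 := fun g => by simpa [b1] using c3 1 g
  obtain ⟨η, d1, d2, d3, d4⟩ := cocycle h hm hσ c1 c2 fun κ hκ => by simpa [fK κ hκ] using c4 κ
  have fM : ∀ g, ‖β g‖ ≤ M * (1 + h.rr g) := fun g => by
    rw [← abs_of_nonneg (norm_nonneg (β g)), (sq_eq_sq_iff_abs_eq_abs _ _).1 (c4 g)]
    exact le_of_tendsto' (q2 g).abs fun k => by rw [abs_norm]; exact hM _ g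
  have d5 : ‖η‖ ≤ Cc h * M := by
    haveI := gauE_prob (m := h.m2) one_pos
    have hc := cc_pos h
    have hr := Cr_nonneg h
    have i := ((integrable_sq_gauE (m := h.m2) one_pos).const_mul (cc w)).add
      (integrable_const (1 : ℝ))
    refine (abs_le_of_sq_le_sq' (d4.trans ?_) (mul_nonneg (Real.sqrt_nonneg _) hM0)).2
    refine (mul_le_mul_of_nonneg_left (integral_mono_of_nonneg (ae_of_all _ fun y => sq_nonneg _)
      (i.const_mul (2 * M ^ 2)) (ae_of_all _ fun y => ?_)) (by positivity)).trans_eq ?_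
    · have h1 := exp_rad_le (w := w) (norm_nonneg y)
      have h2 := Real.add_one_le_exp (rad w ‖y‖)
      have h3 := fM (nz h y)
      rw [rr_nz] at h3
      have h4 := pow_le_pow_left₀ (norm_nonneg _) (h3.trans
        (mul_le_mul_of_nonneg_left (show _ ≤ 1 + √(cc w) * ‖y‖ by linarith) hM0)) 2
      have h5 := Real.sq_sqrt hc.le
      have h6 : (1 + √(cc w) * ‖y‖) ^ 2 ≤ 2 * (cc w * ‖y‖ ^ 2 + 1) := by
        nlinarith [sq_nonneg (1 - √(cc w) * ‖y‖)]
      simp only [Pi.add_apply]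
      nlinarith [sq_nonneg M]
    · simp only [Pi.add_apply]
      rw [integral_const_mul, integral_add ((integrable_sq_gauE one_pos).const_mul _)
        (integrable_const _), integral_const_mul, integral_sq_gauE one_pos, mul_pow (√_),
        Real.sq_sqrt (by positivity)]
      simp
      ring
  letI : InnerProductSpace ℝ E := InnerProductSpace.complexToReal
  have hbd : ∀ {Y : Type} [NormedAddCommGroup Y] {c : G → Y}, (∀ g, ‖c g‖ ≤ M * (1 + h.rr g)) →
      ∀ g, h.rr g ≤ R → ‖c (x * g) - c g‖ ≤ 2 * M * (1 + h.rr x + R) := by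
    intro Y _ c hc g hg
    have := h.rr_mul_le x g
    have := h.rr_nonneg x
    nlinarith [norm_sub_le (c (x * g)) (c g), hc g, hc (x * g)]
  have hin : ∀ {Y : Type} [NormedAddCommGroup Y] {c : G → Y}, Continuous c →
      (∀ g, ‖c g‖ ≤ M * (1 + h.rr g)) → Integrable (fun g => c (x * g) - c g) m :=
    fun hc hc' => (integrable_const _).mono' (Continuous.aestronglyMeasurable (by fun_prop))
      (hR.mono (hbd hc'))
  have cb : ∀ k, Continuous (b k) := fun k => cont_of_mod hω (hb k)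
  have lim : Tendsto (fun k => ‖∫ g, (b (φ k) (x * g) - b (φ k) g) ∂m‖ ^ 2) atTop
      (𝓝 (‖∫ g, (β (x * g) - β g) ∂m‖ ^ 2)) := by
    simp only [sq_int (hin (cb _) (hM _)), sq_int (hin c1 fM)]
    refine tendsto_integral_of_dominated_convergence (fun _ => (2 * M * (1 + h.rr x + R)) ^ 2)
      (fun k => Continuous.aestronglyMeasurable (by have := cb (φ k); fun_prop))
      (integrable_const _) (fun k => ?_) (ae_of_all _ fun z => ?_)
    · filter_upwards [Measure.quasiMeasurePreserving_fst.ae hR,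
        Measure.quasiMeasurePreserving_snd.ae hR] with z h1 h2
      have h3 := hbd (hM (φ k)) _ h1
      exact (norm_inner_le_norm _ _).trans ((mul_le_mul h3 (hbd (hM (φ k)) _ h2) (norm_nonneg _)
        ((norm_nonneg _).trans h3)).trans_eq (sq _).symm)
    · rw [four, c3, c3, c3, c3]
      exact q4 (x * z.1, z.1) (x * z.2, z.2)
  have h1 : ‖∫ g, (β (x * g) - β g) ∂m‖ ≤ 2 * θ * Cc h * M := by
    have i := ur_int hσ (p := m) measurable_id' η
    simp only [d1, URep.mul_apply, sub_sub_sub_cancel_left]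
    rw [integral_sub i ((σ x).integrable_comp i), (σ x).integral_comp_comm i]
    refine (norm_sub_le _ _).trans ?_
    rw [hσ.iso]
    nlinarith [gap E σ hσ η d2 d3, mul_le_mul_of_nonneg_left d5 hθ]
  have h2 : 0 ≤ 2 * θ * Cc h * M := (norm_nonneg _).trans h1
  have h3 := ge_of_tendsto' lim fun k => pow_le_pow_left₀ (by positivity)
    (not_le.1 (q1 (φ₂ k))).le 2
  nlinarith [pow_le_pow_left₀ (norm_nonneg _) h1 2]

end Vale.Agent.P092RK
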