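import Vale.Agent.P092RK.Gauss
import Mathlib.MeasureTheory.Group.Prod
import Mathlib.MeasureTheory.Function.L2Space

/-!
P092, rank one, block K (helper93): Gaussian averages of a representation of a vector group.
-/

set_option linter.all false

open MeasureTheory Filter Topology Set Real
open scoped InnerProductSpace

namespace Vale.Agent.P092RK

variable {m : ℕ} {H : Type*} [NormedAddCommGroup H] [InnerProductSpace ℝ H] [CompleteSpace H]

/-- orthogonal representations of a vector group -/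
structure ZR (T : Eu m → H →L[ℝ] H) : Prop where
  add : ∀ y y' ξ, T (y + y') ξ = T y (T y' ξ)
  zero : ∀ ξ, T 0 ξ = ξ
  inn : ∀ y ξ η, ⟪T y ξ, T y η⟫_ℝ = ⟪ξ, η⟫_ℝ
  cont : ∀ ξ, Continuous fun y => T y ξ

/-- the diagonal coefficient -/
noncomputable def hf (T : Eu m → H →L[ℝ] H) (ξ : H) (y : Eu m) : ℝ := ⟪T y ξ, ξ⟫_ℝ

/-- averages -/
noncomputable def Pv (T : Eu m → H →L[ℝ] H) (f : Eu m → ℝ) (ξ : H) : H := ∫ y, f y • T y ξ

variable {T : Eu m → H →L[ℝ] H}

theorem ZR.norm (h : ZR T) (y : Eu m) (ξ : H) : ‖T y ξ‖ = ‖ξ‖ := by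
  rw [← sq_eq_sq₀ (norm_nonneg _) (norm_nonneg _), ← real_inner_self_eq_norm_sq,
    ← real_inner_self_eq_norm_sq, h.inn]

theorem ZR.bc (h : ZR T) (ξ : H) : Bc fun y => T y ξ := ⟨h.cont ξ, ‖ξ‖, fun y => (h.norm y ξ).le⟩

theorem ZR.bc2 (h : ZR T) (ξ η : H) : Bc fun y => ⟪T y ξ, η⟫_ℝ :=
  ⟨(h.cont ξ).inner continuous_const, ‖ξ‖ * ‖η‖, fun y => by
    refine (norm_inner_le_norm _ _).trans ?_; rw [h.norm]⟩

theorem ZR.bch (h : ZR T) (ξ : H) : Bc (hf T ξ) := h.bc2 ξ ξ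

theorem ZR.abs_hf (h : ZR T) (ξ : H) (y : Eu m) : |hf T ξ y| ≤ ‖ξ‖ ^ 2 := by
  refine (abs_real_inner_le_norm _ _).trans ?_
  rw [h.norm, sq]

theorem ZR.sub (h : ZR T) (y y' : Eu m) (ξ η : H) :
    ⟪T y ξ, T y' η⟫_ℝ = ⟪T (y - y') ξ, η⟫_ℝ := by
  rw [← h.inn y' (T (y - y') ξ), ← h.add, add_sub_cancel]

theorem ZR.line (h : ZR T) {v z : H} {e : Eu m} (hz : HasDerivAt (fun s : ℝ => T (s • e) v) z 0)
    (y : Eu m) : HasLineDerivAt ℝ (fun y => T y v) (T y z) y e := by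
  unfold HasLineDerivAt
  simp only [h.add]
  exact (T y).hasFDerivAt.comp_hasDerivAt 0 hz

theorem ZR.inner_Pv (h : ZR T) {a : ℝ} (ha : 0 < a) {f f' : Eu m → ℝ} (hf : Gd a f)
    (hf' : Gd a f') (ξ η : H) :
    ⟪Pv T f ξ, Pv T f' η⟫_ℝ = ∫ y', ∫ y, f y * f' y' * ⟪T y ξ, T y' η⟫_ℝ := by
  rw [Pv, Pv, ← integral_inner (hf'.smul ha (h.bc η))]
  refine integral_congr_ae (ae_of_all _ fun y' => ?_)
  simp only
  rw [real_inner_comm, ← integral_inner (hf.smul ha (h.bc ξ))]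
  refine integral_congr_ae (ae_of_all _ fun y => ?_)
  simp only [inner_smul_left, inner_smul_right, conj_trivial]
  rw [real_inner_comm]; ring

theorem conv {f f' h : Eu m → ℝ} (hf : Integrable f) (hf' : Integrable f') (hh : Bc h) :
    ∫ y', ∫ y, f y * f' y' * h (y - y') =
      ∫ z, (∫ t, f (t + (1 / 2 : ℝ) • z) * f' (t - (1 / 2 : ℝ) • z)) * h z := by
  obtain ⟨hc, C, hC⟩ := hh
  have h1 : ∀ y', ∫ y, f y * f' y' * h (y - y') = ∫ z, f (y' + z) * f' y' * h z := by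
    intro y'
    rw [← integral_add_left_eq_self _ y']
    simp only [add_sub_cancel_left]
  have h2 : Integrable (Function.uncurry fun y' z => f (y' + z) * f' y' * h z)
      ((volume : Measure (Eu m)).prod volume) := by
    have h3 := (measurePreserving_prod_add (volume : Measure (Eu m))
      (volume : Measure (Eu m))).integrable_comp_of_integrable (hf'.mul_prod hf)
    have h4 := h3.mul_bdd (g := fun p : Eu m × Eu m => h p.2) (c := C)
      (hc.comp continuous_snd).aestronglyMeasurable (ae_of_all _ fun p => hC _)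
    refine h4.congr (ae_of_all _ fun p => ?_)
    simp only [Function.comp, Function.uncurry]; ring
  simp only [h1]
  rw [integral_integral_swap h2]
  refine integral_congr_ae (ae_of_all _ fun z => ?_)
  simp only
  rw [integral_mul_const, ← integral_sub_right_eq_self _ ((1 / 2 : ℝ) • z)]
  congr 1
  refine integral_congr_ae (ae_of_all _ fun t => ?_)
  simp only
  congr 2
  module

theorem ea_mid {b : ℝ} (hb : 0 < b) (t z : Eu m) :
    ea b (t + (1 / 2 : ℝ) • z) * ea b (t - (1 / 2 : ℝ) • z) = ea (b / 2) t * ea (2 * b) z := by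
  unfold ea
  rw [← exp_add, ← exp_add]
  congr 1
  rw [norm_add_sq_real, norm_sub_sq_real, norm_smul, mul_pow, Real.norm_eq_abs, sq_abs]
  field_simp
  ring

theorem ZR.norm_A (h : ZR T) {b : ℝ} (hb : 0 < b) (ξ : H) :
    ‖Pv T (ea b) ξ‖ ^ 2 = Z m (b / 2) * I0 (2 * b) (hf T ξ) := by
  rw [← real_inner_self_eq_norm_sq, h.inner_Pv hb (gd_ea b) (gd_ea b)]
  simp only [h.sub]
  rw [conv (integrable_ea hb) (integrable_ea hb) (h.bc2 ξ ξ), I0, ← integral_const_mul]
  refine integral_congr_ae (ae_of_all _ fun z => ?_)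
  simp only [ea_mid hb]
  rw [integral_mul_const, integral_ea (by positivity), hf]
  ring

theorem gd_co3 (a c d : ℝ) (j : Fin m) : Gd a fun y : Eu m => (c - d * y j ^ 2) * ea a y :=
  gd_of (by fun_prop) (|c| + |d|) fun y => by
    have h1 : y j ^ 2 ≤ ‖y‖ ^ 2 := by
      rw [← sq_abs]; exact pow_le_pow_left₀ (abs_nonneg _) (abs_co y j) 2
    have h2 : |c - d * y j ^ 2| ≤ |c| + |d| * y j ^ 2 := by
      refine (abs_sub _ _).trans ?_
      rw [abs_mul, abs_of_nonneg (sq_nonneg (y j))]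
    have h3 := abs_nonneg d
    have h4 := abs_nonneg c
    nlinarith [sq_nonneg ‖y‖, mul_le_mul_of_nonneg_left h1 h3, mul_nonneg h4 (sq_nonneg ‖y‖)]

/-- the quantity `∑ ‖B j ξ‖ ^ 2` up to a factor -/
noncomputable def Nn (a : ℝ) (h : Eu m → ℝ) : ℝ := m * a / 2 * I0 a h - I2 a h / 4

theorem ZR.norm_B (h : ZR T) {b : ℝ} (hb : 0 < b) (ξ : H) :
    ∑ j, ‖Pv T (fun y => y j * ea b y) ξ‖ ^ 2 = Z m (b / 2) * Nn (2 * b) (hf T ξ) := by
  have hb2 : 0 < b / 2 := by positivity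
  have hi : ∀ j, Integrable fun t : Eu m => t j ^ 2 * ea (b / 2) t := fun j => by
    simpa using (gd_co3 (b / 2) 0 (-1) j).int hb2
  have h1 : ∀ j, ‖Pv T (fun y => y j * ea b y) ξ‖ ^ 2 = ∫ z, (((∫ t : Eu m, t j ^ 2 * ea (b / 2) t) -
      Z m (b / 2) / 4 * z j ^ 2) * ea (2 * b) z) * hf T ξ z := by
    intro j
    rw [← real_inner_self_eq_norm_sq, h.inner_Pv hb (gd_co b j) (gd_co b j)]
    simp only [h.sub]
    rw [conv ((gd_co b j).int hb) ((gd_co b j).int hb) (h.bc2 ξ ξ)]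
    refine integral_congr_ae (ae_of_all _ fun z => ?_)
    simp only
    congr 1
    have h2 : ∀ t : Eu m, (t + (1 / 2 : ℝ) • z) j * ea b (t + (1 / 2 : ℝ) • z) *
        ((t - (1 / 2 : ℝ) • z) j * ea b (t - (1 / 2 : ℝ) • z)) =
        (t j ^ 2 * ea (b / 2) t - z j ^ 2 / 4 * ea (b / 2) t) * ea (2 * b) z := by
      intro t
      rw [mul_mul_mul_comm, ea_mid hb]
      simp only [PiLp.add_apply, PiLp.sub_apply, PiLp.smul_apply, smul_eq_mul]
      ring
    simp only [h2]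
    rw [integral_mul_const, integral_sub (hi j) ((integrable_ea hb2).const_mul _),
      integral_const_mul, integral_ea hb2]
    ring
  have h3 : ∑ j, ∫ t : Eu m, t j ^ 2 * ea (b / 2) t = b * m * Z m (b / 2) := by
    rw [← integral_finset_sum _ fun j _ => hi j]
    simp only [← Finset.sum_mul, sum_sq]
    rw [moment hb2]; ring
  have hb3 : 0 < 2 * b := by positivity
  simp only [h1]
  rw [← integral_finset_sum _ fun j _ => (gd_co3 _ _ _ j).mul hb3 (h.bch ξ), Nn, I0, I2,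
    ← integral_const_mul, ← integral_div, ← integral_sub
      (((gd_ea _).mul hb3 (h.bch ξ)).const_mul _) (((gd_sq _).mul hb3 (h.bch ξ)).div_const _),
    ← integral_const_mul]
  refine integral_congr_ae (ae_of_all _ fun z => ?_)
  simp only [← Finset.sum_mul, Finset.sum_sub_distrib, ← Finset.mul_sum, sum_sq, h3]
  ring

theorem ZR.A_der (h : ZR T) {b : ℝ} (hb : 0 < b) {v z : H} {j : Fin m}
    (hz : HasDerivAt (fun s : ℝ => T (s • eb j) v) z 0) :
    Pv T (fun y => y j * ea b y) v = (2 * b) • Pv T (ea b) z := by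
  have hg : Gd b fun y : Eu m => -(1 / (2 * b)) * (y j * ea b y) := by
    obtain ⟨h1, C, hC⟩ := gd_co (m := m) b j
    refine ⟨continuous_const.mul h1, |1 / (2 * b)| * C, fun y => ?_⟩
    rw [abs_mul, abs_neg, mul_assoc]
    exact mul_le_mul_of_nonneg_left (hC y) (abs_nonneg _)
  have := ibp hb (gd_ea b) hg (h.bc v) (h.bc z) (fun y => line_ea hb y j) (h.line hz)
  rw [Pv, Pv, this, ← integral_neg, ← integral_smul]
  refine integral_congr_ae (ae_of_all _ fun y => ?_)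
  simp only [← neg_smul, smul_smul]
  congr 1
  field_simp

theorem ZR.I0_nonneg (h : ZR T) {a : ℝ} (ha : 0 < a) (ξ : H) : 0 ≤ I0 a (hf T ξ) := by
  have h1 := h.norm_A (half_pos ha) ξ
  rw [show 2 * (a / 2) = a by ring] at h1
  exact nonneg_of_mul_nonneg_right (h1 ▸ sq_nonneg _) (Z_pos (by positivity)) 

theorem ZR.Nn_nonneg (h : ZR T) {a : ℝ} (ha : 0 < a) (ξ : H) : 0 ≤ Nn a (hf T ξ) := by
  have h1 := h.norm_B (half_pos ha) ξ
  rw [show 2 * (a / 2) = a by ring] at h1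
  exact nonneg_of_mul_nonneg_right (h1 ▸ Finset.sum_nonneg fun _ _ => sq_nonneg _)
    (Z_pos (by positivity))

theorem ZR.I0_le (h : ZR T) {a : ℝ} (ha : 0 < a) (ξ : H) : I0 a (hf T ξ) ≤ Z m a * ‖ξ‖ ^ 2 := by
  rw [I0, ← integral_ea ha, ← integral_mul_const]
  refine integral_mono ((gd_ea a).mul ha (h.bch ξ)) ((integrable_ea ha).mul_const _) fun y => ?_
  exact mul_le_mul_of_nonneg_left ((le_abs_self _).trans (h.abs_hf ξ y)) (ea_pos a y).le

end Vale.Agent.P092RK
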