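import Vale.Agent.P092RK.Rs

/-!
P092 (helper93), block REL: assembly of the three pieces.
-/

set_option linter.all false

open scoped InnerProductSpace ENNReal NNReal CompactlySupported Pointwise
open MeasureTheory Filter Topology ContinuousLinearMap Set

namespace Vale.Agent.P092RK

open Vale.Agent.P092CP Vale.Agent.P092RD Vale.Agent.P092TH
open Vale.Agent.P092.RC (Cm Moore)

variable {G G' K : Type} [Group G] [TopologicalSpace G] [IsTopologicalGroup G]
  [LocallyCompactSpace G] [SecondCountableTopology G] [T2Space G] [MeasurableSpace G] [BorelSpace G]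
  [Group G'] [TopologicalSpace G'] [IsTopologicalGroup G'] [LocallyCompactSpace G']
  [SecondCountableTopology G'] [T2Space G'] [MeasurableSpace G'] [BorelSpace G']
  [NormedAddCommGroup K] [InnerProductSpace ℂ K] [CompleteSpace K] {μ : Measure G}
  [μ.IsHaarMeasure] {μ' : Measure G'} [μ'.IsHaarMeasure] {W : Set (K →L[ℂ] K)}
  {Y Y' Z₀ : Type} [TopologicalSpace Y] [MeasurableSpace Y] [MulAction G' Y]
  [TopologicalSpace Y'] [MeasurableSpace Y'] [MulAction G' Y'] [TopologicalSpace Z₀]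
  [MeasurableSpace Z₀] [MulAction G' Z₀] {C : Cpl μ μ' W}

theorem Geo.ker {Op : Set (Y × Y')} {δ : Y × Y' → ℝ} {co : G' → Y → ℝ} {co' : G' → Y' → ℝ}
    (h : Geo Op δ co co') (t : ℝ) :
    Ker Op (fun k => POM.ex t (co k⁻¹)) (fun k => POM.ex t (co' k⁻¹)) (POM.ex t δ) where
  opn := h.opn
  inv := h.inv
  meas := (POM.bd_ex t h.meas).meas
  cont := Complex.continuous_exp.comp_continuousOn ((continuousOn_const.mul
    (Complex.continuous_ofReal.comp_continuousOn h.cont)).mul continuousOn_const)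
  ne := POM.norm_ex t δ
  mκ k := (POM.bd_ex t (h.mco k⁻¹)).meas
  nκ k := POM.norm_ex t _
  cκ' := Complex.continuous_exp.comp ((continuous_const.mul (Complex.continuous_ofReal.comp
    (h.cco.comp (continuous_fst.inv.prodMk continuous_snd)))).mul continuous_const)
  nκ' k := POM.norm_ex t _
  coc k g y := by
    simp only [POM.ex, mul_inv_rev, h.coc, ← Complex.exp_add]
    congr 1
    push_cast
    ring
  rel k x y hp := by
    simp only [POM.ex, ← h.rel k⁻¹ x y hp, ← Complex.exp_add]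
    congr 1
    push_cast
    ring

theorem un_of {S : Set G} {E : POM Y K} {H : POM ℝ K} {κ : G' → Y → ℂ} {t : ℝ} (hH : H.IsP)
    (h : H.f (POM.ex t id) ∈ Xm C S E κ) : Un C S E κ (H.f (POM.ex t id)) :=
  ⟨h, (hH.star_mul_self (POM.bd_ex t measurable_id) (POM.norm_ex t id)).1,
    (hH.star_mul_self (POM.bd_ex t measurable_id) (POM.norm_ex t id)).2⟩

theorem core_of [OpensMeasurableSpace Y] [BorelSpace Y'] [CompactSpace Y'] [T2Space Y']
    [SecondCountableTopology Y'] [ContinuousSMul G' Y'] [MeasurableConstSMul G' Y]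
    [MeasurableConstSMul G' Z₀]
    (est : ∀ (V : Set G') (y₀ : Y') (dir : Z₀ → Y), Bp μ' V → Measurable dir → ∃ M, M ≠ ∞ ∧
      ∀ Op κ κ' e, Ker Op κ κ' e → EST C V y₀ dir Op e κ κ' M)
    (endg : ∀ (dir : Z₀ → Y) (Op : Set (Y × Y')) δ (co : G' → Y → ℝ) (co' : G' → Y' → ℝ) S' E E' H H'
      Ψ₀ (M : ℝ≥0∞), Geo Op δ co co' → St C dir Op co co' S' E E' H H' Ψ₀ → M ≠ ∞ →
      (∀ t, RS C dir E E' Op M (POM.ex t δ) (H.f (POM.ex t id)) (H'.f (POM.ex t id))) →
      ∃ c, Out E E' H H' Op δ c) : CORE C Y Y' Z₀ :=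
  fun V y₀ dir Op δ co co' S' E E' H H' Ψ₀ U a g s p => by
  obtain ⟨M, hM, h⟩ := est V y₀ dir (p 0).bp s.mdir
  exact endg dir Op δ co co' S' E E' H H' Ψ₀ (5 * M) g s (by finiteness) fun t =>
    rs (h _ _ _ _ (g.ker t)) (g.ker t) s.pE s.pE' (un_of s.pH (s.u t)) (un_of s.pH' (s.u' t)) (p t)

end Vale.Agent.P092RK
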