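import Vale.Agent.P092RG.Crd

/-!
P092, rank one, block A (helper93): short paths far from the origin.
-/

set_option linter.all false

open Matrix Filter Topology Set
open scoped Pointwise

namespace Vale.Agent.P092RK

open Vale.Agent.P092.H793.Re Vale.Agent.P092RG

variable {n : ℕ} {G : Type} [Group G] [TopologicalSpace G] {ρ : G →* SLn n} {w : Fin n → ℝ}

/-- the elements whose conjugates by the positive half of the torus stay in a ball -/
def Cb (h : R1 ρ w) (m : ℝ) : Set G := {g | ∀ s, 0 ≤ s → h.rr ((h.a s)⁻¹ * g * h.a s) ≤ m}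

theorem Cb_rr (h : R1 ρ w) {m : ℝ} {g : G} (hg : g ∈ Cb h m) : h.rr g ≤ m := by
  simpa [h.a_zero] using hg 0 le_rfl

theorem Cb_compact (h : R1 ρ w) (m : ℝ) : IsCompact (Cb h m) := by
  haveI := topGroup h.rs.emb
  refine (h.isCompact_ball m).of_isClosed_subset ?_ fun g hg => Cb_rr h hg
  have e : Cb h m = ⋂ s, ⋂ _ : 0 ≤ s, {g | h.rr ((h.a s)⁻¹ * g * h.a s) ≤ m} := by
    ext g; simp [Cb]
  rw [e]
  exact isClosed_iInter fun s => isClosed_iInter fun _ =>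
    isClosed_le (h.continuous_rr.comp (by fun_prop)) continuous_const

theorem Cb_P (h : R1 ρ w) {p : G} (hp : p ∈ h.P) : ∃ m : ℝ, p ∈ Cb h m := by
  obtain ⟨m, hm, t, u, hu, rfl⟩ := h.P_decomp' hp
  obtain ⟨R, hR⟩ := h.exists_ball ((h.isCompact_gau (h.gau (h.nC u))).image h.continuous_nE)
  refine ⟨|t| + R, fun s hs => ?_⟩
  have e : (h.a s)⁻¹ * (m * h.a t * u) * h.a s = m * (h.a t * h.nE (h.dil (-s) (h.nC u))) := by
    conv_lhs => rw [← h.nE_nC hu, mul_assoc, mul_assoc, h.nE_mul_a, ← mul_assoc (m * _),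
      mul_assoc m, h.a_comm, ← mul_assoc m, h.L_comm_a (h.M_le_L hm)]
    group
  rw [e, h.rr_K_mul (h.M_le_K hm)]
  refine (h.rr_mul_le _ _).trans (add_le_add (h.rr_a t).le (hR _ ⟨_, ?_, rfl⟩))
  show h.gau _ ≤ _
  rw [h.gau_dil]
  exact mul_le_of_le_one_left (h.gau_nonneg _) (Real.exp_le_one_iff.2 (by linarith))

/-- a one parameter subgroup of the opposite short root group -/
theorem exists_opp (h : R1 ρ w) : ∃ e : ℝ → G, Continuous e ∧ (∀ s t, e (s + t) = e s * e t) ∧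
    e 1 ∉ h.P ∧ ∀ s t, (h.a s)⁻¹ * e t * h.a s = e (Real.exp s * t) := by
  haveI := topGroup h.rs.emb
  haveI : Nontrivial (Eu h.m1) := Module.nontrivial_of_finrank_pos (R := ℝ)
    (by rw [finrank_euclideanSpace_fin]; exact h.m1_pos)
  obtain ⟨x, hx⟩ := exists_ne (0 : Eu h.m1)
  have h1 := h.continuous_nE
  refine ⟨fun t => h.w0 * h.nE (t • x, 0) * h.w0⁻¹, by fun_prop, fun s t => ?_, fun h2 => ?_,
    fun s t => ?_⟩
  · have e : h.nE ((s + t) • x, 0) = h.nE (s • x, 0) * h.nE (t • x, 0) := by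
      rw [h.nE_mul, R1.mulE, R1.br]
      simp [add_smul, smul_comm s t]
    simp only [e]
    group
  · obtain ⟨c, C, hc, -, h3⟩ := h.bd_gau
    have h4 := (h3 (x, 0)).1
    rw [← mul_assoc, ← h.bd_mul_w0_inv] at h4
    simp only [one_smul] at h2
    rw [h.bd_P h2] at h4
    have h5 : 0 < h.gau (x, 0) := (h.gau_nonneg _).lt_of_ne' fun h0 =>
      hx (congrArg Prod.fst (h.gau_eq_zero.1 h0))
    nlinarith [mul_pos hc (pow_pos h5 2)]
  · have e : h.nE ((Real.exp s * t) • x, 0) = h.a s * h.nE (t • x, 0) * (h.a s)⁻¹ := by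
      rw [h.a_conj_nE, R1.dil]; simp [smul_smul]
    have e1 := h.a_neg_eq s
    rw [h.a_neg] at e1
    simp only [e]
    calc _ = (h.a s)⁻¹ * (h.w0 * h.nE (t • x, 0) * h.w0⁻¹) * ((h.a s)⁻¹)⁻¹ := by rw [inv_inv]
      _ = _ := by
        conv_lhs => rw [e1]
        group

theorem bounded_gen (h : R1 ρ w) {e : ℝ → G} (hc : Continuous e) (h0 : e 0 = 1) (h1 : e 1 ∉ h.P)
    (R : ℝ) : ∃ m : ℝ, ∀ v, h.rr v ≤ R → ∃ p₁ ∈ Cb h m, ∃ p₂ ∈ Cb h m, ∃ p₃ ∈ Cb h m,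
      ∃ p₄ ∈ Cb h m, ∃ s ∈ Icc (0 : ℝ) 1, ∃ t ∈ Icc (0 : ℝ) 1,
        v = p₁ * e s * p₂ * p₃ * e t * p₄ := by
  haveI := topGroup h.rs.emb
  haveI : T2Space G := h.rs.emb.isEmbedding.t2Space
  haveI := locComp h.rs.emb
  set S : ℕ → Set G := fun m => (fun q : G × ℝ × G => q.1 * e q.2.1 * q.2.2) ''
    (Cb h m ×ˢ Icc (0 : ℝ) 1 ×ˢ Cb h m) with hS
  have hm : ∀ {a b : ℝ}, a ≤ b → Cb h a ⊆ Cb h b := fun hab g hg s hs => (hg s hs).trans hab
  have hSm : Monotone S := fun a b hab => image_mono (prod_mono (hm (Nat.cast_le.2 hab))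
    (prod_mono le_rfl (hm (Nat.cast_le.2 hab))))
  have hP : ∀ p ∈ h.P, ∀ p' ∈ h.P, ∀ t ∈ Icc (0 : ℝ) 1, ∃ m, p * e t * p' ∈ S m := by
    intro p hp p' hp' t ht
    obtain ⟨a, ha⟩ := Cb_P h hp
    obtain ⟨b, hb⟩ := Cb_P h hp'
    obtain ⟨m, hm'⟩ := exists_nat_ge (max a b)
    exact ⟨m, (p, t, p'), ⟨hm (le_of_max_le_left hm') ha, ht, hm (le_of_max_le_right hm') hb⟩, rfl⟩
  have hU : ∀ g, ∃ m, g ∈ S m := by
    intro g
    rcases h.bruhat g with hg | ⟨u, hu, p, hp, rfl⟩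
    · simpa [h0] using hP g hg 1 h.P.one_mem 0 ⟨le_rfl, zero_le_one⟩
    · obtain ⟨u', hu', p', hp', e1⟩ := (h.bruhat (e 1)).resolve_left h1
      have h2 := hP _ (h.P.mul_mem (h.N_le_P hu) (h.P.inv_mem (h.N_le_P hu'))) _
        (h.P.mul_mem (h.P.inv_mem hp') hp) 1 ⟨zero_le_one, le_rfl⟩
      rwa [e1, show u * u'⁻¹ * (u' * h.w0 * p') * (p'⁻¹ * p) = u * h.w0 * p by group] at h2
  obtain ⟨m, g₀, hg₀⟩ := nonempty_interior_of_iUnion_of_closed (f := S)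
    (fun m => (((Cb_compact h m).prod (isCompact_Icc.prod (Cb_compact h m))).image
      (by fun_prop)).isClosed) (eq_univ_of_forall fun g => mem_iUnion.2 (hU g))
  obtain ⟨k, hk⟩ := (h.isCompact_ball R).elim_directed_cover
    (fun k => S k * interior (S m)) (fun k => isOpen_interior.mul_left)
    (fun g _ => by
      obtain ⟨k, hk⟩ := hU (g * g₀⁻¹)
      exact mem_iUnion.2 ⟨k, _, hk, _, hg₀, inv_mul_cancel_right _ _⟩)
    (Monotone.directed_le fun a b hab => mul_subset_mul_right (hSm hab))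
  refine ⟨(max k m : ℕ), fun v hv => ?_⟩
  obtain ⟨x, hx, y, hy, rfl⟩ := hk hv
  obtain ⟨⟨p₁, s, p₂⟩, ⟨a1, a2, a3⟩, rfl⟩ := hSm (le_max_left k m) hx
  obtain ⟨⟨p₃, t, p₄⟩, ⟨b1, b2, b3⟩, rfl⟩ := hSm (le_max_right k m) (interior_subset hy)
  exact ⟨p₁, a1, p₂, a3, p₃, b1, p₄, b3, s, a2, t, b2, by simp only [mul_assoc]⟩

/-- **paths**: every element of a ball is reached from `1` in `2 N + 4` steps, inside a fixed
ball, each step being bounded after conjugation by `a s` with `exp s ≤ N`. -/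
theorem path (h : R1 ρ w) (R₀ : ℝ) : ∃ R : ℝ, ∀ N : ℕ, 1 ≤ N → ∀ D : ℕ → G → Prop, D 0 1 →
    (∀ j v u, D j v → h.rr v ≤ R →
      (∀ s, 0 ≤ s → Real.exp s ≤ N → h.rr ((h.a s)⁻¹ * u * h.a s) ≤ R) → D (j + 1) (v * u)) →
    ∀ v, h.rr v ≤ R₀ → D (2 * N + 4) v := by
  obtain ⟨e, hc, ha, h1, hs⟩ := exists_opp h
  have h0 : e 0 = 1 := by simpa using ha 0 0
  obtain ⟨m, hm⟩ := bounded_gen h hc h0 h1 R₀
  obtain ⟨E, hE⟩ := h.exists_ball ((isCompact_Icc (a := (0 : ℝ)) (b := 1)).image hc)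
  replace hE : ∀ t ∈ Icc (0 : ℝ) 1, h.rr (e t) ≤ E := fun t ht => hE _ ⟨t, ht, rfl⟩
  have hE0 : 0 ≤ E := (h.rr_nonneg _).trans (hE 0 ⟨le_rfl, zero_le_one⟩)
  refine ⟨4 * m + 2 * E, fun N hN D d0 d1 v hv => ?_⟩
  obtain ⟨p₁, a1, p₂, a2, p₃, a3, p₄, a4, s, hs1, t, ht1, rfl⟩ := hm v hv
  have hm0 : 0 ≤ m := (h.rr_nonneg _).trans (Cb_rr h a1)
  have hN0 : (0 : ℝ) < N := Nat.cast_pos.2 hN
  have k1 : ∀ {j v p}, D j v → h.rr v ≤ 4 * m + 2 * E → p ∈ Cb h m → D (j + 1) (v * p) :=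
    fun d hv hp => d1 _ _ _ d hv fun s hs _ => (hp s hs).trans (by linarith)
  have k2 : ∀ {j v t}, D j v → h.rr v ≤ 4 * m + E → t ∈ Icc (0 : ℝ) 1 →
      D (j + N) (v * e t) := by
    intro j v t d hv ht
    have k3 : ∀ i : ℕ, i ≤ N → D (j + i) (v * e (i * (t / N))) := by
      intro i
      induction i with
      | zero => intro _; simpa [h0] using d
      | succ i ih =>
        intro hi
        have hi' : (i : ℝ) ≤ N := Nat.cast_le.2 (by omega)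
        have b : ∀ c : ℝ, 0 ≤ c → c ≤ N → c * (t / N) ∈ Icc (0 : ℝ) 1 := fun c hc hc' =>
          ⟨mul_nonneg hc (div_nonneg ht.1 hN0.le), by
            rw [← mul_div_assoc, div_le_one hN0]; nlinarith [ht.1, ht.2]⟩
        rw [Nat.cast_succ, add_mul, one_mul, ha, ← mul_assoc, ← add_assoc]
        refine d1 _ _ _ (ih (by omega)) ((h.rr_mul_le _ _).trans ?_) fun s _ hs2 => ?_
        · linarith [hE _ (b i (Nat.cast_nonneg i) hi')]
        · rw [hs]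
          linarith [hE _ (b _ (Real.exp_pos s).le hs2)]
    simpa [mul_div_cancel₀ _ hN0.ne'] using k3 N le_rfl
  have r1 := Cb_rr h a1
  have r2 := (h.rr_mul_le p₁ (e s)).trans (add_le_add r1 (hE s hs1))
  have r3 := (h.rr_mul_le _ p₂).trans (add_le_add r2 (Cb_rr h a2))
  have r4 := (h.rr_mul_le _ p₃).trans (add_le_add r3 (Cb_rr h a3))
  have r5 := (h.rr_mul_le _ (e t)).trans (add_le_add r4 (hE t ht1))
  have c1 := k1 d0 (by rw [h.rr_one]; positivity) a1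
  rw [one_mul] at c1
  have c2 := k1 (k2 (k1 (k1 (k2 c1 (by linarith) hs1) (by linarith) a2) (by linarith) a3)
    (by linarith) ht1) (by linarith) a4
  rwa [show 0 + 1 + N + 1 + 1 + N + 1 = 2 * N + 4 by ring] at c2

end Vale.Agent.P092RK
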