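import Vale.Agent.P092RK.Mu
import Vale.Agent.P092RK.Path
import Vale.Agent.P092UB.Defs
import Vale.Agent.P233.H545.OT3

/-!
P092, rank one, block A (helper93): the divergence identity.
-/

set_option linter.all false

open MeasureTheory Filter Topology Set ProbabilityTheory

namespace Vale.Agent.P092RK

open Vale.Agent.P092.H793.Re Vale.Agent.P092RG Vale.Agent.P092UB

theorem exists_sec {Y Z : Type*} [TopologicalSpace Y] [TopologicalSpace.MetrizableSpace Y]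
    [SecondCountableTopology Y] [MeasurableSpace Y] [BorelSpace Y] [TopologicalSpace Z] [T2Space Z]
    [MeasurableSpace Z] [BorelSpace Z] {f : Y → Z} (hf : Continuous f) {S : Set Y}
    (hS : IsCompact S) (hne : S.Nonempty) {B : Set Z} (hB : MeasurableSet B) (h : B ⊆ f '' S) :
    ∃ s : Z → Y, Measurable s ∧ ∀ z, s z ∈ S ∧ (z ∈ B → f (s z) = z) := by
  letI := TopologicalSpace.metrizableSpaceMetric Y
  refine Vale.Agent.P233.H545.OT.exists_measurable_selection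
    (fun z => S ∩ {y | z ∈ B → f y = z}) (fun z => hS.inter_right ?_) (fun z => ?_) fun C hC => ?_
  · by_cases hz : z ∈ B
    · simpa [hz] using isClosed_eq hf continuous_const
    · simp [hz]
  · by_cases hz : z ∈ B
    · obtain ⟨y, hy, e⟩ := h hz
      exact ⟨y, hy, fun _ => e⟩
    · simpa [hz] using hne
  · have e : {z | (S ∩ {y | z ∈ B → f y = z} ∩ C).Nonempty} =
        f '' (S ∩ C) ∪ Bᶜ ∩ {_z | (S ∩ C).Nonempty} := by
      ext z
      constructor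
      · rintro ⟨y, ⟨h1, h2⟩, h3⟩
        by_cases hz : z ∈ B
        · exact .inl ⟨y, ⟨h1, h3⟩, h2 hz⟩
        · exact .inr ⟨hz, y, h1, h3⟩
      · rintro (⟨y, ⟨h1, h3⟩, e⟩ | ⟨hz, y, h1, h3⟩)
        · exact ⟨y, ⟨h1, fun _ => e⟩, h3⟩
        · exact ⟨y, ⟨h1, fun h => absurd h hz⟩, h3⟩
    rw [e]
    exact ((hS.inter_right hC).image hf).measurableSet.union (hB.compl.inter (MeasurableSet.const _))

variable {n : ℕ} {G : Type} [Group G] [TopologicalSpace G] {ρ : G →* SLn n} {w : Fin n → ℝ}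
  [IsTopologicalGroup G] [LocallyCompactSpace G] [SecondCountableTopology G] [T2Space G]
  [MeasurableSpace G] [BorelSpace G]

/-- **measurable paths** -/
theorem pathM (h : R1 ρ w) {R₀ : ℝ} (hR : 0 ≤ R₀) : ∃ R : ℝ, 0 ≤ R ∧ ∀ N : ℕ, 1 ≤ N →
    ∀ D : ℕ → (G → G) → Prop, D 0 (fun _ => 1) →
    (∀ j V U, D j V → Measurable U → (∀ v, h.rr (V v) ≤ R) →
      (∀ v s, 0 ≤ s → Real.exp s ≤ N → h.rr ((h.a s)⁻¹ * U v * h.a s) ≤ R) →
      D (j + 1) fun v => V v * U v) →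
    ∃ V, D (2 * N + 4) V ∧ ∀ v, h.rr v ≤ R₀ → V v = v := by
  obtain ⟨e, hc, ha, h1, hs⟩ := exists_opp h
  have h0 : e 0 = 1 := by simpa using ha 0 0
  obtain ⟨m, hm⟩ := bounded_gen h hc h0 h1 R₀
  have hC := Cb_compact h m
  have hsub : bl h R₀ ⊆ (fun y : G × G × G × G × ℝ × ℝ =>
      y.1 * e y.2.2.2.2.1 * y.2.1 * y.2.2.1 * e y.2.2.2.2.2 * y.2.2.2.1) ''
      (Cb h m ×ˢ Cb h m ×ˢ Cb h m ×ˢ Cb h m ×ˢ Icc (0 : ℝ) 1 ×ˢ Icc (0 : ℝ) 1) := fun v hv => by
    obtain ⟨p₁, a1, p₂, a2, p₃, a3, p₄, a4, s, hs1, t, ht1, rfl⟩ := hm v hv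
    exact ⟨(p₁, p₂, p₃, p₄, s, t), ⟨a1, a2, a3, a4, hs1, ht1⟩, rfl⟩
  obtain ⟨σ, mσ, hσ⟩ := exists_sec (by fun_prop)
    (hC.prod (hC.prod (hC.prod (hC.prod (isCompact_Icc.prod isCompact_Icc)))))
    (Nonempty.of_image ⟨1, hsub (h.rr_one.trans_le hR)⟩) (meas_bl h R₀) hsub
  obtain ⟨E, hE⟩ := h.exists_ball ((isCompact_Icc (a := (0 : ℝ)) (b := 1)).image hc)
  replace hE : ∀ t ∈ Icc (0 : ℝ) 1, h.rr (e t) ≤ E := fun t ht => hE _ ⟨t, ht, rfl⟩
  have hE0 : 0 ≤ E := (h.rr_nonneg _).trans (hE 0 ⟨le_rfl, zero_le_one⟩)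
  have hm0 : 0 ≤ m := (h.rr_nonneg _).trans (Cb_rr h (hσ 1).1.1)
  refine ⟨4 * m + 2 * E, by positivity, fun N hN D d0 d1 => ?_⟩
  have hN0 : (0 : ℝ) < N := Nat.cast_pos.2 hN
  have k1 : ∀ {j V p}, D j V → (∀ v, h.rr (V v) ≤ 4 * m + 2 * E) → Measurable p →
      (∀ v, p v ∈ Cb h m) → D (j + 1) fun v => V v * p v :=
    fun d hv mp hp => d1 _ _ _ d mp hv fun v s hs _ => (hp v s hs).trans (by linarith)
  have k2 : ∀ {j V} {t : G → ℝ}, D j V → (∀ v, h.rr (V v) ≤ 4 * m + E) → Measurable t →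
      (∀ v, t v ∈ Icc (0 : ℝ) 1) → D (j + N) fun v => V v * e (t v) := by
    intro j V t d hv mt ht
    have k3 : ∀ i : ℕ, i ≤ N → D (j + i) fun v => V v * e (i * (t v / N)) := by
      intro i
      induction i with
      | zero => intro _; simpa [h0] using d
      | succ i ih =>
        intro hi
        have hi' : (i : ℝ) ≤ N := Nat.cast_le.2 (by omega)
        have b : ∀ v (c : ℝ), 0 ≤ c → c ≤ N → c * (t v / N) ∈ Icc (0 : ℝ) 1 := fun v c hc hc' =>
          ⟨mul_nonneg hc (div_nonneg (ht v).1 hN0.le), by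
            rw [← mul_div_assoc, div_le_one hN0]; nlinarith [(ht v).1, (ht v).2]⟩
        simp only [Nat.cast_succ, add_mul, one_mul, ha, ← mul_assoc, ← add_assoc]
        refine d1 _ _ _ (ih (by omega)) (hc.measurable.comp (mt.div_const _))
          (fun v => (h.rr_mul_le _ _).trans ?_) fun v s _ hs2 => ?_
        · linarith [hE _ (b v i (Nat.cast_nonneg i) hi'), hv v]
        · rw [hs]
          linarith [hE _ (b v _ (Real.exp_pos s).le hs2)]
    simpa [mul_div_cancel₀ _ hN0.ne'] using k3 N le_rfl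
  have r1 := fun v => Cb_rr h (hσ v).1.1
  have r2 := fun v => (h.rr_mul_le _ _).trans (add_le_add (r1 v) (hE _ (hσ v).1.2.2.2.2.1))
  have r3 := fun v => (h.rr_mul_le _ _).trans (add_le_add (r2 v) (Cb_rr h (hσ v).1.2.1))
  have r4 := fun v => (h.rr_mul_le _ _).trans (add_le_add (r3 v) (Cb_rr h (hσ v).1.2.2.1))
  have r5 := fun v => (h.rr_mul_le _ _).trans (add_le_add (r4 v) (hE _ (hσ v).1.2.2.2.2.2))
  have c1 := k1 d0 (fun _ => by rw [h.rr_one]; positivity) mσ.fst fun v => (hσ v).1.1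
  simp only [one_mul] at c1
  have c2 := k1 (k2 (k1 (k1 (k2 c1 (fun v => by linarith [r1 v]) mσ.snd.snd.snd.snd.fst
    fun v => (hσ v).1.2.2.2.2.1) (fun v => by linarith [r2 v]) mσ.snd.fst fun v => (hσ v).1.2.1)
    (fun v => by linarith [r3 v]) mσ.snd.snd.fst fun v => (hσ v).1.2.2.1)
    (fun v => by linarith [r4 v]) mσ.snd.snd.snd.snd.snd fun v => (hσ v).1.2.2.2.2.2)
    (fun v => by linarith [r5 v]) mσ.snd.snd.snd.fst fun v => (hσ v).1.2.2.2.1
  rw [show 0 + 1 + N + 1 + 1 + N + 1 = 2 * N + 4 by ring] at c2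
  exact ⟨_, c2, fun v hv => (hσ v).2 hv⟩

variable {μ : Measure G} [μ.IsHaarMeasure] {X : Type} [NormedAddCommGroup X] [NormedSpace ℝ X]
  [CompleteSpace X] {f : G → X} {M : ℝ} {h : R1 ρ w} {φ : G → ℝ} {r₁ : ℝ}

theorem int_supp {α : Type*} [MeasurableSpace α] {ν : Measure α} {F : α → X} {s : Set α}
    (hs : MeasurableSet s) (h1 : ν s ≠ ⊤) (hF : AEStronglyMeasurable F ν) {C : ℝ}
    (hC : ∀ x, ‖F x‖ ≤ C) (h0 : ∀ x, x ∉ s → F x = 0) : Integrable F ν := by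
  refine ((integrable_indicator_iff hs).2 (integrableOn_const (C := C) h1)).mono' hF
    (ae_of_all _ fun x => ?_)
  by_cases hx : x ∈ s
  · rw [indicator_of_mem hx]; exact hC x
  · rw [indicator_of_notMem hx, h0 x hx, norm_zero]

theorem smul_le {c d : ℝ} {ξ : X} (h1 : |c| ≤ d) (h2 : ‖ξ‖ ≤ M) : ‖c • ξ‖ ≤ d * M := by
  rw [norm_smul]
  exact mul_le_mul h1 h2 (norm_nonneg _) ((abs_nonneg _).trans h1)

/-- admissible kernels -/
structure Ok (μ : Measure G) (h : R1 ρ w) {P : Type} [MeasurableSpace P] (ψ : P → G → ℝ)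
    (L r : ℝ) : Prop where
  meas : Measurable (Function.uncurry ψ)
  bdd : ∀ q u, |ψ q u| ≤ L
  supp : ∀ q u, r < h.rr u → ψ q u = 0
  zero : ∀ q, ∫ u, ψ q u ∂μ = 0

section ok

variable {P : Type} [MeasurableSpace P] {ψ ψ' : P → G → ℝ} {L L' r : ℝ}

theorem Ok.int (hψ : Ok μ h ψ L r) (p : Measure P) [IsFiniteMeasure p] {γ : P → G}
    (hγ : Measurable γ) (hf : Continuous f) (hM : ∀ g, ‖f g‖ ≤ M) :
    Integrable (fun z : P × G => ψ z.1 z.2 • f (γ z.1 * z.2)) (p.prod μ) := by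
  refine int_supp (MeasurableSet.univ.prod (meas_bl h r)) ?_
    (hψ.meas.aestronglyMeasurable.smul (hf.comp_aestronglyMeasurable
      (Measurable.aestronglyMeasurable (by fun_prop)))) (fun z => smul_le (hψ.bdd _ _) (hM _))
    fun z hz => ?_
  · rw [Measure.prod_prod]
    exact ENNReal.mul_ne_top (measure_ne_top _ _) (bl_fin μ h r)
  · rw [hψ.supp _ _ (not_le.1 fun h => hz ⟨trivial, h⟩), zero_smul]

theorem Ok.int1 (hψ : Ok μ h ψ L r) (q : P) : Integrable (ψ q) μ :=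
  int_supp (meas_bl h r) (bl_fin μ h r) hψ.meas.of_uncurry_left.aestronglyMeasurable (hψ.bdd q)
    fun u hu => hψ.supp q u (not_le.1 hu)

theorem Ok.add (hψ : Ok μ h ψ L r) (hψ' : Ok μ h ψ' L' r) :
    Ok μ h (fun q u => ψ q u + ψ' q u) (L + L') r :=
  ⟨hψ.meas.add hψ'.meas, fun q u => (abs_add_le _ _).trans (add_le_add (hψ.bdd q u) (hψ'.bdd q u)),
    fun q u hu => by rw [hψ.supp q u hu, hψ'.supp q u hu, add_zero],
    fun q => by rw [integral_add (hψ.int1 q) (hψ'.int1 q), hψ.zero, hψ'.zero, add_zero]⟩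

theorem Ok.comp (hψ : Ok μ h ψ L r) {Q : Type} [MeasurableSpace Q] {t : Q → P} (ht : Measurable t) :
    Ok μ h (fun q => ψ (t q)) L r :=
  ⟨hψ.meas.comp (ht.prodMap measurable_id), fun _ => hψ.bdd _, fun _ => hψ.supp _,
    fun _ => hψ.zero _⟩

end ok

theorem bump_bdd (hφ : Bump μ h φ r₁) : ∃ c, 0 ≤ c ∧ ∀ g, |φ g| ≤ c := by
  obtain ⟨c, hc⟩ := (h.isCompact_ball r₁).exists_bound_of_continuousOn hφ.cont.continuousOn
  refine ⟨|c|, abs_nonneg _, fun g => ?_⟩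
  by_cases hg : h.rr g ≤ r₁
  · exact (hc g hg).trans (le_abs_self c)
  · rw [hφ.supp g (not_le.1 hg), abs_zero]; exact abs_nonneg _

theorem bump_int (hφ : Bump μ h φ r₁) : Integrable φ μ :=
  Integrable.of_integral_ne_zero (by rw [hφ.int]; exact one_ne_zero)

/-- smoothing on the right -/
noncomputable def sm (μ : Measure G) (φ : G → ℝ) (f : G → X) (g : G) : X := ∫ u, φ u • f (g * u) ∂μ

theorem sm_int (hφ : Bump μ h φ r₁) (hf : Continuous f) (hM : ∀ g, ‖f g‖ ≤ M) (g : G) :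
    Integrable (fun u => φ u • f (g * u)) μ :=
  (bump_int hφ).smul_bdd M (Continuous.aestronglyMeasurable (by fun_prop)) (ae_of_all _ fun _ => hM _)

theorem sm_facts (hφ : Bump μ h φ r₁) (hf : Continuous f) (hM : ∀ g, ‖f g‖ ≤ M) :
    Continuous (sm μ φ f) ∧ ∀ g, ‖sm μ φ f g‖ ≤ M := by
  have h1 : ∀ g u, ‖φ u • f (g * u)‖ ≤ φ u * M := fun g u =>
    smul_le (abs_of_nonneg (hφ.nonneg u)).le (hM _)
  refine ⟨continuous_of_dominated (fun g => (sm_int hφ hf hM g).aestronglyMeasurable)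
    (fun g => ae_of_all _ (h1 g)) ((bump_int hφ).mul_const M) (ae_of_all _ fun u => by fun_prop),
    fun g => (norm_integral_le_of_norm_le ((bump_int hφ).mul_const M)
      (ae_of_all _ (h1 g))).trans_eq ?_⟩
  rw [integral_mul_const, hφ.int, one_mul]

theorem sm_shift (g k : G) : ∫ u, φ (k * u) • f (g * u) ∂μ = sm μ φ f (g * k⁻¹) := by
  rw [sm, ← integral_mul_left_eq_self (fun u => φ u • f (g * k⁻¹ * u)) k]
  simp only [mul_assoc, inv_mul_cancel_left]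

theorem sm_shift_int (hφ : Bump μ h φ r₁) (hf : Continuous f) (hM : ∀ g, ‖f g‖ ≤ M) (g k : G) :
    Integrable (fun u => φ (k * u) • f (g * u)) μ := by
  simpa only [mul_assoc, inv_mul_cancel_left] using (sm_int hφ hf hM (g * k⁻¹)).comp_mul_left k

end Vale.Agent.P092RK
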