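import Vale.Agent.P092RK.Div

/-!
P092, rank one, block A (helper93): the divergence identity, second part.
-/

set_option linter.all false

open MeasureTheory Filter Topology Set ProbabilityTheory

namespace Vale.Agent.P092RK

open Vale.Agent.P092.H793.Re Vale.Agent.P092RG Vale.Agent.P092UB

variable {n : ℕ} {G : Type} [Group G] [TopologicalSpace G] {ρ : G →* SLn n} {w : Fin n → ℝ}
  [IsTopologicalGroup G] [LocallyCompactSpace G] [SecondCountableTopology G] [T2Space G]
  [MeasurableSpace G] [BorelSpace G]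
  {μ : Measure G} [μ.IsHaarMeasure] {X : Type} [NormedAddCommGroup X] [NormedSpace ℝ X]
  [CompleteSpace X] {f : G → X} {M : ℝ} {h : R1 ρ w} {φ : G → ℝ} {r₁ a r : ℝ}

/-- the radial average -/
noncomputable def Fa (h : R1 ρ w) (a r : ℝ) (f : G → X) (g : G) : X :=
  ∫ y in Metric.closedBall 0 r, f (g * sy h y) ∂gauE h.m2 a

theorem Fa_int (ha : 0 < a) (hf : Continuous f) (hM : ∀ g, ‖f g‖ ≤ M) (g : G) :
    Integrable (fun y => f (g * sy h y)) ((gauE h.m2 a).restrict (Metric.closedBall 0 r)) :=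
  haveI := gauE_prob (m := h.m2) ha
  int_bdd (Continuous.aestronglyMeasurable (by have := sy_cont h; fun_prop)) fun _ => hM _

theorem Fa_facts (ha : 0 < a) (hf : Continuous f) (hM : ∀ g, ‖f g‖ ≤ M) :
    Continuous (Fa h a r f) ∧ ∀ g, ‖Fa h a r f g‖ ≤ M := by
  haveI := gauE_prob (m := h.m2) ha
  refine ⟨continuous_of_dominated (fun g => (Fa_int ha hf hM g).aestronglyMeasurable)
    (fun g => ae_of_all _ fun _ => hM _) (integrable_const M) (ae_of_all _ fun u => by fun_prop),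
    fun g => (norm_integral_le_of_norm_le_const (ae_of_all _ fun _ => hM _)).trans ?_⟩
  rw [measureReal_restrict_apply_univ]
  exact mul_le_of_le_one_right ((norm_nonneg _).trans (hM 1)) measureReal_le_one

/-- the position -/
noncomputable def gm (h : R1 ρ w) (z : G × Eu h.m2 × G) : G := z.1 * (sy h z.2.1 * z.2.2)

theorem meas_gm (h : R1 ρ w) : Measurable (gm h) := by
  have := (sy_cont h).measurable
  unfold gm
  fun_prop

theorem abs_ind {α : Type*} (s : Set α) (x : α) : |s.indicator (1 : α → ℝ) x| ≤ 1 := by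
  by_cases hx : x ∈ s <;> simp [hx]

variable {W : G → G → ℝ} {κ : ℝ}

theorem W_int (mW : Measurable (Function.uncurry W)) (bW : ∀ v x, |W v x| ≤ κ)
    (sW : ∀ v x, 2 < h.rr x → W v x = 0) {F : G → X} (hF : Continuous F) (hM : ∀ g, ‖F g‖ ≤ M)
    (v s t : G) : Integrable (fun x => W v x • (F (x * s) - F (x * t))) μ :=
  int_supp (meas_bl h 2) (bl_fin μ h 2) (mW.of_uncurry_left.aestronglyMeasurable.smul
    (Continuous.aestronglyMeasurable (by fun_prop)))
    (fun x => smul_le (bW v x) ((norm_sub_le _ _).trans (add_le_add (hM _) (hM _))))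
    fun x hx => by rw [sW v x (not_le.1 hx), zero_smul]

theorem div_step (hφ : Bump μ h φ r₁) {c : ℝ} (hc : ∀ g, |φ g| ≤ c) (ha : 0 < a) {R : ℝ}
    (hR : 0 ≤ R) (mW : Measurable (Function.uncurry W)) (bW : ∀ v x, |W v x| ≤ κ)
    (sW : ∀ v x, 2 < h.rr x → W v x = 0) {V U : G → G} (mV : Measurable V) (mU : Measurable U)
    (bV : ∀ v, h.rr (V v) ≤ R)
    (bU : ∀ v y, ‖y‖ ≤ r → h.rr ((sy h y)⁻¹ * U v * sy h y) ≤ R) :
    ∃ ψ : G × G × Eu h.m2 × G → G → ℝ, Ok μ h ψ (μ.real (bl h (3 + R)) * κ * (c + c)) (r₁ + R) ∧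
      ∀ (X : Type) [NormedAddCommGroup X] [NormedSpace ℝ X] [CompleteSpace X] (f : G → X) (M : ℝ),
      Continuous f → (∀ g, ‖f g‖ ≤ M) → ∀ v,
      ∫ z, ∫ u, ψ (v, z) u • f (gm h z * u) ∂μ ∂μ[|bl h (3 + R)].prod ((gauE h.m2 a).prod h.νK) =
        ∫ x, W v x • (Fa h a r (sm μ φ f) (x * V v) - Fa h a r (sm μ φ f) (x * (V v * U v))) ∂μ := by
  haveI := gauE_prob (m := h.m2) ha
  haveI := nu_prob μ h (by positivity : 0 < 3 + R)
  haveI := h.haar_right μ
  have hp := bl_pos μ h (by positivity : 0 < 3 + R)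
  set c₃ := μ.real (bl h (3 + R))
  have hT := (Metric.isClosed_closedBall (x := (0 : Eu h.m2)) (ε := r)).measurableSet
  have hK := h.isCompact_K.measurableSet
  have hs := (sy_cont h).measurable
  have mφ := hφ.cont.measurable
  have hκ : 0 ≤ κ := (abs_nonneg _).trans (bW 1 1)
  set co : G × G × Eu h.m2 × G → ℝ := fun q => c₃ * W q.1 (q.2.1 * (V q.1)⁻¹) *
    ((Metric.closedBall 0 r).indicator 1 q.2.2.1 * (h.K : Set G).indicator 1 q.2.2.2) with hco
  have m1 : Measurable co := ((mW.comp (f := fun q : G × G × Eu h.m2 × G =>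
    (q.1, q.2.1 * (V q.1)⁻¹)) (by fun_prop)).const_mul _).mul
    (((measurable_one.indicator hT).comp (by fun_prop)).mul
      ((measurable_one.indicator hK).comp (by fun_prop)))
  have b1 : ∀ q, |co q| ≤ c₃ * κ := fun q => by
    rw [abs_mul, abs_mul, abs_mul, abs_of_pos hp]
    exact (mul_le_of_le_one_right (by positivity) (mul_le_one₀ (abs_ind _ _) (abs_nonneg _)
      (abs_ind _ _))).trans (mul_le_mul_of_nonneg_left (bW _ _) hp.le)
  refine ⟨fun q u => co q * (φ (q.2.2.2 * u) -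
    φ (((sy h q.2.2.1)⁻¹ * U q.1 * sy h q.2.2.1)⁻¹ * q.2.2.2 * u)), ⟨?_, fun q u => ?_,
    fun q u hu => ?_, fun q => ?_⟩, fun X _ _ _ f M hf hM v => ?_⟩
  · unfold Function.uncurry
    fun_prop
  · rw [abs_mul]
    exact mul_le_mul (b1 q) ((abs_sub _ _).trans (add_le_add (hc _) (hc _))) (abs_nonneg _)
      (by positivity)
  · by_cases h1 : q.2.2.1 ∈ Metric.closedBall 0 r
    · by_cases h2 : q.2.2.2 ∈ h.K
      · have h3 := bU q.1 _ (mem_closedBall_zero_iff.1 h1)
        have h4 := h.rr_mul_le ((sy h q.2.2.1)⁻¹ * U q.1 * sy h q.2.2.1)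
          (((sy h q.2.2.1)⁻¹ * U q.1 * sy h q.2.2.1)⁻¹ * q.2.2.2 * u)
        rw [mul_assoc _ q.2.2.2, mul_inv_cancel_left, h.rr_K_mul h2, ← mul_assoc] at h4
        rw [hφ.supp _ (by rw [h.rr_K_mul h2]; linarith), hφ.supp _ (by linarith), sub_self,
          mul_zero]
      · simp [hco, h2]
    · simp [hco, h1]
  · rw [integral_const_mul, integral_sub ((bump_int hφ).comp_mul_left _)
      ((bump_int hφ).comp_mul_left _), integral_mul_left_eq_self, integral_mul_left_eq_self,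
      sub_self, mul_zero]
  · obtain ⟨s1, s2⟩ := sm_facts hφ hf hM
    have e1 : ∀ z : G × Eu h.m2 × G, ∫ u, (co (v, z) * (φ (z.2.2 * u) -
        φ (((sy h z.2.1)⁻¹ * U v * sy h z.2.1)⁻¹ * z.2.2 * u))) • f (gm h z * u) ∂μ = co (v, z) •
        (sm μ φ f (z.1 * sy h z.2.1) - sm μ φ f (z.1 * U v * sy h z.2.1)) := by
      intro z
      simp only [mul_smul, sub_smul]
      rw [integral_smul, integral_sub (sm_shift_int hφ hf hM _ _) (sm_shift_int hφ hf hM _ _),
        sm_shift, sm_shift]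
      congr 3 <;> (rw [gm]; group)
    simp only [e1]
    have i0 : Integrable (fun z : G × Eu h.m2 × G => co (v, z) •
        (sm μ φ f (z.1 * sy h z.2.1) - sm μ φ f (z.1 * U v * sy h z.2.1)))
        (μ[|bl h (3 + R)].prod ((gauE h.m2 a).prod h.νK)) :=
      int_bdd ((m1.comp measurable_prodMk_left).aestronglyMeasurable.smul
        ((s1.comp_aestronglyMeasurable (Measurable.aestronglyMeasurable (by fun_prop))).sub
          (s1.comp_aestronglyMeasurable (Measurable.aestronglyMeasurable (by fun_prop)))))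
        fun z => smul_le (b1 _) ((norm_sub_le _ _).trans (add_le_add (s2 _) (s2 _)))
    rw [integral_prod _ i0]
    have e2 : ∀ x, ∫ z : Eu h.m2 × G, co (v, x, z) • (sm μ φ f (x * sy h z.1) -
        sm μ φ f (x * U v * sy h z.1)) ∂(gauE h.m2 a).prod h.νK = c₃ • W v (x * (V v)⁻¹) •
        (Fa h a r (sm μ φ f) x - Fa h a r (sm μ φ f) (x * U v)) := by
      intro x
      rw [Fa, Fa, ← integral_sub (Fa_int ha s1 s2 _) (Fa_int ha s1 s2 _), ← mul_smul,
        ← integral_smul, ← integral_indicator hT, ← one_smul ℝ (∫ _, _ ∂gauE _ _),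
        ← probReal_univ (μ := h.νK), ← integral_fun_fst]
      refine integral_congr_ae ((Measure.quasiMeasurePreserving_snd.ae h.hpK.ae).mono
        fun z hz => ?_)
      by_cases h1 : z.1 ∈ Metric.closedBall 0 r
      · simp [hco, hz, indicator_of_mem h1]
      · simp [hco, indicator_of_notMem h1]
    simp only [e2]
    rw [int_cond, integral_smul, inv_smul_smul₀ hp.ne',
      setIntegral_eq_integral_of_forall_compl_eq_zero fun x hx => ?_,
      ← integral_mul_right_eq_self _ (V v)]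
    · simp only [mul_assoc, mul_inv_cancel, mul_one]
    · have h1 := h.rr_mul_le (x * (V v)⁻¹) (V v)
      rw [inv_mul_cancel_right] at h1
      rw [sW _ _ (by linarith [bV v, (not_le.1 hx : 3 + R < h.rr x)]), zero_smul]

theorem div_core (h : R1 ρ w) : ∃ R : ℝ, 0 ≤ R ∧ ∀ {φ : G → ℝ} {r₁ c a r κ : ℝ} {W : G → G → ℝ}
    {N : ℕ}, Bump μ h φ r₁ → (∀ g, |φ g| ≤ c) → 0 < a → 0 ≤ r → 1 + √(cc w) * r ≤ N →
    Measurable (Function.uncurry W) → (∀ v x, |W v x| ≤ κ) → (∀ v x, 2 < h.rr x → W v x = 0) →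
    ∃ ψ : G × G × Eu h.m2 × G → G → ℝ,
      Ok μ h ψ ((2 * N + 4 : ℕ) * (μ.real (bl h (3 + R)) * κ * (c + c))) (r₁ + R) ∧
      ∀ (X : Type) [NormedAddCommGroup X] [NormedSpace ℝ X] [CompleteSpace X] (f : G → X) (M : ℝ),
      Continuous f → (∀ g, ‖f g‖ ≤ M) → ∀ v, h.rr v ≤ 3 →
      ∫ z, ∫ u, ψ (v, z) u • f (gm h z * u) ∂μ ∂μ[|bl h (3 + R)].prod ((gauE h.m2 a).prod h.νK) =
        ∫ x, W v x • (Fa h a r (sm μ φ f) x - Fa h a r (sm μ φ f) (x * v)) ∂μ := by
  obtain ⟨R, hR, H⟩ := pathM h (R₀ := 3) (by norm_num)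
  refine ⟨R, hR, fun {φ r₁ c a r κ W N} hφ hc ha hr hN mW bW sW => ?_⟩
  haveI := gauE_prob (m := h.m2) ha
  haveI := nu_prob μ h (by positivity : 0 < 3 + R)
  have hN1 : (1 : ℝ) ≤ N := le_trans (le_add_of_nonneg_right (by positivity)) hN
  obtain ⟨V, ⟨-, ψ, h1, h2⟩, h3⟩ := H N (Nat.one_le_cast.1 hN1) (fun j V => Measurable V ∧
    ∃ ψ : G × G × Eu h.m2 × G → G → ℝ,
      Ok μ h ψ (j * (μ.real (bl h (3 + R)) * κ * (c + c))) (r₁ + R) ∧
      ∀ (X : Type) [NormedAddCommGroup X] [NormedSpace ℝ X] [CompleteSpace X] (f : G → X) (M : ℝ),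
      Continuous f → (∀ g, ‖f g‖ ≤ M) → ∀ v,
      ∫ z, ∫ u, ψ (v, z) u • f (gm h z * u) ∂μ ∂μ[|bl h (3 + R)].prod ((gauE h.m2 a).prod h.νK) =
        ∫ x, W v x • (Fa h a r (sm μ φ f) (x * 1) - Fa h a r (sm μ φ f) (x * V v)) ∂μ)
    ⟨measurable_const, fun _ _ => 0, ⟨measurable_const, by simp, by simp, by simp⟩, by simp⟩ (by
      rintro j V U ⟨mV, ψ, h1, h2⟩ mU bV bU
      obtain ⟨ψ', h3, h4⟩ := div_step (r := r) hφ hc ha hR mW bW sW mV mU bV fun v y hy =>
        bU v _ (rad_nonneg (norm_nonneg _)) ((exp_rad_le (norm_nonneg _)).trans (le_trans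
          (add_le_add le_rfl (mul_le_mul_of_nonneg_left hy (Real.sqrt_nonneg _))) hN))
      refine ⟨mV.mul mU, _, by simpa only [Nat.cast_succ, add_one_mul] using h1.add h3,
        fun X _ _ _ f M hf hM v => ?_⟩
      obtain ⟨s1, s2⟩ := sm_facts hφ hf hM
      obtain ⟨t1, t2⟩ := Fa_facts (h := h) (r := r) ha s1 s2
      simp only [add_smul]
      rw [integral_integral_add ((h1.comp measurable_prodMk_left).int _ (meas_gm h) hf hM)
        ((h3.comp measurable_prodMk_left).int _ (meas_gm h) hf hM), h2 X f M hf hM,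
        h4 X f M hf hM, ← integral_add (W_int mW bW sW t1 t2 _ _ _) (W_int mW bW sW t1 t2 _ _ _)]
      simp only [← smul_add, sub_add_sub_cancel])
  exact ⟨ψ, h1, fun X _ _ _ f M hf hM v hv => by simpa only [h3 v hv, mul_one] using h2 X f M hf hM v⟩

theorem two_point (h : R1 ρ w) {F : G → X} (hF : Continuous F) (hM : ∀ g, ‖F g‖ ≤ M) {x : G}
    (hx : h.rr x ≤ 1) : ∫ v in bl h 3, ∫ y, ((bl h 1).indicator 1 (x⁻¹ * y) *
      (bl h 1).indicator 1 (y * v) : ℝ) • (F y - F (y * v)) ∂μ ∂μ =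
      μ.real (bl h 1) • ∫ y in bl h 1, (F (x * y) - F y) ∂μ := by
  have hB := meas_bl h 1
  have mi : Measurable ((bl h 1).indicator (1 : G → ℝ)) := measurable_one.indicator hB
  have k1 : ∀ y, x⁻¹ * y ∈ bl h 1 → h.rr y ≤ 2 := fun y hy => by
    have := h.rr_mul_le x (x⁻¹ * y)
    rw [mul_inv_cancel_left] at this
    linarith [show h.rr _ ≤ 1 from hy]
  have iB : ∀ {F : G → X}, Continuous F → Integrable F (μ.restrict (bl h 1)) :=
    fun hF => hF.continuousOn.integrableOn_compact (h.isCompact_ball 1)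
  have e1 : ∀ F : G → X, ∫ y, (bl h 1).indicator (1 : G → ℝ) y • F y ∂μ = ∫ y in bl h 1, F y ∂μ :=
    fun F => by
      rw [← integral_indicator hB]
      congr 1
      ext y
      by_cases hy : y ∈ bl h 1 <;> simp [hy]
  have i0 : Integrable (fun z : G × G => ((bl h 1).indicator 1 (x⁻¹ * z.2) *
      (bl h 1).indicator 1 (z.2 * z.1) : ℝ) • (F z.2 - F (z.2 * z.1)))
      ((μ.restrict (bl h 3)).prod μ) :=
    int_supp (s := univ ×ˢ bl h 2) (MeasurableSet.univ.prod (meas_bl h 2)) (by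
      rw [Measure.prod_prod, Measure.restrict_apply_univ]
      exact ENNReal.mul_ne_top (bl_fin μ h 3) (bl_fin μ h 2))
    ((Measurable.aestronglyMeasurable (by fun_prop)).smul
      (Continuous.aestronglyMeasurable (by fun_prop)))
    (fun z => smul_le (d := 1) (by
      rw [abs_mul]; exact mul_le_one₀ (abs_ind _ _) (abs_nonneg _) (abs_ind _ _))
      ((norm_sub_le _ _).trans (add_le_add (hM _) (hM _))))
    fun z hz => by simp [indicator_of_notMem fun h => hz ⟨trivial, k1 _ h⟩]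
  rw [integral_integral_swap i0]
  have e2 : ∀ y, ∫ v in bl h 3, ((bl h 1).indicator 1 (x⁻¹ * y) *
      (bl h 1).indicator 1 (y * v) : ℝ) • (F y - F (y * v)) ∂μ = (bl h 1).indicator (1 : G → ℝ)
      (x⁻¹ * y) • (μ.real (bl h 1) • F y - ∫ v in bl h 1, F v ∂μ) := by
    intro y
    by_cases hy : x⁻¹ * y ∈ bl h 1
    · rw [setIntegral_eq_integral_of_forall_compl_eq_zero fun v hv => ?_]
      · simp only [mul_smul]
        rw [integral_smul, integral_mul_left_eq_self
          (fun v => (bl h 1).indicator (1 : G → ℝ) v • (F y - F v)) y, e1, integral_sub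
          (iB continuous_const) (iB hF),
          setIntegral_const]
      · rw [indicator_of_notMem (a := y * v) fun h1 => hv ?_, mul_zero, zero_smul]
        have h2 := h.rr_mul_le y⁻¹ (y * v)
        rw [inv_mul_cancel_left, h.rr_inv] at h2
        show h.rr v ≤ 3
        linarith [k1 y hy, show h.rr _ ≤ 1 from h1]
    · simp [hy]
  simp only [e2]
  rw [← integral_mul_left_eq_self _ x]
  simp only [inv_mul_cancel_left]
  rw [e1, integral_sub (iB (by fun_prop)) (iB continuous_const), setIntegral_const,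
    integral_sub (iB (by fun_prop)) (iB hF), smul_sub, integral_smul]

end Vale.Agent.P092RK
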