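import Vale.Agent.P092RK.Div2
import Vale.Agent.P092RK.CocL
import Vale.Agent.P092CP.L2

/-!
P092, rank one, block A (helper93): the contracting measures, `GAPM`.
-/

set_option linter.all false

open MeasureTheory Filter Topology Set ProbabilityTheory
open scoped InnerProductSpace

namespace Vale.Agent.P092RK

open Vale.Agent.P092.H793.Re Vale.Agent.P092RG Vale.Agent.P092UB Vale.Agent.P092CP
open Vale.Agent.P092.H933 (URep fixedSub)

variable {n : ℕ} {G G' K : Type} [Group G] [TopologicalSpace G] [IsTopologicalGroup G]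
  [LocallyCompactSpace G] [SecondCountableTopology G] [T2Space G] [MeasurableSpace G] [BorelSpace G]
  [Group G'] [TopologicalSpace G'] [IsTopologicalGroup G'] [LocallyCompactSpace G']
  [SecondCountableTopology G'] [T2Space G'] [MeasurableSpace G'] [BorelSpace G']
  [NormedAddCommGroup K] [InnerProductSpace ℂ K] [CompleteSpace K] {μ : Measure G}
  [μ.IsHaarMeasure] {μ' : Measure G'} [μ'.IsHaarMeasure] {W : Set (K →L[ℂ] K)}
  {ρ : G →* SLn n} {w : Fin n → ℝ}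

theorem proj_M (C : Cpl μ μ' W) {x : K →L[ℂ] K} (hx : C.t.M x) :
    (fixedSub C.admM.rep).starProjection (C.t.vM x) = C.t.τ x • C.t.vM 1 := by
  have h1 : ⟪C.t.vM 1, C.t.vM 1⟫_ℂ = 1 := by
    rw [C.t.inner_vM C.t.M_one C.t.M_one]; exact C.t.τ_one
  refine Submodule.eq_starProjection_of_mem_orthogonal (fun g => by rw [map_smul, C.rep_one])
    fun ξ hξ => ?_
  have h2 := C.fix_M (S := univ) (fun _ _ _ _ _ _ _ _ h g => h g trivial)
    (ξ := ξ - ⟪C.t.vM 1, ξ⟫_ℂ • C.t.vM 1) (fun g _ => by rw [map_sub, map_smul, C.rep_one, hξ g])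
    (by rw [inner_sub_left, inner_smul_left, inner_conj_symm, h1, mul_one, sub_self])
  rw [sub_eq_zero.1 h2, inner_smul_left, inner_sub_right, inner_smul_right, h1,
    C.t.inner_vM C.t.M_one hx, mul_one]
  exact mul_eq_zero_of_right _ (sub_self _)

theorem av_gap (C : Cpl μ μ' W) (h : R1 ρ w) (hm : 2 ≤ h.m2) {a r : ℝ} (ha : 1 ≤ a) (hr : 0 < r)
    (ν : Measure G) [IsProbabilityMeasure ν] {x : K →L[ℂ] K} (hx : C.t.M x) :
    ‖av C (ν.prod (μ[|bl h r].prod ((gauE h.m2 a).prod h.νK))) (fun q => gm h q.2) x -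
      C.t.τ x • C.t.Ω‖ ≤ th h a * ‖x C.t.Ω‖ := by
  haveI := gauE_prob (m := h.m2) (by linarith : 0 < a)
  haveI := nu_prob μ h hr
  have h1 := gap2 μ h hm C.admM.urep (C.t.vM x) ha hr
  rw [proj_M C hx, C.t.norm_vM hx, Submodule.coe_norm, Submodule.coe_sub, Submodule.coe_smul,
    C.t.coe_vM C.t.M_one] at h1
  rw [av, integral_fun_snd (fun z => sg C (gm h z) x C.t.Ω), probReal_univ, one_smul]
  refine le_of_eq_of_le (congrArg (fun ξ => ‖ξ - C.t.τ x • C.t.Ω‖) ?_) h1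
  refine Eq.trans ?_ (C.t.LM.subtypeL.integral_comp_comm
    (ur_int C.admM.urep (meas_gm h) (C.t.vM x)))
  refine integral_congr_ae (ae_of_all _ fun z => ?_)
  simp only [Submodule.subtypeL_apply]
  rw [C.admM.rep_v _ hx, C.t.coe_vM (C.M_σ hx _)]
  rfl

theorem exists_bump (μ : Measure G) [μ.IsHaarMeasure] (h : R1 ρ w) : ∃ φ, Bump μ h φ 1 := by
  have hc : Continuous fun g => max (1 - h.rr g) 0 := by have := h.continuous_rr; fun_prop
  have h0 : ∀ g, 1 < h.rr g → max (1 - h.rr g) 0 = 0 := fun g hg => max_eq_right (by linarith)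
  have h1 : 0 < ∫ g, max (1 - h.rr g) 0 ∂μ :=
    hc.integral_pos_of_hasCompactSupport_nonneg_nonzero (x := 1)
      (HasCompactSupport.intro (h.isCompact_ball 1) fun g hg => h0 g (not_le.1 hg))
      (fun g => le_max_right _ _) (by simp [h.rr_one])
  exact ⟨fun g => (∫ g, max (1 - h.rr g) 0 ∂μ)⁻¹ * max (1 - h.rr g) 0, continuous_const.mul hc,
    fun g => by positivity, fun g hg => by rw [h0 g hg, mul_zero],
    by rw [integral_const_mul, inv_mul_cancel₀ h1.ne'], fun κ hκ g => by rw [h.rr_K_mul hκ]⟩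

theorem div_mm (C : Cpl μ μ' W) (h : R1 ρ w) (hm : 2 ≤ h.m2) {φ : G → ℝ} {r₁ : ℝ}
    (hφ : Bump μ h φ r₁) : ∃ R L₀ : ℝ, 0 ≤ R ∧ 0 ≤ L₀ ∧ ∀ (a r δ : ℝ) (N : ℕ), 1 ≤ a → 0 < r →
      2 * a * h.m2 / r ^ 2 ≤ 1 / 2 → 1 + √(cc w) * r ≤ N → (2 * N + 4 : ℕ) * L₀ * th h a ≤ δ →
      DIV C h φ (r₁ + R) (mm μ h a r) δ := by
  obtain ⟨R, hR, H⟩ := div_core (μ := μ) h
  obtain ⟨c, hc0, hc⟩ := bump_bdd hφ
  have p1 := bl_pos μ h one_pos
  have p3 := bl_pos μ h (show (0 : ℝ) < 3 by norm_num)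
  refine ⟨R, μ.real (bl h (3 + R)) * (2 * (μ.real (bl h 1))⁻¹ * (μ.real (bl h 1))⁻¹ *
    μ.real (bl h 3)) * (c + c), hR, by positivity, fun a r δ N ha hr hε hN hδ x hx => ?_⟩
  have ha0 : 0 < a := by linarith
  haveI := gauE_prob (m := h.m2) ha0
  haveI := nu_prob μ h one_pos
  haveI := nu_prob μ h (show (0 : ℝ) < 3 by norm_num)
  haveI := nu_prob μ h (by positivity : 0 < 3 + R)
  obtain ⟨-, b2, b3⟩ := half_le ha0 hr hε le_rfl
  set t := (gauE h.m2 a).real (Metric.closedBall 0 r) with ht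
  have t0 : 0 < t := by linarith
  have mi : Measurable ((bl h 1).indicator (1 : G → ℝ)) := measurable_one.indicator (meas_bl h 1)
  obtain ⟨ψ, h1, h2⟩ := H (W := fun v y => t⁻¹ * (μ.real (bl h 1))⁻¹ * (μ.real (bl h 1))⁻¹ *
      μ.real (bl h 3) * ((bl h 1).indicator 1 (x⁻¹ * y) * (bl h 1).indicator 1 (y * v)))
    (κ := 2 * (μ.real (bl h 1))⁻¹ * (μ.real (bl h 1))⁻¹ * μ.real (bl h 3)) hφ hc ha0 hr.le hN
    (by unfold Function.uncurry; fun_prop) (fun v y => by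
      rw [abs_mul, abs_mul (indicator _ _ _), abs_of_nonneg (by positivity)]
      refine (mul_le_of_le_one_right (by positivity) (mul_le_one₀ (abs_ind _ _) (abs_nonneg _)
        (abs_ind _ _))).trans ?_
      have : t⁻¹ ≤ 2 := inv_le_of_inv_le₀ two_pos (by linarith)
      gcongr) fun v y hy => by
      rw [indicator_of_notMem fun h1 => ?_, zero_mul, mul_zero]
      have := h.rr_mul_le x (x⁻¹ * y)
      rw [mul_inv_cancel_left] at this
      linarith [show h.rr _ ≤ 1 from h1]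
  have mγ : Measurable fun q : G × G × Eu h.m2 × G => gm h q.2 := (meas_gm h).comp measurable_snd
  refine ⟨_, _, μ[|bl h 3].prod (μ[|bl h (3 + R)].prod ((gauE h.m2 a).prod h.νK)), _, ψ, _,
    inferInstance, mγ, h1.meas, by positivity, h1.bdd, h1.supp, h1.zero,
    fun X _ _ _ f hf ⟨M, hM⟩ => ?_, fun y hy => ?_⟩
  · obtain ⟨s1, s2⟩ := sm_facts hφ hf hM
    obtain ⟨t1, t2⟩ := Fa_facts (h := h) (r := r) ha0 s1 s2
    have e1 : ∀ g, ∫ u, φ u • (f (x * g * u) - f (g * u)) ∂μ = sm μ φ f (x * g) - sm μ φ f g := by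
      intro g
      simp only [smul_sub]
      exact integral_sub (sm_int hφ hf hM _) (sm_int hφ hf hM _)
    have c1 : Continuous fun g => sm μ φ f (x * g) - sm μ φ f g := by fun_prop
    simp only [e1]
    rw [integral_prod _ (h1.int _ mγ hf hM).integral_prod_left, integral_congr_ae
      ((ae_cond_mem (meas_bl h 3)).mono fun v hv => h2 X f M hf hM v hv), mm,
      integral_map (meas_mm h).aemeasurable c1.aestronglyMeasurable, integral_prod _
      (int_bdd (c1.comp_aestronglyMeasurable (meas_mm h).aestronglyMeasurable)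
        fun z => (norm_sub_le _ _).trans (add_le_add (s2 _) (s2 _)))]
    simp only [mul_smul _ (_ * _ : ℝ), integral_smul, int_cond (gauE _ _), ← mul_assoc x,
      integral_sub (Fa_int ha0 s1 s2 _) (Fa_int ha0 s1 s2 _)]
    rw [int_cond, int_cond, two_point h t1 t2 hx, smul_smul, smul_smul, smul_smul]
    congr 1
    rw [← ht]
    field_simp
  · refine (mul_le_mul_of_nonneg_left (av_gap C h hm ha (by positivity) _ hy)
      (by positivity)).trans ?_
    rw [← mul_assoc]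
    exact mul_le_mul_of_nonneg_right hδ (norm_nonneg _)

/-- **GAPM** -/
theorem gapm (C : Cpl μ μ' W) (h : R1 ρ w) (hm : 2 ≤ h.m2) : GAPM C h := by
  obtain ⟨φ, hφ⟩ := exists_bump μ h
  obtain ⟨R, L₀, hR, hL, H⟩ := div_mm C h hm hφ
  refine ⟨φ, 1 + R, ⟨hφ.cont, hφ.nonneg, fun g hg => hφ.supp g (by linarith), hφ.int, hφ.inv⟩,
    fun δ hδ => ?_⟩
  have h3 : (3 : ℝ) ≤ h.m2 := by exact_mod_cast three_le h hm
  have hr := Cr_nonneg h
  have hc : 0 ≤ Cc h := Real.sqrt_nonneg _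
  obtain ⟨ε, e0, e1, e2⟩ : ∃ ε : ℝ, 0 < ε ∧ ε ≤ 1 / 2 ∧ 8 * ε * Cc h ≤ δ := by
    refine ⟨min (1 / 2) (δ / (8 * Cc h + 1)), by positivity, min_le_left _ _, ?_⟩
    have := (le_div_iff₀ (by positivity)).1 (min_le_right (1 / 2) (δ / (8 * Cc h + 1)))
    nlinarith [le_min (by norm_num : (0 : ℝ) ≤ 1 / 2) (by positivity : 0 ≤ δ / (8 * Cc h + 1))]
  set s := √(2 * h.m2 / ε) with hs
  have s0 : 0 < s := by positivity
  have l1 : ∀ c : ℝ, Tendsto (fun b : ℝ => c / b) atTop (𝓝 0) := fun c =>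
    tendsto_const_nhds.div_atTop tendsto_id
  obtain ⟨b, ⟨k1, k2⟩, k3⟩ := ((((l1 (Cr h)).eventually (gt_mem_nhds e0)).and
    ((l1 ((8 + 2 * √(cc w) * s) * L₀ * Cr h)).eventually (gt_mem_nhds hδ))).and
    (eventually_ge_atTop 1)).exists
  have b0 : 0 < b := by linarith
  have a1 : 1 ≤ b ^ 2 := one_le_pow₀ k3
  have t1 : th h (b ^ 2) ≤ Cr h / b ^ 2 := by
    rw [th, div_eq_mul_inv (Cr h), ← Real.rpow_neg_one (b ^ 2)]
    exact mul_le_mul_of_nonneg_left (Real.rpow_le_rpow_of_exponent_le a1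
      (show -(((h.m2 : ℝ) - 1) / 2) ≤ -1 by linarith)) hr
  have t2 : Cr h / b ^ 2 ≤ Cr h / b := div_le_div_of_nonneg_left hr b0 (by nlinarith)
  have t0 := th_nonneg h (sq_nonneg b)
  have r1 : 2 * b ^ 2 * h.m2 / (s * b) ^ 2 ≤ ε := by
    rw [mul_pow, hs, Real.sq_sqrt (by positivity)]
    refine le_of_eq ?_
    field_simp
  obtain ⟨-, -, b3⟩ := half_le (by positivity) (mul_pos s0 b0) r1 e1
  obtain ⟨m1, m2, m3⟩ := mm_facts μ h (a := b ^ 2) (mul_pos s0 b0)
  refine ⟨mm μ h (b ^ 2) (s * b), m1, (integrable_const _).mono'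
    h.continuous_rr.aestronglyMeasurable (m2.mono fun g hg => by
      rwa [Real.norm_of_nonneg (h.rr_nonneg g)]), m3, ?_,
    H _ _ _ ⌈1 + √(cc w) * (s * b)⌉₊ a1 (mul_pos s0 b0) (r1.trans e1) (Nat.le_ceil _) ?_⟩
  · intro X _ _ _ c M ω hM hω hb hK hd x η hη
    have hM0 : 0 ≤ M := by simpa [h.rr_one] using (norm_nonneg _).trans (hM 0 1)
    refine (coc_gap h hm m2 (θ := 2 * (th h (b ^ 2) + ε)) (by positivity)
      (fun E _ _ _ σ hσ v hv h0 => gap3 μ h hm hσ hv h0 a1 (mul_pos s0 b0) r1 e1)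
      X c M ω hM hω hb hK hd x η hη).mono fun k hk => hk.trans ?_
    refine add_le_add (mul_le_mul_of_nonneg_right (le_trans ?_ e2) hM0) le_rfl
    exact mul_le_mul_of_nonneg_right (by linarith) hc
  · have h1 := (Nat.ceil_lt_add_one (by positivity : 0 ≤ 1 + √(cc w) * (s * b))).le
    have h2 : ((2 * ⌈1 + √(cc w) * (s * b)⌉₊ + 4 : ℕ) : ℝ) ≤ (8 + 2 * √(cc w) * s) * b := by
      push_cast
      nlinarith
    refine le_trans ?_ k2.le
    calc _ ≤ (8 + 2 * √(cc w) * s) * b * L₀ * (Cr h / b ^ 2) := by gcongr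
      _ = _ := by field_simp

end Vale.Agent.P092RK
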