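import Vale.Agent.P092RG.Alg
import Mathlib.Analysis.Calculus.ParametricIntegral
import Mathlib.Analysis.Calculus.FDeriv.Symmetric
import Mathlib.Analysis.Calculus.BumpFunction.Basic
import Mathlib.MeasureTheory.Measure.Haar.Basic
import Mathlib.MeasureTheory.Group.Integral

/-!
P092, rank one, block K (helper93): Garding vectors of linear groups.
-/

set_option linter.all false

open Matrix MeasureTheory Filter Topology Set
open scoped InnerProductSpace ContDiff

namespace Vale.Agent.P092RK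

open Vale.Agent.P092.H793.Re Vale.Agent.P092RG

attribute [local instance] Matrix.linftyOpNormedRing Matrix.linftyOpNormedAlgebra

variable {n : ℕ} {G : Type} [Group G] [TopologicalSpace G] {ρ : G →* SLn n}
variable {H : Type*} [NormedAddCommGroup H] [InnerProductSpace ℝ H] [CompleteSpace H]

/-- orthogonal representations -/
structure RR (π : G → H →L[ℝ] H) : Prop where
  mul : ∀ g g' ξ, π (g * g') ξ = π g (π g' ξ)
  one : ∀ ξ, π 1 ξ = ξ
  inn : ∀ g ξ η, ⟪π g ξ, π g η⟫_ℝ = ⟪ξ, η⟫_ℝ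
  cont : ∀ ξ, Continuous fun g => π g ξ

variable {π : G → H →L[ℝ] H}

theorem RR.norm (h : RR π) (g : G) (ξ : H) : ‖π g ξ‖ = ‖ξ‖ := by
  rw [← sq_eq_sq₀ (norm_nonneg _) (norm_nonneg _), ← real_inner_self_eq_norm_sq,
    ← real_inner_self_eq_norm_sq, h.inn]

theorem RR.left (h : RR π) (g : G) (ξ η : H) : ⟪π g ξ, η⟫_ℝ = ⟪ξ, π g⁻¹ η⟫_ℝ := by
  rw [← h.inn g ξ, ← h.mul, mul_inv_cancel, h.one]

theorem mat_ex {X : Mat n} (hX : Lie ρ X) : (ρ (ex ρ X)).1 = NormedSpace.exp X := by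
  rw [ex, dif_pos hX]; exact (exp_mem hX).choose_spec

theorem mat_mul (g g' : G) : (ρ (g * g')).1 = (ρ g).1 * (ρ g').1 := by simp

theorem ex_inv (he : IsClosedEmbedding ρ) {X : Mat n} (hX : Lie ρ X) :
    (ex ρ X)⁻¹ = ex ρ (-X) := by
  refine ρ_inj he ?_
  rw [coe_inv, mat_ex hX, mat_ex (lie_neg hX), Matrix.exp_neg]

theorem ex_zero (he : IsClosedEmbedding ρ) : ex ρ 0 = 1 := by
  refine ρ_inj he ?_
  rw [mat_ex lie_zero]; simp

theorem ex_add (he : IsClosedEmbedding ρ) {X Y : Mat n} (hX : Lie ρ X) (hY : Lie ρ Y)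
    (hc : X * Y = Y * X) : ex ρ (X + Y) = ex ρ X * ex ρ Y := by
  refine ρ_inj he ?_
  rw [mat_mul, mat_ex hX, mat_ex hY, mat_ex (lie_add he hX hY), Matrix.exp_add_of_commute _ _ hc]

theorem ex_conj (he : IsClosedEmbedding ρ) {g : G} {U U' : Mat n} (hU : Lie ρ U) (hU' : Lie ρ U')
    (hc : (ρ g).1 * U = U' * (ρ g).1) : g * ex ρ U = ex ρ U' * g := by
  refine ρ_inj he ?_
  have hu := isUnit_coe (ρ := ρ) g
  have hd := (Matrix.isUnit_iff_isUnit_det _).1 hu
  have e : U' = (ρ g).1 * U * ((ρ g).1)⁻¹ := by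
    rw [hc, Matrix.mul_nonsing_inv_cancel_right _ _ hd]
  rw [mat_mul, mat_mul, mat_ex hU, mat_ex hU', e, Matrix.exp_conj _ _ hu,
    Matrix.nonsing_inv_mul_cancel_right _ _ hd]

/-- a space of smooth vectors with the action of the Lie algebra -/
structure Smo (ρ : G →* SLn n) (π : G → H →L[ℝ] H) (S : Set H) (D : Mat n → H → H) : Prop where
  mem : ∀ X, Lie ρ X → ∀ w ∈ S, D X w ∈ S
  der : ∀ X, Lie ρ X → ∀ w ∈ S, HasDerivAt (fun s : ℝ => π (ex ρ (s • X)) w) (D X w) 0
  add : ∀ X Y, Lie ρ X → Lie ρ Y → ∀ w ∈ S, D (X + Y) w = D X w + D Y w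
  brk : ∀ X Y, Lie ρ X → Lie ρ Y → ∀ w ∈ S, D (X * Y - Y * X) w = D X (D Y w) - D Y (D X w)

/-- test functions -/
def Tf (F : Mat n → ℝ) : Prop := ContDiff ℝ ∞ F ∧ HasCompactSupport F

/-- derivative along right invariant fields -/
noncomputable def LX (X : Mat n) (F : Mat n → ℝ) (A : Mat n) : ℝ := -fderiv ℝ F A (X * A)

theorem Tf.LX {F : Mat n → ℝ} (h : Tf F) (X : Mat n) : Tf (LX X F) := by
  refine ⟨((h.1.fderiv_right (m := ∞) le_rfl).clm_apply (contDiff_const.mul contDiff_id)).neg, ?_⟩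
  refine HasCompactSupport.intro h.2.isCompact fun A hA => ?_
  have : fderiv ℝ F A = 0 := by
    by_contra h0
    exact hA (support_fderiv_subset ℝ h0)
  simp [P092RK.LX, this]

theorem LX_add (X Y : Mat n) (F : Mat n → ℝ) (A : Mat n) :
    LX (X + Y) F A = LX X F A + LX Y F A := by
  simp only [LX, Matrix.add_mul, map_add]; ring

theorem Tf.LX_brk {F : Mat n → ℝ} (h : Tf F) (X Y A : Mat n) :
    P092RK.LX (X * Y - Y * X) F A =
      P092RK.LX X (P092RK.LX Y F) A - P092RK.LX Y (P092RK.LX X F) A := by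
  have h1 : DifferentiableAt ℝ (fderiv ℝ F) A :=
    ((h.1.fderiv_right (m := ∞) le_rfl).differentiable (by simp)) A
  have h2 : ∀ X Y : Mat n, P092RK.LX X (P092RK.LX Y F) A =
      fderiv ℝ (fderiv ℝ F) A (X * A) (Y * A) + fderiv ℝ F A (Y * (X * A)) := by
    intro X Y
    have h3 := (h1.hasFDerivAt.clm_apply ((hasFDerivAt_id A).const_mul Y)).neg
    have h4 : fderiv ℝ (P092RK.LX Y F) A = _ := h3.fderiv
    rw [P092RK.LX, h4]
    exact neg_neg _ |>.trans (add_comm _ _)
  have h5 : fderiv ℝ (fderiv ℝ F) A (X * A) (Y * A) = fderiv ℝ (fderiv ℝ F) A (Y * A) (X * A) :=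
    (h.1.contDiffAt (x := A)).isSymmSndFDerivAt (by
      simp only [minSmoothness_of_isRCLikeNormedField]; exact WithTop.coe_le_coe.2 le_top) _ _
  rw [h2, h2, h5, P092RK.LX, Matrix.sub_mul, map_sub, Matrix.mul_assoc, Matrix.mul_assoc]
  ring

theorem Tf.flow {F : Mat n → ℝ} (h : Tf F) (X A : Mat n) (s : ℝ) :
    HasDerivAt (fun s : ℝ => F (NormedSpace.exp (s • -X) * A))
      (P092RK.LX X F (NormedSpace.exp (s • -X) * A)) s := by
  have h1 := (hasDerivAt_exp_smul_const' (𝕂 := ℝ) (-X) s).mul_const A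
  have h2 := ((h.1.differentiable (by simp)) _).hasFDerivAt.comp_hasDerivAt s h1
  refine h2.congr_deriv ?_
  rw [P092RK.LX, Matrix.mul_assoc, Matrix.neg_mul, map_neg]
  rfl

section haar

variable [IsTopologicalGroup G] [SecondCountableTopology G] [MeasurableSpace G] [BorelSpace G]
  (μ : Measure G) [μ.IsHaarMeasure]

/-- Garding vectors -/
noncomputable def gv (ρ : G →* SLn n) (π : G → H →L[ℝ] H) (v : H) (F : Mat n → ℝ) : H :=
  ∫ g, F (ρ g).1 • π g v ∂μ

variable {v : H}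

theorem gv_int (he : IsClosedEmbedding ρ) (h : RR π) {F : Mat n → ℝ} (hF : Continuous F)
    (hc : HasCompactSupport F) (v : H) : Integrable (fun g => F (ρ g).1 • π g v) μ :=
  ((hF.comp (emb_mat he).continuous).smul (h.cont v)).integrable_of_hasCompactSupport
    (hc.comp_isClosedEmbedding (emb_mat he)).smul_right

theorem gv_act (he : IsClosedEmbedding ρ) (h : RR π) {F : Mat n → ℝ} (hF : Tf F) (g : G) :
    π g (gv μ ρ π v F) = gv μ ρ π v fun A => F ((ρ g⁻¹).1 * A) := by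
  rw [gv, gv, ← (π g).integral_comp_comm (gv_int μ he h hF.1.continuous hF.2 v),
    ← integral_mul_left_eq_self _ g⁻¹]
  refine integral_congr_ae (ae_of_all _ fun k => ?_)
  simp only [map_smul, ← h.mul, mul_inv_cancel_left, mat_mul]

theorem gv_der (he : IsClosedEmbedding ρ) (h : RR π) {F : Mat n → ℝ} (hF : Tf F) {X : Mat n}
    (hX : Lie ρ X) :
    HasDerivAt (fun s : ℝ => π (ex ρ (s • X)) (gv μ ρ π v F)) (gv μ ρ π v (LX X F)) 0 := by
  haveI := t2 he
  have hm := (emb_mat he).continuous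
  have e : (fun s : ℝ => π (ex ρ (s • X)) (gv μ ρ π v F)) =
      fun s => ∫ g, F (NormedSpace.exp (s • -X) * (ρ g).1) • π g v ∂μ := by
    funext s
    rw [gv_act μ he h hF, ex_inv he (lie_smul s hX), mat_ex (lie_neg (lie_smul s hX)), smul_neg, gv]
  obtain ⟨C, hC⟩ := (hF.LX X).1.continuous.bounded_above_of_compact_support (hF.LX X).2
  have hK : IsCompact ((fun g : G => (ρ g).1) ⁻¹' ((fun p : ℝ × Mat n =>
      NormedSpace.exp (p.1 • X) * p.2) '' (Icc (-1) 1 ×ˢ tsupport (LX X F)))) :=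
    (emb_mat he).isCompact_preimage ((isCompact_Icc.prod (hF.LX X).2.isCompact).image
      ((continuous_exp.comp (continuous_fst.smul continuous_const)).mul continuous_snd))
  have key := hasDerivAt_integral_of_dominated_loc_of_deriv_le (μ := μ)
    (F := fun (s : ℝ) g => F (NormedSpace.exp (s • -X) * (ρ g).1) • π g v)
    (F' := fun (s : ℝ) g => LX X F (NormedSpace.exp (s • -X) * (ρ g).1) • π g v)
    (x₀ := 0) (s := Ioo (-1) 1) (bound := Set.indicator _ fun _ => C * ‖v‖)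
    (Ioo_mem_nhds (by norm_num) (by norm_num))
    (Eventually.of_forall fun s => ((hF.1.continuous.comp (continuous_const.mul hm)).smul
      (h.cont v)).aestronglyMeasurable)
    (by simpa using gv_int μ he h hF.1.continuous hF.2 v)
    (((hF.LX X).1.continuous.comp (continuous_const.mul hm)).smul
      (h.cont v)).aestronglyMeasurable
    (ae_of_all _ fun g s hs => ?_)
    ((integrable_indicator_iff hK.measurableSet).2
      (integrableOn_const hK.measure_lt_top.ne))
    (ae_of_all _ fun g s hs => (hF.flow X _ s).smul_const _)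
  · rw [e]
    refine key.2.congr_deriv ?_
    simp [gv]
  · by_cases h0 : LX X F (NormedSpace.exp (s • -X) * (ρ g).1) = 0
    · rw [h0, zero_smul, norm_zero]
      exact indicator_nonneg (fun _ _ => mul_nonneg ((norm_nonneg _).trans (hC 0)) (norm_nonneg _)) _
    · rw [indicator_of_mem, norm_smul, h.norm]
      · exact mul_le_mul_of_nonneg_right (hC _) (norm_nonneg _)
      · refine ⟨(s, _), ⟨Ioo_subset_Icc_self hs, subset_tsupport _ h0⟩, ?_⟩
        simp only
        rw [← Matrix.mul_assoc, ← Matrix.exp_add_of_commute _ _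
          (((Commute.refl X).neg_right.smul_left s).smul_right s)]
        simp

theorem gv_smo (he : IsClosedEmbedding ρ) (h : RR π) (v : H) :
    Smo ρ π {w | ∃ F, Tf F ∧ w = gv μ ρ π v F}
      fun X w => deriv (fun s : ℝ => π (ex ρ (s • X)) w) 0 := by
  have hi : ∀ {F : Mat n → ℝ}, Tf F → Integrable (fun g => F (ρ g).1 • π g v) μ :=
    fun hF => gv_int μ he h hF.1.continuous hF.2 v
  refine ⟨?_, ?_, ?_, ?_⟩
  · rintro X hX _ ⟨F, hF, rfl⟩
    exact ⟨_, hF.LX X, (gv_der μ he h hF hX).deriv⟩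
  · rintro X hX _ ⟨F, hF, rfl⟩
    exact (gv_der μ he h hF hX).differentiableAt.hasDerivAt
  · rintro X Y hX hY _ ⟨F, hF, rfl⟩
    rw [(gv_der μ he h hF hX).deriv, (gv_der μ he h hF hY).deriv,
      (gv_der μ he h hF (lie_add he hX hY)).deriv, gv, gv, gv,
      ← integral_add (hi (hF.LX X)) (hi (hF.LX Y))]
    simp only [LX_add, add_smul]
  · rintro X Y hX hY _ ⟨F, hF, rfl⟩
    rw [(gv_der μ he h hF hX).deriv, (gv_der μ he h hF hY).deriv,
      (gv_der μ he h hF (lie_bracket he hX hY)).deriv, (gv_der μ he h (hF.LX X) hY).deriv,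
      (gv_der μ he h (hF.LX Y) hX).deriv, gv, gv, gv,
      ← integral_sub (hi ((hF.LX Y).LX X)) (hi ((hF.LX X).LX Y))]
    simp only [hF.LX_brk, sub_smul]

end haar

end Vale.Agent.P092RK
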