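import Mathlib.Analysis.SpecialFunctions.Gaussian.FourierTransform
import Mathlib.Analysis.Calculus.LineDeriv.IntegrationByParts
import Mathlib.Analysis.Calculus.ParametricIntegral

/-!
P092, rank one, block K (helper93): Gaussian integrals on a Euclidean space.
-/

set_option linter.all false

open MeasureTheory Filter Topology Set Real

namespace Vale.Agent.P092RK

/-- Euclidean space -/
abbrev Eu (m : ℕ) := EuclideanSpace ℝ (Fin m)

variable {m : ℕ}

/-- the Gaussian of variance `2 a`, not normalised -/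
noncomputable def ea (a : ℝ) (y : Eu m) : ℝ := exp (-‖y‖ ^ 2 / (4 * a))

/-- its total mass -/
noncomputable def Z (m : ℕ) (a : ℝ) : ℝ := (4 * π * a) ^ ((m : ℝ) / 2)

theorem ea_pos (a : ℝ) (y : Eu m) : 0 < ea a y := exp_pos _

theorem ea_cont (a : ℝ) : Continuous (ea (m := m) a) := by
  unfold ea; fun_prop

theorem ea_eq (a : ℝ) (y : Eu m) : ea a y = exp (-(1 / (4 * a)) * ‖y‖ ^ 2) := by
  unfold ea; congr 1; ring

theorem Z_pos {a : ℝ} (ha : 0 < a) : 0 < Z m a := by
  unfold Z; have := pi_pos; positivity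

theorem integral_ea {a : ℝ} (ha : 0 < a) : ∫ y : Eu m, ea a y = Z m a := by
  simp only [ea_eq]
  rw [GaussianFourier.integral_rexp_neg_mul_sq_norm (by positivity)]
  simp only [finrank_euclideanSpace, Fintype.card_fin, Z]
  congr 1
  field_simp

theorem integrable_ea {a : ℝ} (ha : 0 < a) : Integrable (ea (m := m) a) := by
  by_contra h
  have := integral_undef h
  rw [integral_ea ha] at this
  exact (Z_pos ha).ne' this

theorem sq_ea_le {a : ℝ} (ha : 0 < a) (y : Eu m) : ‖y‖ ^ 2 * ea a y ≤ 8 * a * ea (2 * a) y := by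
  have h1 : ‖y‖ ^ 2 / (8 * a) ≤ exp (‖y‖ ^ 2 / (8 * a)) := by
    have := add_one_le_exp (‖y‖ ^ 2 / (8 * a)); linarith
  have h2 : ea (2 * a) y = exp (‖y‖ ^ 2 / (8 * a)) * ea a y := by
    unfold ea; rw [← exp_add]; congr 1; field_simp; ring
  rw [h2, ← mul_assoc]
  refine mul_le_mul_of_nonneg_right ?_ (ea_pos a y).le
  rw [div_le_iff₀ (by positivity)] at h1
  linarith

theorem ea_mono {a b : ℝ} (ha : 0 < a) (hab : a ≤ b) (y : Eu m) : ea a y ≤ ea b y := by
  unfold ea
  refine exp_le_exp.2 ?_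
  rw [neg_div, neg_div, neg_le_neg_iff]
  exact div_le_div_of_nonneg_left (by positivity) (by positivity) (by linarith)

theorem integrable_sq_ea {a : ℝ} (ha : 0 < a) : Integrable fun y : Eu m => ‖y‖ ^ 2 * ea a y := by
  refine ((integrable_ea (m := m) (by positivity : 0 < 2 * a)).const_mul (8 * a)).mono'
    ((continuous_norm.pow 2).mul (ea_cont a)).aestronglyMeasurable (ae_of_all _ fun y => ?_)
  rw [Real.norm_of_nonneg (by have := ea_pos a y; positivity)]
  exact sq_ea_le ha y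

/-- functions of at most quadratic growth times a Gaussian -/
def Gd (a : ℝ) (f : Eu m → ℝ) : Prop :=
  Continuous f ∧ ∃ C, ∀ y, |f y| ≤ C * ((1 + ‖y‖ ^ 2) * ea a y)

/-- bounded continuous functions -/
def Bc {F : Type*} [NormedAddCommGroup F] (g : Eu m → F) : Prop :=
  Continuous g ∧ ∃ C, ∀ y, ‖g y‖ ≤ C

theorem Gd.smul {F : Type*} [NormedAddCommGroup F] [NormedSpace ℝ F] {a : ℝ} (ha : 0 < a)
    {f : Eu m → ℝ} {g : Eu m → F} (hf : Gd a f) (hg : Bc g) : Integrable fun y => f y • g y := by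
  obtain ⟨hf, C, hC⟩ := hf
  obtain ⟨hg, D, hD⟩ := hg
  have hi : Integrable fun y : Eu m => (1 + ‖y‖ ^ 2) * ea a y := by
    have := (integrable_ea (m := m) ha).add (integrable_sq_ea ha)
    refine this.congr (ae_of_all _ fun y => ?_)
    simp only [Pi.add_apply]; ring
  refine ((hi.const_mul C).mul_const D).mono' (hf.smul hg).aestronglyMeasurable
    (ae_of_all _ fun y => ?_)
  rw [norm_smul, Real.norm_eq_abs]
  exact mul_le_mul (hC y) (hD y) (norm_nonneg _) ((abs_nonneg _).trans (hC y))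

theorem Gd.mul {a : ℝ} (ha : 0 < a) {f g : Eu m → ℝ} (hf : Gd a f) (hg : Bc g) :
    Integrable fun y => f y * g y := hf.smul ha hg

theorem bc_one : Bc fun _ : Eu m => (1 : ℝ) := ⟨continuous_const, 1, fun _ => by simp⟩

theorem Gd.int {a : ℝ} (ha : 0 < a) {f : Eu m → ℝ} (hf : Gd a f) : Integrable f := by
  simpa using hf.mul ha bc_one

theorem gd_of {a : ℝ} {p : Eu m → ℝ} (hp : Continuous p) (C : ℝ)
    (h : ∀ y, |p y| ≤ C * (1 + ‖y‖ ^ 2)) : Gd a fun y => p y * ea a y := by
  refine ⟨hp.mul (ea_cont a), C, fun y => ?_⟩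
  rw [abs_mul, abs_of_pos (ea_pos a y), ← mul_assoc]
  exact mul_le_mul_of_nonneg_right (h y) (ea_pos a y).le

theorem gd_ea (a : ℝ) : Gd a (ea (m := m) a) := by
  have := gd_of (m := m) (a := a) (p := fun _ => 1) continuous_const 1 fun y => by
    simp only [abs_one, one_mul]; nlinarith [sq_nonneg ‖y‖]
  simpa using this

theorem gd_sq (a : ℝ) : Gd a fun y : Eu m => ‖y‖ ^ 2 * ea a y :=
  gd_of (by fun_prop) 1 fun y => by rw [abs_of_nonneg (sq_nonneg _)]; linarith

theorem abs_co (y : Eu m) (j : Fin m) : |y j| ≤ ‖y‖ := by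
  simpa using PiLp.norm_apply_le y j

theorem gd_co (a : ℝ) (j : Fin m) : Gd a fun y : Eu m => y j * ea a y :=
  gd_of (by fun_prop) 1 fun y => by
    have := abs_co y j
    nlinarith [sq_nonneg (‖y‖ - 1)]

theorem gd_co2 (a : ℝ) (j : Fin m) : Gd a fun y : Eu m => (1 - y j ^ 2 / (2 * a)) * ea a y :=
  gd_of (by fun_prop) (1 + |1 / (2 * a)|) fun y => by
    have h1 : y j ^ 2 ≤ ‖y‖ ^ 2 := by
      rw [← sq_abs]; exact pow_le_pow_left₀ (abs_nonneg _) (abs_co y j) 2
    have h2 : |1 - y j ^ 2 / (2 * a)| ≤ 1 + y j ^ 2 * |1 / (2 * a)| := by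
      refine (abs_sub _ _).trans ?_
      rw [abs_one, div_eq_mul_one_div, abs_mul, abs_of_nonneg (sq_nonneg _)]
    have h3 := abs_nonneg (1 / (2 * a))
    nlinarith [sq_nonneg ‖y‖, mul_le_mul_of_nonneg_right h1 h3]

/-- the basis vector -/
noncomputable def eb (j : Fin m) : Eu m := EuclideanSpace.single j 1

theorem line_ea {a : ℝ} (ha : 0 < a) (y : Eu m) (j : Fin m) :
    HasLineDerivAt ℝ (ea a) (-(1 / (2 * a)) * (y j * ea a y)) y (eb j) := by
  unfold HasLineDerivAt
  have h1 : ∀ t : ℝ, ‖y + t • eb j‖ ^ 2 = ‖y‖ ^ 2 + 2 * t * y j + t ^ 2 := by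
    intro t
    rw [norm_add_sq_real, inner_smul_right, norm_smul, eb]
    simp [EuclideanSpace.inner_single_right]
    ring
  have h2 : HasDerivAt (fun t : ℝ => -(‖y‖ ^ 2 + 2 * t * y j + t ^ 2) / (4 * a))
      (-(2 * y j) / (4 * a)) 0 := by
    have := ((((hasDerivAt_id (0 : ℝ)).const_mul 2).mul_const (y j)).const_add (‖y‖ ^ 2)).add
      (hasDerivAt_pow 2 (0 : ℝ))
    simpa using this.neg.div_const (4 * a)
  have h3 := h2.exp
  simp only [ea, h1]
  refine h3.congr_deriv ?_
  simp only [mul_zero, zero_mul, add_zero, ne_eq, OfNat.ofNat_ne_zero, not_false_eq_true, zero_pow]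
  field_simp
  ring

theorem line_co (y : Eu m) (j : Fin m) : HasLineDerivAt ℝ (fun y : Eu m => y j) 1 y (eb j) := by
  unfold HasLineDerivAt
  have : (fun t : ℝ => (y + t • eb j) j) = fun t => y j + t := by
    funext t; simp [eb]
  rw [this]
  exact (hasDerivAt_id (0 : ℝ)).const_add _

theorem line_co_ea {a : ℝ} (ha : 0 < a) (y : Eu m) (j : Fin m) :
    HasLineDerivAt ℝ (fun y => y j * ea a y) ((1 - y j ^ 2 / (2 * a)) * ea a y) y (eb j) := by
  have h := HasDerivAt.mul (line_co y j) (line_ea ha y j)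
  simp only [zero_smul, add_zero] at h
  refine HasDerivAt.congr_deriv h ?_
  ring

theorem ibp {F : Type*} [NormedAddCommGroup F] [NormedSpace ℝ F] {a : ℝ} (ha : 0 < a)
    {f f' : Eu m → ℝ} {g g' : Eu m → F} {v : Eu m} (hf : Gd a f) (hf' : Gd a f') (hg : Bc g)
    (hg' : Bc g') (h1 : ∀ y, HasLineDerivAt ℝ f (f' y) y v)
    (h2 : ∀ y, HasLineDerivAt ℝ g (g' y) y v) :
    ∫ y, f y • g' y = -∫ y, f' y • g y :=
  integral_bilinear_hasLineDerivAt_right_eq_neg_left_of_integrable
    (B := ContinuousLinearMap.lsmul ℝ ℝ) (hf'.smul ha hg) (hf.smul ha hg') (hf.smul ha hg)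
    (fun y _ => h1 y) (fun y _ => h2 y)

/-- Gaussian average, not normalised -/
noncomputable def I0 (a : ℝ) (h : Eu m → ℝ) : ℝ := ∫ y, ea a y * h y

/-- second moment -/
noncomputable def I2 (a : ℝ) (h : Eu m → ℝ) : ℝ := ∫ y, ‖y‖ ^ 2 * ea a y * h y

theorem sum_sq (y : Eu m) : ∑ j, y j ^ 2 = ‖y‖ ^ 2 := by
  rw [EuclideanSpace.norm_sq_eq]; simp

theorem radial {a : ℝ} (ha : 0 < a) {h : Eu m → ℝ} {d : Fin m → Eu m → ℝ} (hh : Bc h)
    (hd : ∀ j, Bc (d j)) (hl : ∀ j y, HasLineDerivAt ℝ h (d j y) y (eb j)) :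
    ∫ y, ea a y * ∑ j, y j * d j y = I2 a h / (2 * a) - m * I0 a h := by
  have h1 : ∀ j, ∫ y, (y j * ea a y) * d j y = -∫ y, ((1 - y j ^ 2 / (2 * a)) * ea a y) * h y :=
    fun j => ibp ha (gd_co a j) (gd_co2 a j) hh (hd j) (fun y => line_co_ea ha y j) (hl j)
  have h2 : ∫ y, ea a y * ∑ j, y j * d j y = ∑ j, ∫ y, (y j * ea a y) * d j y := by
    rw [← integral_finset_sum _ fun j _ => (gd_co a j).mul ha (hd j)]
    refine integral_congr_ae (ae_of_all _ fun y => ?_)
    simp only [Finset.mul_sum]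
    exact Finset.sum_congr rfl fun j _ => by ring
  rw [h2]
  simp only [h1]
  rw [Finset.sum_neg_distrib, ← integral_finset_sum _ fun j _ => (gd_co2 a j).mul ha hh, I2, I0,
    ← integral_div, ← integral_const_mul, ← integral_sub
      (((gd_sq a).mul ha hh).div_const _) (((gd_ea a).mul ha hh).const_mul _), ← integral_neg]
  refine integral_congr_ae (ae_of_all _ fun y => ?_)
  simp only [← Finset.sum_mul, Finset.sum_sub_distrib, ← Finset.sum_div, sum_sq, Finset.sum_const,
    Finset.card_univ, Fintype.card_fin, nsmul_eq_mul]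
  ring

theorem moment {a : ℝ} (ha : 0 < a) : ∫ y : Eu m, ‖y‖ ^ 2 * ea a y = 2 * a * m * Z m a := by
  have h := radial (m := m) ha (h := fun _ => 1) (d := fun _ _ => 0) bc_one
    (fun _ => ⟨continuous_const, 0, fun _ => by simp⟩) fun j y => hasDerivAt_const _ _
  simp only [mul_zero, Finset.sum_const_zero, integral_zero, I2, I0, mul_one,
    integral_ea ha] at h
  field_simp at h
  linarith

theorem I0_deriv {a : ℝ} (ha : 0 < a) {h : Eu m → ℝ} (hh : Bc h) :
    HasDerivAt (fun a => I0 a h) (I2 a h / (4 * a ^ 2)) a := by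
  obtain ⟨hc, C, hC⟩ := id hh
  have key := hasDerivAt_integral_of_dominated_loc_of_deriv_le (μ := volume)
    (F := fun b (y : Eu m) => ea b y * h y)
    (F' := fun b y => ‖y‖ ^ 2 / (4 * b ^ 2) * ea b y * h y) (x₀ := a) (s := Ioo (a / 2) (2 * a))
    (bound := fun y => ‖y‖ ^ 2 * ea (2 * a) y / a ^ 2 * C)
    (Ioo_mem_nhds (by linarith) (by linarith))
    (Eventually.of_forall fun b => ((ea_cont b).mul hc).aestronglyMeasurable)
    ((gd_ea a).mul ha hh)
    ((((continuous_norm.pow 2).div_const _).mul (ea_cont a)).mul hc).aestronglyMeasurable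
    (ae_of_all _ fun y b hb => ?_)
    (((integrable_sq_ea (by positivity)).div_const _).mul_const _)
    (ae_of_all _ fun y b hb => ?_)
  · refine key.2.congr_deriv ?_
    rw [I2, ← integral_div]
    exact integral_congr_ae (ae_of_all _ fun y => by ring)
  · have hb0 : 0 < b := by linarith [hb.1]
    rw [norm_mul, Real.norm_of_nonneg (by have := ea_pos b y; positivity)]
    refine mul_le_mul ?_ (hC y) (norm_nonneg _) (by have := ea_pos (2 * a) y; positivity)
    rw [div_mul_eq_mul_div]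
    refine div_le_div₀ (by have := ea_pos (2 * a) y; positivity)
      (mul_le_mul_of_nonneg_left (ea_mono hb0 hb.2.le y) (sq_nonneg _)) (by positivity) ?_
    nlinarith [hb.1]
  · have hb0 : 0 < b := by linarith [hb.1]
    refine HasDerivAt.mul_const ?_ _
    have h1 : HasDerivAt (fun b : ℝ => -‖y‖ ^ 2 / (4 * b)) (‖y‖ ^ 2 / (4 * b ^ 2)) b := by
      have := (hasDerivAt_inv hb0.ne').const_mul (-‖y‖ ^ 2 / 4)
      refine (this.congr_deriv (by field_simp)).congr_of_eventuallyEq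
        (Eventually.of_forall fun c => ?_)
      simp only [div_eq_mul_inv, mul_inv]; ring
    refine h1.exp.congr_deriv ?_
    rw [ea]; ring

end Vale.Agent.P092RK
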