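import Vale.Agent.P092RK.Av

/-!
P092 (helper93), block REL: limits along the path, lower semicontinuity and the module property.
-/

set_option linter.all false

open scoped InnerProductSpace ENNReal NNReal CompactlySupported Pointwise
open MeasureTheory Filter Topology ContinuousLinearMap Set

namespace Vale.Agent.P092RK

open Vale.Agent.P092CP Vale.Agent.P092RD Vale.Agent.P092TH
open Vale.Agent.P092.RC (Cm Moore)

variable {G G' K : Type} [Group G] [TopologicalSpace G] [IsTopologicalGroup G]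
  [LocallyCompactSpace G] [SecondCountableTopology G] [T2Space G] [MeasurableSpace G] [BorelSpace G]
  [Group G'] [TopologicalSpace G'] [IsTopologicalGroup G'] [LocallyCompactSpace G']
  [SecondCountableTopology G'] [T2Space G'] [MeasurableSpace G'] [BorelSpace G']
  [NormedAddCommGroup K] [InnerProductSpace ℂ K] [CompleteSpace K] {μ : Measure G}
  [μ.IsHaarMeasure] {μ' : Measure G'} [μ'.IsHaarMeasure] {W : Set (K →L[ℂ] K)}
  {ι : Type} {U : Ultrafilter ι} {ν : ι → Measure G} [∀ n, IsProbabilityMeasure (ν n)]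

section pl

variable {S : Side μ W} {T T' : ι → G → K →L[ℂ] K} {X X' : K →L[ℂ] K}

/-- `X` is the weak limit of `∫ σ_g (T n g) dν n` -/
structure PL (S : Side μ W) (U : Ultrafilter ι) (ν : ι → Measure G) (T : ι → G → K →L[ℂ] K)
    (X : K →L[ℂ] K) : Prop where
  cm : ∀ n g, Cm W (T n g)
  cont : ∀ n η, Continuous fun g => T n g (S.π g⁻¹ η)
  bdd : ∀ n, ∃ b, 0 ≤ b ∧ ∀ g, ‖T n g‖ ≤ b
  lim : ∀ ξ η, Tendsto (fun n => ∫ g, ⟪S.π g⁻¹ ξ, T n g (S.π g⁻¹ η)⟫_ℂ ∂ν n) U (𝓝 ⟪ξ, X η⟫_ℂ)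

theorem PL.sqi (h : PL S U ν T X) (n : ι) : ∃ b, SqI (ν n) (fun g => T n g * S.π g⁻¹) b :=
  let ⟨b, h0, hb⟩ := h.bdd n
  ⟨_, (sqi1 S (ν n)).mono (fun η => (h.cont n η).aestronglyMeasurable) h0
    fun g η => (T n g).le_of_opNorm_le (hb g) _⟩

theorem PL.sub (h : PL S U ν T X) (h' : PL S U ν T' X') :
    PL S U ν (fun n g => T n g - T' n g) (X - X') where
  cm n g := cm_sub (h.cm n g) (h'.cm n g)
  cont n η := (h.cont n η).sub (h'.cont n η)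
  bdd n := let ⟨b, h0, hb⟩ := h.bdd n; let ⟨b', h0', hb'⟩ := h'.bdd n
    ⟨b + b', add_nonneg h0 h0', fun g => (norm_sub_le _ _).trans (add_le_add (hb g) (hb' g))⟩
  lim ξ η := by
    simp only [sub_apply, inner_sub_right]
    refine ((h.lim ξ η).sub (h'.lim ξ η)).congr fun n => (integral_sub ?_ ?_).symm
    · exact let ⟨_, a⟩ := h.sqi n; (sqi1 S (ν n)).integrable a ξ η
    · exact let ⟨_, a⟩ := h'.sqi n; (sqi1 S (ν n)).integrable a ξ η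

theorem pl_zero : PL S U ν (fun _ _ => 0) 0 :=
  ⟨fun _ _ => cm_zero, fun _ _ => continuous_const, fun _ => ⟨0, le_rfl, fun _ => norm_zero.le⟩,
    fun _ _ => by simp⟩

theorem pl_sum {κ : Type} (s : Finset κ) {T : κ → ι → G → K →L[ℂ] K} {X : κ → K →L[ℂ] K}
    (h : ∀ j, PL S U ν (T j) (X j)) : PL S U ν (fun n g => ∑ j ∈ s, T j n g) (∑ j ∈ s, X j) := by
  classical
  induction s using Finset.induction_on with
  | empty => simpa using pl_zero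
  | insert a s ha ih => simpa [Finset.sum_insert ha] using (h a).sub (pl_zero.sub ih)

theorem pl_of {x : ι → K →L[ℂ] K} (h : IsL S U ν x X) (hx : ∀ n, Cm W (x n)) {A : K →L[ℂ] K}
    (hA : Cm W A) : PL S U ν (fun n g => S.π g⁻¹ * A * S.π g⁻¹⁻¹ * x n) (A * X) where
  cm n g := cm_mul (S.conj _ hA _) (hx n)
  cont n η := by
    have h1 : ∀ g, star (S.π g) * S.π g = 1 := fun g => by rw [S.star_π, pi_inv_mul]
    exact P092SB.cont_app (U := fun g => S.π g⁻¹) (fun g => h1 _) (cont_inv S 1)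
      (A.continuous.comp (P092SB.cont_app (U := fun g => S.π g⁻¹⁻¹) (fun g => h1 _)
        (fun ξ => (cont_inv S 1 ξ).comp continuous_inv) (cont_inv S (x n) η)))
  bdd n := ⟨‖A‖ * ‖x n‖, by positivity, fun g => (norm_mul_le _ _).trans
    (mul_le_mul_of_nonneg_right (S.norm_conj_le _ A) (norm_nonneg _))⟩
  lim ξ η := by
    have := isL_iff.1 h (adjoint A ξ) η
    rw [adjoint_inner_left] at this
    refine this.congr fun n => integral_congr_ae (.of_forall fun g => ?_)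
    simp only [mul_ap, S.inner_π]
    rw [← adjoint_inner_left A, ← S.inner_π g⁻¹ (adjoint A ξ), pi_ap_inv]

/-- **Lower semicontinuity** of the trace along the path -/
theorem PL.tr_le {C : Cpl μ μ' W} (h : PL C.s U ν T X) {c : ℝ≥0∞}
    (hc : ∀ n, ∀ᵐ g ∂ν n, C.t.Tr (T n g) ≤ c) : C.t.Tr X ≤ c := by
  have := C.t.cnt
  choose b hb using h.sqi
  have h1 : ∀ n, Cm W (gram (ν n) (fun g => C.s.π g⁻¹) fun g => T n g * C.s.π g⁻¹) := fun n =>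
    (sqi1 C.s (ν n)).gram_cm (hb n) fun g => by
      have := C.s.conj _ (h.cm n g) g
      rwa [C.s.adj, inv_inv, mul_assoc] at *
  refine C.t.Tr_le_of_weak (l := (U : Filter ι)) (.of_forall h1) (fun ξ η => (h.lim η ξ).congr
    fun n => ((sqi1 C.s (ν n)).inner_gram (hb n) η ξ).symm) (Eventually.frequently
      (.of_forall fun n => ?_))
  have m : ∀ η, Measurable fun g => ‖T n g (C.s.π g⁻¹ η)‖ₑ ^ 2 := fun η =>
    (h.cont n η).enorm.measurable.pow_const 2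
  rw [C.t.Tr_eq_tsum (h1 n)]
  calc _ ≤ μ' C.t.D * ∑' γ, ∫⁻ g, ‖T n g (C.s.π g⁻¹ (C.t.Om γ))‖ₑ ^ 2 ∂ν n := by
        refine mul_le_mul_right (ENNReal.tsum_le_tsum fun γ => ?_) _
        refine le_trans (pow_le_pow_left' ?_ 2) ((hb n).enorm_col _).le
        rw [← ofReal_norm, ← ofReal_norm]
        refine ENNReal.ofReal_le_ofReal (((adjoint (col (ν n) fun g => C.s.π g⁻¹)).le_opNorm
          _).trans ?_)
        rw [LinearIsometryEquiv.norm_map]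
        exact mul_le_of_le_one_left (norm_nonneg _) (sqi1 C.s (ν n)).norm_col
    _ = ∫⁻ g, C.t.Tr (T n g) ∂ν n := by
        rw [← lintegral_tsum fun γ => (m _).aemeasurable,
          ← lintegral_const_mul _ (.ennreal_tsum fun γ => m _)]
        refine lintegral_congr fun g => ?_
        simpa [pi_inv_mul] using (tr_conj C (h.cm n g) cm_one g).symm
    _ ≤ c := (lintegral_mono_ae (hc n)).trans (by simp)

end pl

/-- an abstract module property -/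
theorem isL_mod {H : Type} [NormedAddCommGroup H] [InnerProductSpace ℂ H] {S : Side μ W}
    {T₁ T₀ : K →L[ℂ] H} {R : ι → K →L[ℂ] H} {d : ℝ} (hR : ∀ n, ‖R n‖ ≤ d)
    {a₂ a₁ a₀ A₂ A₁ A₀ X Λ Y : K →L[ℂ] K} {x y : ι → K →L[ℂ] K}
    (e₂ : ∀ ξ η, ⟪T₁ ξ, T₁ η⟫_ℂ = ⟪ξ, a₂ η⟫_ℂ) (e₁ : ∀ ξ η, ⟪T₀ ξ, T₁ η⟫_ℂ = ⟪ξ, a₁ η⟫_ℂ)
    (e₀ : ∀ ξ η, ⟪T₀ ξ, T₀ η⟫_ℂ = ⟪ξ, a₀ η⟫_ℂ) (ex : ∀ n ξ η, ⟪R n ξ, T₁ η⟫_ℂ = ⟪ξ, x n η⟫_ℂ)
    (ey : ∀ n ξ η, ⟪R n ξ, T₀ η⟫_ℂ = ⟪ξ, y n η⟫_ℂ) (h₂ : IsL S U ν (fun _ => a₂) A₂)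
    (h₁ : IsL S U ν (fun _ => a₁) A₁) (h₀ : IsL S U ν (fun _ => a₀) A₀) (hX : IsL S U ν x X)
    (hΛ : IsL S U ν y Λ) (z : ∀ η, (⟪η, A₂ η⟫_ℂ - 2 * ⟪Y η, A₁ η⟫_ℂ + ⟪Y η, A₀ (Y η)⟫_ℂ).re = 0) :
    X = Λ * Y := ext_inner fun ξ η => by
  have l1 := (isL_iff.1 hX ξ η).sub (isL_iff.1 hΛ ξ (Y η))
  have l2 := (Complex.continuous_re.tendsto _).comp (((isL_iff.1 h₂ η η).sub
    ((isL_iff.1 h₁ (Y η) η).const_mul 2)).add (isL_iff.1 h₀ (Y η) (Y η)))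
  rw [z] at l2
  refine sub_eq_zero.1 (norm_le_zero_iff.1 (le_of_forall_pos_le_add fun ε hε => ?_))
  obtain ⟨δ, h1, h2⟩ := exists_pos_mul_lt hε (|d| * ‖ξ‖)
  have l3 := ((l2.const_mul δ⁻¹).const_add δ).const_mul (|d| * ‖ξ‖)
  rw [mul_zero, add_zero] at l3
  refine (le_of_tendsto_of_tendsto' l1.norm l3 fun n => ?_).trans (by rw [zero_add]; exact h2.le)
  have i := fun a ξ η => int_co S (ν n) a ξ η
  have i1 : Integrable (fun g => ⟪S.π g⁻¹ η, a₂ (S.π g⁻¹ η)⟫_ℂ -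
      2 * ⟪S.π g⁻¹ (Y η), a₁ (S.π g⁻¹ η)⟫_ℂ) (ν n) := (i a₂ η η).sub ((i a₁ (Y η) η).const_mul 2)
  have i2 : Integrable (fun g => ⟪S.π g⁻¹ η, a₂ (S.π g⁻¹ η)⟫_ℂ -
      2 * ⟪S.π g⁻¹ (Y η), a₁ (S.π g⁻¹ η)⟫_ℂ + ⟪S.π g⁻¹ (Y η), a₀ (S.π g⁻¹ (Y η))⟫_ℂ) (ν n) :=
    i1.add (i a₀ (Y η) (Y η))
  rw [Function.comp_apply, ← integral_sub (i _ _ _) (i _ _ _), ← integral_const_mul,
    ← integral_sub (i _ _ _) ((i _ _ _).const_mul 2), ← integral_add i1 (i _ _ _),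
    ← RCLike.re_to_complex, ← integral_re i2, ← integral_const_mul]
  refine (norm_integral_le_of_norm_le (((integrable_const δ).add (i2.re.const_mul δ⁻¹)).const_mul
    (|d| * ‖ξ‖)) (.of_forall fun g => ?_)).trans (le_of_eq ?_)
  · have q : RCLike.re (⟪S.π g⁻¹ η, a₂ (S.π g⁻¹ η)⟫_ℂ - 2 * ⟪S.π g⁻¹ (Y η), a₁ (S.π g⁻¹ η)⟫_ℂ +
        ⟪S.π g⁻¹ (Y η), a₀ (S.π g⁻¹ (Y η))⟫_ℂ) = ‖T₁ (S.π g⁻¹ η) - T₀ (S.π g⁻¹ (Y η))‖ ^ 2 := by
      rw [← e₂, ← e₁, ← e₀, @norm_sub_sq ℂ, map_add, map_sub, inner_self_eq_norm_sq,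
        inner_self_eq_norm_sq, inner_re_symm]
      simp
    simp only [Pi.add_apply, Pi.sub_apply]
    rw [q, ← ex, ← ey, ← inner_sub_right]
    refine (norm_inner_le_norm _ _).trans (mul_le_mul (((R n).le_of_opNorm_le
      ((hR n).trans (le_abs_self d)) _).trans_eq (by rw [S.norm_π])) ?_ (norm_nonneg _)
        (by positivity))
    generalize ‖T₁ (S.π g⁻¹ η) - T₀ (S.π g⁻¹ (Y η))‖ = w
    rw [← sub_nonneg, show δ + δ⁻¹ * w ^ 2 - w = δ⁻¹ * ((w - δ / 2) ^ 2 + 3 / 4 * δ ^ 2) by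
      field_simp; ring]
    positivity
  · rw [integral_const_mul, integral_add' (integrable_const δ) (i2.re.const_mul δ⁻¹)]
    simp

end Vale.Agent.P092RK
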