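import Vale.Agent.P092RK.Coc
import Vale.Agent.P092RG.Vol

/-!
P092, rank one, block A (helper93): the contracting measures.
-/

set_option linter.all false

open MeasureTheory Filter Topology Set ProbabilityTheory
open scoped InnerProductSpace

namespace Vale.Agent.P092RK

open Vale.Agent.P092.H793.Re Vale.Agent.P092RG
open Vale.Agent.P092.H933 (URep fixedSub)

theorem int_cond {α F : Type*} [MeasurableSpace α] [NormedAddCommGroup F] [NormedSpace ℝ F]
    (μ : Measure α) (s : Set α) (f : α → F) :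
    ∫ x, f x ∂μ[|s] = (μ.real s)⁻¹ • ∫ x in s, f x ∂μ := by
  rw [ProbabilityTheory.cond, integral_smul_measure, ENNReal.toReal_inv]; rfl

theorem mp_cond {α : Type*} [MeasurableSpace α] {μ : Measure α} {s : Set α} {f : α → α}
    (hf : MeasurePreserving f μ μ) (hs : MeasurableSet s) (e : f ⁻¹' s = s) :
    MeasurePreserving f μ[|s] μ[|s] := by
  have := hf.restrict_preimage hs
  rw [e] at this
  exact this.smul_measure _

theorem int_bdd {α F : Type*} [MeasurableSpace α] [NormedAddCommGroup F] {μ : Measure α}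
    [IsFiniteMeasure μ] {f : α → F} (hf : AEStronglyMeasurable f μ) {C : ℝ} (hC : ∀ x, ‖f x‖ ≤ C) :
    Integrable f μ := (integrable_const C).mono' hf (ae_of_all _ hC)

theorem norm_int_prob {α F : Type*} [MeasurableSpace α] [NormedAddCommGroup F] [NormedSpace ℝ F]
    {μ : Measure α} [IsProbabilityMeasure μ] {f : α → F} {C : ℝ} (hC : ∀ x, ‖f x‖ ≤ C) :
    ‖∫ x, f x ∂μ‖ ≤ C := (norm_integral_le_of_norm_le_const (ae_of_all _ hC)).trans_eq (by simp)

theorem tail_gauE {m : ℕ} {a r : ℝ} (ha : 0 < a) (hr : 0 < r) :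
    (gauE m a).real (Metric.closedBall 0 r)ᶜ ≤ 2 * a * m / r ^ 2 := by
  haveI := gauE_prob (m := m) ha
  rw [le_div_iff₀ (by positivity), ← integral_sq_gauE ha, mul_comm]
  refine le_trans (mul_le_mul_of_nonneg_left (measureReal_mono fun y hy => ?_) (by positivity))
    (mul_meas_ge_le_integral_of_nonneg (ae_of_all _ fun y => sq_nonneg _) (integrable_sq_gauE ha) _)
  rw [mem_compl_iff, mem_closedBall_zero_iff, not_le] at hy
  exact pow_le_pow_left₀ hr.le hy.le 2

variable {n : ℕ} {G : Type} [Group G] [TopologicalSpace G] {ρ : G →* SLn n} {w : Fin n → ℝ}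

/-- balls -/
def bl (h : R1 ρ w) (r : ℝ) : Set G := {g | h.rr g ≤ r}

/-- the element of the torus at the distance of `nz h y` -/
noncomputable def sy (h : R1 ρ w) (y : Eu h.m2) : G := h.a (rad w ‖y‖)

/-- the rate -/
noncomputable def th (h : R1 ρ w) (a : ℝ) : ℝ := Cr h * a ^ (-(((h.m2 : ℝ) - 1) / 2))

theorem th_nonneg (h : R1 ρ w) {a : ℝ} (ha : 0 ≤ a) : 0 ≤ th h a :=
  mul_nonneg (Cr_nonneg h) (Real.rpow_nonneg ha _)

theorem sy_cont (h : R1 ρ w) : Continuous (sy h) :=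
  h.continuous_a.comp (rad_cont.comp continuous_norm)

theorem rr_sy (h : R1 ρ w) (y : Eu h.m2) : h.rr (sy h y) = rad w ‖y‖ := by
  rw [sy, h.rr_a, abs_of_nonneg (rad_nonneg (norm_nonneg _))]

variable [IsTopologicalGroup G] [LocallyCompactSpace G] [SecondCountableTopology G] [T2Space G]
  [MeasurableSpace G] [BorelSpace G] (μ : Measure G) [μ.IsHaarMeasure]

theorem meas_bl (h : R1 ρ w) (r : ℝ) : MeasurableSet (bl h r) := (h.isCompact_ball r).measurableSet

theorem bl_fin (h : R1 ρ w) (r : ℝ) : μ (bl h r) ≠ ⊤ := (h.isCompact_ball r).measure_lt_top.ne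

theorem bl_ne (h : R1 ρ w) {r : ℝ} (hr : 0 < r) : μ (bl h r) ≠ 0 :=
  (((isOpen_lt h.continuous_rr continuous_const).measure_pos μ
    ⟨1, by simpa [h.rr_one] using hr⟩).trans_le (measure_mono (t := bl h r) fun g hg =>
      (le_of_lt hg : h.rr g ≤ r))).ne'

theorem bl_pos (h : R1 ρ w) {r : ℝ} (hr : 0 < r) : 0 < μ.real (bl h r) :=
  ENNReal.toReal_pos (bl_ne μ h hr) (bl_fin μ h r)

theorem nu_prob (h : R1 ρ w) {r : ℝ} (hr : 0 < r) : IsProbabilityMeasure μ[|bl h r] :=
  cond_isProbabilityMeasure_of_finite (bl_ne μ h hr) (bl_fin μ h r)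

theorem nu_left (h : R1 ρ w) (r : ℝ) {κ : G} (hκ : κ ∈ h.K) :
    MeasurePreserving (fun g => κ * g) μ[|bl h r] μ[|bl h r] :=
  mp_cond (measurePreserving_mul_left μ κ) (meas_bl h r) (by ext g; simp [bl, h.rr_K_mul hκ])

theorem nu_right (h : R1 ρ w) (r : ℝ) {κ : G} (hκ : κ ∈ h.K) :
    MeasurePreserving (fun g => g * κ) μ[|bl h r] μ[|bl h r] :=
  haveI := h.haar_right μ
  mp_cond (measurePreserving_mul_right μ κ) (meas_bl h r) (by ext g; simp [bl, h.rr_mul_K _ hκ])

variable {𝓗 : Type*} [NormedAddCommGroup 𝓗] [InnerProductSpace ℂ 𝓗] [CompleteSpace 𝓗]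
  {σ : G →* (𝓗 →L[ℂ] 𝓗)}

theorem ur_cont (hσ : URep σ) : Continuous fun q : G × 𝓗 => σ q.1 q.2 :=
  continuous_iff_continuousAt.2 fun q => hσ.tendsto continuousAt_fst continuousAt_snd

theorem ur_int (hσ : URep σ) {P : Type*} [MeasurableSpace P] {p : Measure P} [IsFiniteMeasure p]
    {γ : P → G} (hγ : Measurable γ) (v : 𝓗) : Integrable (fun q => σ (γ q) v) p :=
  int_bdd ((ur_cont hσ).comp_aestronglyMeasurable
    (hγ.aestronglyMeasurable.prodMk aestronglyMeasurable_const)) fun q => (hσ.iso _ _).le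

theorem gap1 (h : R1 ρ w) (hm : 2 ≤ h.m2) (hσ : URep σ) {v : 𝓗} (hv : ∀ κ ∈ h.K, σ κ v = v)
    {a r : ℝ} (ha : 1 ≤ a) (hr : 0 < r) :
    ‖∫ x, σ x (∫ y, σ (sy h y) v ∂gauE h.m2 a) ∂μ[|bl h r] - (fixedSub σ).starProjection v‖ ≤
      th h a * ‖v‖ := by
  have ha0 : 0 < a := by linarith
  haveI := gauE_prob (m := h.m2) ha0
  haveI := nu_prob μ h hr
  set Pv := (fixedSub σ).starProjection v with hP
  have hf : ∀ g, σ g Pv = Pv := (fixedSub σ).starProjection_apply_mem v
  set ζ := ∫ y, σ (sy h y) v ∂gauE h.m2 a with hζ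
  set ξ := ∫ x, σ x ζ ∂μ[|bl h r] - Pv with hξ
  set u := ∫ x, σ x⁻¹ ξ ∂μ[|bl h r] with hu
  have i1 := ur_int hσ (p := μ[|bl h r]) measurable_inv ξ
  have h1 : ∀ κ ∈ h.K, σ κ u = u := by
    intro κ hκ
    rw [hu, ← (σ κ).integral_comp_comm i1, ← (nu_right μ h r hκ).integral_comp
      (Homeomorph.mulRight κ).measurableEmbedding]
    simp only [← URep.mul_apply, _root_.mul_inv_rev, inv_mul_cancel_left, mul_inv_cancel_left]
  have h2 : ⟪ξ, ξ⟫_ℂ = ⟪ζ - Pv, u⟫_ℂ := by
    have e : ξ = ∫ x, σ x (ζ - Pv) ∂μ[|bl h r] := by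
      simp only [map_sub, hf]
      rw [integral_sub (ur_int hσ measurable_id' ζ) (integrable_const _)]
      simp [hξ]
    rw [hu, ← integral_inner i1, ← inner_conj_symm]
    nth_rewrite 2 [e]
    rw [← integral_inner (ur_int hσ measurable_id' _), ← integral_conj]
    simp only [inner_conj_symm, hσ.inner_left]
  have h3 : ⟪ζ, u⟫_ℂ = ⟪∫ y, σ (nz h y) v ∂gauE h.m2 a, u⟫_ℂ := by
    rw [← inner_conj_symm ζ u, ← inner_conj_symm _ u]
    clear_value u
    rw [hζ, ← integral_inner (ur_int hσ (sy_cont h).measurable v),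
      ← integral_inner (ur_int hσ (nz_cont h).measurable v)]
    congr 2
    ext y
    obtain ⟨κ, hκ, κ', hκ', e⟩ := nz_kak h y
    rw [e, URep.mul_apply, URep.mul_apply, hv κ' hκ', hσ.inner_right κ, h1 _ (h.K.inv_mem hκ), sy]
  have h4 := rate_op h hm hσ hv h1 ha
  rw [inner_sub_left, ← h3, ← inner_sub_left, ← h2, inner_self_eq_norm_sq_to_K, norm_pow,
    RCLike.norm_ofReal, abs_norm] at h4
  have h5 : ‖u‖ ≤ ‖ξ‖ := norm_int_prob fun x => (hσ.iso _ _).le
  have h6 := th_nonneg h ha0.le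
  rcases (norm_nonneg ξ).eq_or_lt with h0 | h0
  · rw [← h0]; positivity
  · refine le_of_mul_le_mul_right ?_ h0
    rw [← sq, mul_assoc]
    exact h4.trans (mul_le_mul_of_nonneg_left (mul_le_mul_of_nonneg_left h5 (norm_nonneg _)) h6)

theorem int_iter (hσ : URep σ) {P Q : Type*} [MeasurableSpace P] [MeasurableSpace Q]
    {p : Measure P} {q : Measure Q} [IsFiniteMeasure p] [IsFiniteMeasure q] {γ : P → G}
    {γ' : Q → G} (hγ : Measurable γ) (hγ' : Measurable γ') (v : 𝓗) :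
    ∫ z, σ (γ z.1 * γ' z.2) v ∂p.prod q = ∫ x, σ (γ x) (∫ y, σ (γ' y) v ∂q) ∂p := by
  rw [integral_prod _ (ur_int hσ (γ := fun z : P × Q => γ z.1 * γ' z.2) (by fun_prop) v)]
  simp only [URep.mul_apply, (σ _).integral_comp_comm (ur_int hσ hγ' v)]

theorem gap2 (h : R1 ρ w) (hm : 2 ≤ h.m2) (hσ : URep σ) (v : 𝓗) {a r : ℝ} (ha : 1 ≤ a)
    (hr : 0 < r) : ‖∫ z, σ (z.1 * (sy h z.2.1 * z.2.2)) v
      ∂μ[|bl h r].prod ((gauE h.m2 a).prod h.νK) - (fixedSub σ).starProjection v‖ ≤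
      th h a * ‖v‖ := by
  haveI := gauE_prob (m := h.m2) (by linarith : 0 < a)
  haveI := nu_prob μ h hr
  have i1 := ur_int hσ (p := h.νK) measurable_id' v
  have hs := (sy_cont h).measurable
  rw [int_iter hσ measurable_id' (γ' := fun z : Eu h.m2 × G => sy h z.1 * z.2) (by fun_prop),
    int_iter hσ hs measurable_id']
  have h1 := gap1 μ h hm hσ (v := ∫ k, σ k v ∂h.νK) (fun κ hκ => by
    rw [← (σ κ).integral_comp_comm i1, ← (h.hpK.mp_left hκ).integral_comp
      (Homeomorph.mulLeft κ).measurableEmbedding (fun k => σ k v)]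
    simp only [URep.mul_apply]) ha hr
  have h2 : (fixedSub σ).starProjection (∫ k, σ k v ∂h.νK) = (fixedSub σ).starProjection v := by
    rw [← (fixedSub σ).starProjection.integral_comp_comm i1]
    have : ∀ k, (fixedSub σ).starProjection (σ k v) = (fixedSub σ).starProjection v := by
      intro k
      rw [← sub_eq_zero, ← map_sub]
      refine (Submodule.starProjection_apply_eq_zero_iff _).2 fun u hu => ?_
      rw [inner_sub_right, hσ.inner_right, hu, sub_self]
    simp [this]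
  rw [h2] at h1
  exact h1.trans (mul_le_mul_of_nonneg_left (norm_int_prob fun k => (hσ.iso _ _).le)
    (th_nonneg h (by linarith)))

/-- the contracting measure -/
noncomputable def mm (h : R1 ρ w) (a r : ℝ) : Measure G :=
  Measure.map (fun q : G × Eu h.m2 => q.1 * sy h q.2)
    (μ[|bl h 1].prod (gauE h.m2 a)[|Metric.closedBall 0 r])

theorem meas_mm (h : R1 ρ w) : Measurable fun q : G × Eu h.m2 => q.1 * sy h q.2 :=
  measurable_fst.mul ((sy_cont h).measurable.comp measurable_snd)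

theorem half_le {m : ℕ} {a r ε : ℝ} (ha : 0 < a) (hr : 0 < r) (hε : 2 * a * m / r ^ 2 ≤ ε)
    (h2 : ε ≤ 1 / 2) : (gauE m a).real (Metric.closedBall 0 r)ᶜ ≤ ε ∧
      1 / 2 ≤ (gauE m a).real (Metric.closedBall 0 r) ∧
      IsProbabilityMeasure (gauE m a)[|Metric.closedBall 0 r] := by
  haveI := gauE_prob (m := m) ha
  have h1 := (tail_gauE ha hr).trans hε
  have h3 := probReal_add_probReal_compl (μ := gauE m a)
    (Metric.isClosed_closedBall (x := (0 : Eu m)) (ε := r)).measurableSet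
  refine ⟨h1, by linarith, cond_isProbabilityMeasure fun h0 => ?_⟩
  rw [Measure.real, h0, ENNReal.toReal_zero] at h3
  linarith

theorem gap3 (h : R1 ρ w) (hm : 2 ≤ h.m2) (hσ : URep σ) {v : 𝓗} (hv : ∀ κ ∈ h.K, σ κ v = v)
    (h0 : (fixedSub σ).starProjection v = 0) {a r ε : ℝ} (ha : 1 ≤ a) (hr : 0 < r)
    (hε : 2 * a * h.m2 / r ^ 2 ≤ ε) (h2 : ε ≤ 1 / 2) :
    ‖∫ g, σ g v ∂mm μ h a r‖ ≤ 2 * (th h a + ε) * ‖v‖ := by
  have ha0 : 0 < a := by linarith
  haveI := gauE_prob (m := h.m2) ha0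
  haveI := nu_prob μ h one_pos
  obtain ⟨b1, b2, b3⟩ := half_le ha0 hr hε h2
  have hs := (sy_cont h).measurable
  have h1 := gap1 μ h hm hσ hv ha one_pos
  have hT := (Metric.isClosed_closedBall (x := (0 : Eu h.m2)) (ε := r)).measurableSet
  rw [mm, integral_map (meas_mm h).aemeasurable (f := fun g => σ g v)
    ((ur_cont hσ).comp (continuous_id.prodMk continuous_const)).aestronglyMeasurable]
  rw [h0, sub_zero, ← integral_add_compl hT (ur_int hσ hs v)] at h1
  simp only [map_add] at h1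
  rw [integral_add (ur_int hσ measurable_id' _) (ur_int hσ measurable_id' _)] at h1
  rw [int_iter hσ measurable_id' hs, int_cond (gauE _ _)]
  simp only [ContinuousLinearMap.map_smul_of_tower]
  rw [integral_smul, norm_smul, norm_inv, Real.norm_of_nonneg measureReal_nonneg, mul_assoc]
  have h3 : ‖∫ x, σ x (∫ y in (Metric.closedBall 0 r)ᶜ, σ (sy h y) v ∂gauE h.m2 a) ∂μ[|bl h 1]‖ ≤
      ε * ‖v‖ := norm_int_prob fun x => by
    rw [hσ.iso]
    refine (norm_integral_le_of_norm_le_const (ae_of_all _ fun y => (hσ.iso _ _).le)).trans ?_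
    rw [measureReal_restrict_apply_univ, mul_comm]
    exact mul_le_mul_of_nonneg_right b1 (norm_nonneg _)
  refine mul_le_mul (inv_le_of_inv_le₀ two_pos (by linarith)) ?_ (norm_nonneg _) zero_le_two
  refine le_trans ?_ ((add_le_add h1 h3).trans_eq (add_mul _ _ _).symm)
  exact (le_of_eq (by rw [add_sub_cancel_right])).trans (norm_sub_le _ _)

theorem mm_facts (h : R1 ρ w) {a r : ℝ} (hr : 0 < r)
    [IsProbabilityMeasure (gauE h.m2 a)[|Metric.closedBall 0 r]] :
    IsProbabilityMeasure (mm μ h a r) ∧ (∀ᵐ g ∂mm μ h a r, h.rr g ≤ 1 + √(cc w) * r) ∧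
      ∀ κ ∈ h.K, (mm μ h a r).map (fun g => κ * g) = mm μ h a r := by
  haveI := nu_prob μ h one_pos
  refine ⟨Measure.isProbabilityMeasure_map (meas_mm h).aemeasurable, ?_, fun κ hκ => ?_⟩
  · refine (ae_map_iff (meas_mm h).aemeasurable (meas_bl h _)).2 ?_
    filter_upwards [Measure.quasiMeasurePreserving_fst.ae (ae_cond_mem (meas_bl h 1)),
      Measure.quasiMeasurePreserving_snd.ae (ae_cond_mem
        (Metric.isClosed_closedBall (x := (0 : Eu h.m2)) (ε := r)).measurableSet)] with q h1 h2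
    refine (h.rr_mul_le _ _).trans (add_le_add h1 ?_)
    have h3 := exp_rad_le (w := w) (norm_nonneg q.2)
    have h4 := mul_le_mul_of_nonneg_left (mem_closedBall_zero_iff.1 h2) (Real.sqrt_nonneg (cc w))
    rw [rr_sy]
    linarith [Real.add_one_le_exp (rad w ‖q.2‖)]
  · conv_rhs => rw [mm, ← ((nu_left μ h 1 hκ).prod (MeasurePreserving.id _)).map_eq]
    rw [mm, Measure.map_map (measurable_const_mul κ) (meas_mm h), Measure.map_map (meas_mm h)
      ((measurable_const_mul κ).prodMap measurable_id)]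
    congr 1
    ext q
    simp [mul_assoc]

end Vale.Agent.P092RK
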