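import Vale.Agent.P092RK.Lie
import Vale.Agent.P092RG.Par
import Vale.Agent.P092.H19.Re.Hm
import Vale.Agent.P092.H155.ReD

/-!
P092, rank one, block K (helper93): the spherical decay rate for unitary representations.
-/

set_option linter.all false

open Matrix MeasureTheory Filter Topology Set
open scoped InnerProductSpace

namespace Vale.Agent.P092RK

open Vale.Agent.P092.H793.Re Vale.Agent.P092RG
open Vale.Agent.P092.H933 (URep fixedSub)
open Vale.Agent.P092.H15 (HMG)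

section gauss

variable {m : ℕ}

/-- the Gaussian measure of variance `2 a` -/
noncomputable def gauE (m : ℕ) (a : ℝ) : Measure (Eu m) :=
  volume.withDensity fun y => ENNReal.ofReal (ea a y / Z m a)

theorem integral_gauE {F : Type*} [NormedAddCommGroup F] [NormedSpace ℝ F] {a : ℝ} (ha : 0 < a)
    (f : Eu m → F) : ∫ y, f y ∂gauE m a = ∫ y, (ea a y / Z m a) • f y := by
  rw [gauE, integral_withDensity_eq_integral_toReal_smul
    ((ea_cont a).div_const _).measurable.ennreal_ofReal (ae_of_all _ fun _ => ENNReal.ofReal_lt_top)]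
  refine integral_congr_ae (ae_of_all _ fun y => ?_)
  simp only
  rw [ENNReal.toReal_ofReal (div_pos (ea_pos a y) (Z_pos ha)).le]

theorem gauE_prob {a : ℝ} (ha : 0 < a) : IsProbabilityMeasure (gauE m a) := by
  constructor
  rw [gauE, withDensity_apply _ MeasurableSet.univ, Measure.restrict_univ,
    ← ofReal_integral_eq_lintegral_ofReal ((integrable_ea ha).div_const _)
      (ae_of_all _ fun y => (div_pos (ea_pos a y) (Z_pos ha)).le), integral_div, integral_ea ha,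
    div_self (Z_pos ha).ne', ENNReal.ofReal_one]

theorem Ga_eq {a : ℝ} (ha : 0 < a) (h : Eu m → ℝ) : Ga a h = ∫ y, h y ∂gauE m a := by
  rw [integral_gauE ha, Ga, I0, ← integral_div]
  exact integral_congr_ae (ae_of_all _ fun y => by simp only [smul_eq_mul]; ring)

theorem Bc.int {F : Type*} [NormedAddCommGroup F] {a : ℝ} (ha : 0 < a) {g : Eu m → F}
    (hg : Bc g) : Integrable g (gauE m a) := by
  haveI := gauE_prob (m := m) ha
  obtain ⟨hc, C, hC⟩ := hg
  exact (integrable_const C).mono' hc.aestronglyMeasurable (ae_of_all _ hC)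

theorem Ga_lim (hm : 0 < m) {h : Eu m → ℝ} (hh : Bc h) {L : ℝ}
    (hL : Tendsto h (cocompact _) (𝓝 L)) : Tendsto (fun b => Ga b h) atTop (𝓝 L) := by
  obtain ⟨hc, C, hC⟩ := id hh
  rw [Metric.tendsto_nhds] at hL ⊢
  intro ε hε
  obtain ⟨K, hK, hKε⟩ := mem_cocompact.1 (hL _ (half_pos hε))
  have hZ : Tendsto (Z m) atTop atTop := by
    have := Real.pi_pos
    exact (tendsto_rpow_atTop (by positivity)).comp (tendsto_id.const_mul_atTop (by positivity))
  have h1 := (tendsto_const_nhds (x := (C + ‖L‖) * volume.real K)).div_atTop hZ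
  filter_upwards [eventually_gt_atTop 0, h1.eventually (gt_mem_nhds (half_pos hε))] with b hb hb2
  have hz := Z_pos (m := m) hb
  have e : Ga b h - L = (∫ y, ea b y * (h y - L)) / Z m b := by
    simp only [mul_sub]
    rw [integral_sub ((gd_ea b).mul hb hh) ((integrable_ea hb).mul_const _), integral_mul_const,
      integral_ea hb, Ga, I0]
    field_simp
  have hi : Integrable (K.indicator fun _ => C + ‖L‖) :=
    (integrable_indicator_iff hK.measurableSet).2 (integrableOn_const hK.measure_lt_top.ne)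
  have h2 : ‖∫ y, ea b y * (h y - L)‖ ≤ ε / 2 * Z m b + (C + ‖L‖) * volume.real K := by
    refine (norm_integral_le_of_norm_le (((integrable_ea hb).const_mul (ε / 2)).add hi)
      (ae_of_all _ fun y => ?_)).trans_eq ?_
    · have h3 := ea_pos b y
      rw [norm_mul, Real.norm_of_nonneg h3.le, Pi.add_apply]
      by_cases hy : y ∈ K
      · have h4 : ea b y ≤ 1 := Real.exp_le_one_iff.2
          (div_nonpos_of_nonpos_of_nonneg (neg_nonpos.2 (sq_nonneg _)) (by positivity))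
        have h5 : ‖h y - L‖ ≤ C + ‖L‖ := (norm_sub_le _ _).trans (add_le_add (hC y) le_rfl)
        rw [indicator_of_mem hy]
        nlinarith [norm_nonneg (h y - L)]
      · have h5 : dist (h y) L < ε / 2 := hKε hy
        rw [dist_eq_norm] at h5
        rw [indicator_of_notMem hy]
        nlinarith
    · simp only [Pi.add_apply]
      rw [integral_add ((integrable_ea hb).const_mul _) hi, integral_const_mul, integral_ea hb,
        integral_indicator_const _ hK.measurableSet, smul_eq_mul, mul_comm (volume.real K)]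
  rw [dist_eq_norm, e, norm_div, Real.norm_of_nonneg hz.le]
  refine (div_le_div_of_nonneg_right h2 hz.le).trans_lt ?_
  rw [add_div, mul_div_cancel_right₀ _ hz.ne']
  linarith

theorem ZR.cs {H : Type*} [NormedAddCommGroup H] [InnerProductSpace ℝ H] [CompleteSpace H]
    {T : Eu m → H →L[ℝ] H} (h : ZR T) {a : ℝ} (ha : 0 < a) (ξ η : H) :
    Ga a (fun y => ⟪T y ξ, η⟫_ℝ) ^ 2 ≤ Ga a (hf T ξ) * Ga a (hf T η) := by
  have hb := half_pos ha
  have e : 2 * (a / 2) = a := by ring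
  have h1 : ⟪Pv T (ea (a / 2)) ξ, Pv T (ea (a / 2)) η⟫_ℝ =
      Z m (a / 2 / 2) * I0 a fun y => ⟪T y ξ, η⟫_ℝ := by
    rw [h.inner_Pv hb (gd_ea _) (gd_ea _)]
    simp only [h.sub]
    rw [conv (integrable_ea hb) (integrable_ea hb) (h.bc2 ξ η), I0, ← integral_const_mul]
    refine integral_congr_ae (ae_of_all _ fun z => ?_)
    simp only [ea_mid hb]
    rw [integral_mul_const, integral_ea (by positivity), e]
    ring
  have h2 := pow_le_pow_left₀ (abs_nonneg _)
    (abs_real_inner_le_norm (Pv T (ea (a / 2)) ξ) (Pv T (ea (a / 2)) η)) 2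
  rw [sq_abs, mul_pow, h1, h.norm_A hb, h.norm_A hb, e, mul_pow, mul_mul_mul_comm, ← sq] at h2
  have h3 := le_of_mul_le_mul_left h2 (pow_pos (Z_pos (half_pos hb)) 2)
  rw [Ga, Ga, Ga, div_pow, div_mul_div_comm, ← sq]
  exact div_le_div_of_nonneg_right h3 (sq_nonneg _)

end gauss

variable {n : ℕ} {G : Type} [Group G] [TopologicalSpace G] {ρ : G →* SLn n} {w : Fin n → ℝ}

theorem hmg_rs (hρ : RS ρ) : HMG G := by
  obtain ⟨ρ', h, hρ', hD⟩ := Vale.Agent.P092.H155.Re.exDg ρ hρ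
  obtain ⟨r, p, q, w, E, hS⟩ := exSr ρ' h hρ' hD
  exact Vale.Agent.P092.H19.Re.hmg hρ' hD hS (fun φ X hX => had hρ' hD.lie φ hX) (gen hρ')
    (Vale.Agent.P092.H35.RePol.car ρ' h p q w E hρ' hD hS)

theorem nZ_nz (h : R1 ρ w) (y : Eu h.m2) : h.nZ (nz h y) = emb h y := by
  have := h.nZ_nn (h.g 1).zero_mem (emb_mem h y)
  rwa [zero_add] at this

theorem nz_cocompact (h : R1 ρ w) : Tendsto (nz h) (cocompact _) (cocompact G) := by
  refine hasBasis_cocompact.tendsto_right_iff.2 fun C hC => ?_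
  obtain ⟨M, hM⟩ := hC.exists_bound_of_continuousOn
    (continuous_ip h.continuous_nZ h.continuous_nZ).continuousOn
  refine mem_cocompact.2 ⟨Metric.closedBall 0 (M + 1), isCompact_closedBall _ _, fun y hy hC => ?_⟩
  have h1 := (le_abs_self _).trans (hM _ hC)
  rw [nZ_nz, ip_emb_self] at h1
  refine hy (mem_closedBall_zero_iff.2 ?_)
  nlinarith [sq_nonneg (‖y‖ - 1)]

variable {𝓗 : Type*} [NormedAddCommGroup 𝓗] [InnerProductSpace ℂ 𝓗] [CompleteSpace 𝓗]
  {σ : G →* (𝓗 →L[ℂ] 𝓗)}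

theorem exists_rr (he : IsClosedEmbedding ρ) (hσ : URep σ) :
    letI := InnerProductSpace.rclikeToReal ℂ 𝓗
    ∃ π : G → 𝓗 →L[ℝ] 𝓗, RR π ∧ ∀ g ξ, π g ξ = σ g ξ := by
  letI := InnerProductSpace.rclikeToReal ℂ 𝓗
  haveI := topGroup he
  refine ⟨fun g => ⟨⟨⟨σ g, map_add _⟩, fun r x => (σ g).map_smul (r : ℂ) x⟩, (σ g).cont⟩,
    ⟨fun g g' ξ => URep.mul_apply g g' ξ, fun ξ => URep.one_apply ξ,
      fun g ξ η => congrArg Complex.re (hσ.inner_map g ξ η), fun ξ => ?_⟩, fun _ _ => rfl⟩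
  exact continuous_iff_continuousAt.2 fun g => hσ.tendsto tendsto_id tendsto_const_nhds

/-- the Gaussian average of a matrix coefficient -/
noncomputable def GG (h : R1 ρ w) (σ : G →* (𝓗 →L[ℂ] 𝓗)) (a : ℝ) (v u : 𝓗) : ℝ :=
  ∫ y, (⟪σ (nz h y) v, u⟫_ℂ).re ∂gauE h.m2 a

theorem bc_nz (h : R1 ρ w) (hσ : URep σ) (v : 𝓗) : Bc fun y => σ (nz h y) v := by
  haveI := topGroup h.rs.emb
  exact ⟨continuous_iff_continuousAt.2 fun y =>
    hσ.tendsto (nz_cont h).continuousAt tendsto_const_nhds, ‖v‖, fun y => (hσ.iso _ _).le⟩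

theorem bc_nz2 (h : R1 ρ w) (hσ : URep σ) (v u : 𝓗) : Bc fun y => ⟪σ (nz h y) v, u⟫_ℂ :=
  ⟨(bc_nz h hσ v).1.inner continuous_const, ‖v‖ * ‖u‖, fun y => by
    refine (norm_inner_le_norm _ _).trans ?_; rw [hσ.iso]⟩

theorem GG_facts (h : R1 ρ w) (hσ : URep σ) {a : ℝ} (ha : 0 < a) (v u : 𝓗) :
    0 ≤ GG h σ a v v ∧ GG h σ a v v ≤ ‖v‖ ^ 2 ∧ GG h σ a v u ^ 2 ≤ GG h σ a v v * GG h σ a u u ∧
      ∀ b, a ≤ b → GG h σ b v v ≤ GG h σ a v v := by
  letI := InnerProductSpace.rclikeToReal ℂ 𝓗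
  obtain ⟨π, hπ, e⟩ := exists_rr h.rs.emb hσ
  have hz := hπ.zr h
  have e1 : ∀ {a : ℝ}, 0 < a → ∀ v u, GG h σ a v u = Ga a fun y => ⟪π (nz h y) v, u⟫_ℝ :=
    fun ha v u => by rw [Ga_eq ha, GG]; simp only [e]; rfl
  simp only [e1 ha]
  exact ⟨hz.Ga_nonneg v ha, hz.Ga_le v ha, hz.cs ha v u, fun b hb => by
    rw [e1 (ha.trans_le hb)]; exact hz.Ga_anti v ha hb⟩

/-- **the decay rate**, difference form -/
theorem rate (h : R1 ρ w) (hm : 2 ≤ h.m2) (hσ : URep σ) {v : 𝓗} (hk : ∀ κ ∈ h.K, σ κ v = v)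
    {a b : ℝ} (ha : 1 ≤ a) (hab : a ≤ b) :
    GG h σ a v v - GG h σ b v v ≤
      Cr h * a ^ (-(((h.m2 : ℝ) - 1) / 2)) * (‖v‖ ^ 2 - GG h σ 1 v v) := by
  letI := InnerProductSpace.rclikeToReal ℂ 𝓗
  obtain ⟨π, hπ, e⟩ := exists_rr h.rs.emb hσ
  have e1 : ∀ {a : ℝ}, 0 < a → GG h σ a v v = Ga a (hf (fun y => π (nz h y)) v) :=
    fun ha => by rw [Ga_eq ha, GG]; simp only [hf, e]; rfl
  rw [e1 (by linarith), e1 (by linarith), e1 one_pos]
  exact hπ.rate h hm (fun κ hκ => (e κ v).trans (hk κ hκ)) ha hab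

theorem GG_lim (h : R1 ρ w) (hm : 0 < h.m2) (hσ : URep σ) (v u : 𝓗) :
    Tendsto (fun b => GG h σ b v u) atTop
      (𝓝 (⟪(fixedSub σ).starProjection v, u⟫_ℂ).re) := by
  haveI := topGroup h.rs.emb
  have h1 := (Complex.continuous_re.tendsto _).comp ((hmg_rs h.rs).tendsto_proj hσ
    (nz_cocompact h) (tendsto_const_nhds (x := v)) (tendsto_const_nhds (x := u)))
  obtain ⟨hc, C, hC⟩ := bc_nz2 h hσ v u
  refine (Ga_lim hm ⟨Complex.continuous_re.comp hc, C, fun y =>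
    (Complex.abs_re_le_norm _).trans (hC y)⟩ h1).congr' ?_
  filter_upwards [eventually_gt_atTop 0] with b hb
  rw [Ga_eq hb]; rfl

/-- **the decay rate** for vectors orthogonal to the invariant vectors -/
theorem rate0 (h : R1 ρ w) (hm : 2 ≤ h.m2) (hσ : URep σ) {v : 𝓗} (hk : ∀ κ ∈ h.K, σ κ v = v)
    (h0 : (fixedSub σ).starProjection v = 0) {a : ℝ} (ha : 1 ≤ a) :
    GG h σ a v v ≤ Cr h * a ^ (-(((h.m2 : ℝ) - 1) / 2)) * (‖v‖ ^ 2 - GG h σ 1 v v) := by
  have h1 := (tendsto_const_nhds (x := GG h σ a v v)).sub (GG_lim h (by omega) hσ v v)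
  rw [h0, inner_zero_left, Complex.zero_re, sub_zero] at h1
  exact le_of_tendsto h1 ((eventually_ge_atTop a).mono fun b hb => rate h hm hσ hk ha hb)

/-- **the decay rate**, operator form -/
theorem rate_op (h : R1 ρ w) (hm : 2 ≤ h.m2) (hσ : URep σ) {v u : 𝓗}
    (hv : ∀ κ ∈ h.K, σ κ v = v) (hu : ∀ κ ∈ h.K, σ κ u = u) {a : ℝ} (ha : 1 ≤ a) :
    ‖⟪(∫ y, σ (nz h y) v ∂gauE h.m2 a) - (fixedSub σ).starProjection v, u⟫_ℂ‖ ≤
      Cr h * a ^ (-(((h.m2 : ℝ) - 1) / 2)) * (‖v‖ * ‖u‖) := by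
  have ha0 : 0 < a := by linarith
  haveI := gauE_prob (m := h.m2) ha0
  set P := (fixedSub σ).starProjection with hP
  set θ := Cr h * a ^ (-(((h.m2 : ℝ) - 1) / 2)) with hθ
  have hθ0 : 0 ≤ θ := mul_nonneg (Cr_nonneg h) (Real.rpow_nonneg ha0.le _)
  have hf : ∀ v g, σ g (P v) = P v := fun v => (fixedSub σ).starProjection_apply_mem v
  have key : ∀ v, (∀ κ ∈ h.K, σ κ v = v) → GG h σ a (v - P v) (v - P v) ≤ θ * ‖v‖ ^ 2 := by
    intro v hv
    refine (rate0 h hm hσ (fun κ hκ => by rw [map_sub, hv κ hκ, hf]) (by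
      rw [map_sub, hP, Submodule.starProjection_eq_self_iff.2
        ((fixedSub σ).starProjection_apply_mem v), sub_self]) ha).trans
      (mul_le_mul_of_nonneg_left ?_ hθ0)
    have h1 := (GG_facts h hσ one_pos (v - P v) 0).1
    have h2 : ‖v - P v‖ ≤ ‖v‖ := by
      rw [hP, ← Submodule.starProjection_orthogonal_val]
      exact Submodule.norm_starProjection_apply_le _ v
    nlinarith [norm_nonneg (v - P v)]
  have key2 : ∀ u, (∀ κ ∈ h.K, σ κ u = u) →
      (⟪(∫ y, σ (nz h y) v ∂gauE h.m2 a) - P v, u⟫_ℂ).re ≤ θ * (‖v‖ * ‖u‖) := by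
    intro u hu
    have e : ⟪(∫ y, σ (nz h y) v ∂gauE h.m2 a) - P v, u⟫_ℂ =
        ∫ y, ⟪σ (nz h y) (v - P v), u - P u⟫_ℂ ∂gauE h.m2 a := by
      have e1 : (∫ y, σ (nz h y) v ∂gauE h.m2 a) - P v =
          ∫ y, σ (nz h y) (v - P v) ∂gauE h.m2 a := by
        simp only [map_sub, hf]
        rw [integral_sub ((bc_nz h hσ v).int ha0) (integrable_const _)]
        simp
      rw [e1, ← inner_conj_symm, ← integral_inner ((bc_nz h hσ _).int ha0), ← integral_conj]
      refine integral_congr_ae (ae_of_all _ fun y => ?_)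
      simp only [inner_conj_symm, inner_sub_right]
      rw [hσ.inner_left _ _ (P u), hf, (fixedSub σ).inner_left_of_mem_orthogonal
        ((fixedSub σ).starProjection_apply_mem u) ((fixedSub σ).sub_starProjection_mem_orthogonal v),
        sub_zero]
    have e2 : (⟪(∫ y, σ (nz h y) v ∂gauE h.m2 a) - P v, u⟫_ℂ).re =
        GG h σ a (v - P v) (u - P u) := by
      rw [e, GG]
      exact (integral_re ((bc_nz2 h hσ _ _).int ha0)).symm
    rw [e2]
    refine (le_abs_self _).trans (abs_le_of_sq_le_sq' ?_ (by positivity)).2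
    rw [sq_abs]
    refine (GG_facts h hσ ha0 _ _).2.2.1.trans ((mul_le_mul (key v hv) (key u hu)
      (GG_facts h hσ ha0 _ 0).1 (by positivity)).trans_eq (by ring))
  set I := ⟪(∫ y, σ (nz h y) v ∂gauE h.m2 a) - P v, u⟫_ℂ with hI
  obtain ⟨z, hz, hzI⟩ := Complex.exists_norm_eq_mul_self I
  have h3 := key2 (z • u) fun κ hκ => by rw [map_smul, hu κ hκ]
  rw [inner_smul_right, ← hI, ← hzI, norm_smul, hz, one_mul, Complex.ofReal_re] at h3
  exact h3

end Vale.Agent.P092RK
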