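import Vale.Agent.P092RK.Lim

/-!
P092 (helper93), block REL: the relation up to an error in the Hilbert-Schmidt norm.
-/

set_option linter.all false

open scoped InnerProductSpace ENNReal NNReal CompactlySupported Pointwise
open MeasureTheory Filter Topology ContinuousLinearMap Set

namespace Vale.Agent.P092RK

open Vale.Agent.P092CP Vale.Agent.P092RD Vale.Agent.P092TH
open Vale.Agent.P092.RC (Cm Moore)

variable {G G' K : Type} [Group G] [TopologicalSpace G] [IsTopologicalGroup G]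
  [LocallyCompactSpace G] [SecondCountableTopology G] [T2Space G] [MeasurableSpace G] [BorelSpace G]
  [Group G'] [TopologicalSpace G'] [IsTopologicalGroup G'] [LocallyCompactSpace G']
  [SecondCountableTopology G'] [T2Space G'] [MeasurableSpace G'] [BorelSpace G']
  [NormedAddCommGroup K] [InnerProductSpace ℂ K] [CompleteSpace K] {μ : Measure G}
  [μ.IsHaarMeasure] {μ' : Measure G'} [μ'.IsHaarMeasure] {W : Set (K →L[ℂ] K)}
  {ι : Type} {U : Ultrafilter ι} {ν : ι → Measure G} [∀ n, IsProbabilityMeasure (ν n)]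

section cl

variable (S : Side μ W) {V L : Set G} {g w : G → ℂ} {b : ℝ}

theorem sqi_c (hL : IsCompact L) (hg : Measurable g) (h0 : 0 ≤ b) (hb : ∀ h, ‖g h‖ ≤ b)
    (D : K →L[ℂ] K) : SqI μ (fun h => g h • (D * (S.P L * S.π h⁻¹))) (b * ‖D‖ * √(μ.real L)) := by
  simpa only [inv_inv] using sqi_g S hL.inv hg h0 hb D

theorem inner_cl (hV : IsCompact V) (hL : IsCompact L) (hg : Bd g) (hw : Bd w) (D : K →L[ℂ] K)
    (ξ η : K) : ⟪col μ (fun h => star g h • (star D * (S.P L * S.π h⁻¹))) ξ,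
      col μ (fun h => w h • (1 * (S.P V⁻¹ * S.π h⁻¹))) η⟫_ℂ = ⟪ξ, Av S V L D (g * w) η⟫_ℂ := by
  obtain ⟨b, h0, hb⟩ := hg.star.nonneg
  obtain ⟨b', h0', hb'⟩ := hw.nonneg
  rw [← inner_gram', (sqi_c S hL hg.star.meas h0 hb _).inner_gram (sqi_g S hV hw.meas h0' hb' 1),
    inner_Av S hV hL (hg.mul hw)]
  refine integral_congr_ae (.of_forall fun h => ?_)
  simp [inner_smul_left, inner_smul_right, star_eq_adjoint, adjoint_inner_left, mul_ap]
  ring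

end cl

variable {Y Y' Z₀ : Type} [TopologicalSpace Y] [MeasurableSpace Y] [MulAction G' Y]
  [TopologicalSpace Y'] [MeasurableSpace Y'] [BorelSpace Y'] [CompactSpace Y'] [T2Space Y']
  [SecondCountableTopology Y'] [MulAction G' Y'] [ContinuousSMul G' Y'] [MeasurableSpace Z₀]
  [MulAction G' Z₀] {C : Cpl μ μ' W} {V L : Set G'} {y₀ : Y'} {E : POM Y K} {E' : POM Y' K}

theorem bd_c {φ : Y' → ℂ} (hφ : Continuous φ) : Bd φ :=
  ⟨hφ.measurable, ‖(⟨φ, hφ⟩ : C(Y', ℂ))‖, (⟨φ, hφ⟩ : C(Y', ℂ)).norm_coe_le_norm⟩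

theorem bd_o {φ : Y' → ℂ} (hφ : Bd φ) (y₀ : Y') : Bd fun h : G' => φ (h • y₀) :=
  hφ.comp (continuous_id.smul continuous_const).measurable

theorem isL_win (hV : Bp μ' V) (h : Lm C U ν V (fun _ => y₀) E') {φ : Y' → ℂ}
    (hφ : Continuous φ) : IsL C.s U ν (fun _ => Av C.t V V⁻¹ 1 fun h => φ (h • y₀))
      (((μ'.real V : ℝ) : ℂ) • E'.f φ) := by
  have v0 : ((μ'.real V : ℝ) : ℂ) * (((μ'.real V)⁻¹ : ℝ) : ℂ) = 1 := by
    rw [← Complex.ofReal_mul, mul_inv_cancel₀ (a := μ'.real V) (ENNReal.toReal_ne_zero.2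
      ⟨hV.pos, hV.cpt.measure_ne_top⟩), Complex.ofReal_one]
  have h1 : ∀ F : C_c(Y', ℝ), IsL C.s U ν (fun _ => Av C.t V V⁻¹ 1 fun h => (F (h • y₀) : ℂ))
      (((μ'.real V : ℝ) : ℂ) • E'.f fun y => (F y : ℂ)) := fun F => by
    simpa only [m_wf C.t hV, smul_smul, v0, one_smul] using (h F).smul ((μ'.real V : ℝ) : ℂ)
  let a : C_c(Y', ℝ) := ⟨⟨fun y => (φ y).re, by fun_prop⟩, .of_compactSpace _⟩
  let b : C_c(Y', ℝ) := ⟨⟨fun y => (φ y).im, by fun_prop⟩, .of_compactSpace _⟩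
  have h2 := (h1 a).add ((h1 b).smul Complex.I)
  rw [smul_comm, ← smul_add, ← E'.smul _ (bd_cc b), ← E'.add (bd_cc a) ((bd_cc b).smul _),
    ← Av_smul C.t hV.cpt hV.cpt.inv (bd_o (bd_cc b) y₀), ← Av_add C.t hV.cpt hV.cpt.inv
      (bd_o (bd_cc a) y₀) ((bd_o (bd_cc b) y₀).smul _)] at h2
  have e : ∀ y, ((a y : ℝ) : ℂ) + Complex.I * (b y : ℝ) = φ y := fun y => by
    simp [a, b, mul_comm Complex.I]
  simpa only [Pi.add_def, Pi.smul_def, smul_eq_mul, e] using h2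

/-- **The right module property** -/
theorem mod_lim (hV : Bp μ' V) (hL : IsCompact L) (h : Lm C U ν V (fun _ => y₀) E') (hE : E'.IsP)
    {φ : Y' → ℂ} (hφ : Continuous φ) {D : ι → K →L[ℂ] K} {d : ℝ} (hD : ∀ n, ‖D n‖ ≤ d)
    {g : G' → ℂ} (hg : Bd g) {X Λ : K →L[ℂ] K}
    (hX : IsL C.s U ν (fun n => Av C.t V L (D n) (g * fun h => φ (h • y₀))) X)
    (hΛ : IsL C.s U ν (fun n => Av C.t V L (D n) g) Λ) : X = Λ * E'.f φ := by
  obtain ⟨b, h0, hb⟩ := hg.star.nonneg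
  have b1 := bd_o (G' := G') (bd_c hφ) y₀
  have e := fun {g w : G' → ℂ} (hg : Bd g) (hw : Bd w) =>
    inner_cl C.t hV.cpt hV.cpt.inv hg.star hw 1
  simp only [star_star, star_one] at e
  refine isL_mod (d := b * d * √(μ'.real L)) (fun n => (sqi_c C.t hL hg.star.meas h0 hb
    (star (D n))).norm_col.trans (by rw [norm_star]; gcongr; exact hD n)) (e b1 b1) (e Bd.one b1)
    (e Bd.one Bd.one) (fun n => inner_cl C.t hV.cpt hL hg b1 (D n))
    (fun n => inner_cl C.t hV.cpt hL hg Bd.one (D n))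
    (isL_win hV h (φ := star φ * φ) (hφ.star.mul hφ)) (isL_win hV h (φ := star 1 * φ)
      (continuous_one.star.mul hφ)) (isL_win hV h (φ := star 1 * 1) (continuous_one.star.mul continuous_one)) hX
    (by simpa only [mul_one] using hΛ) fun η => ?_
  rw [star_one, one_mul, one_mul, hE.one, hE.mul _ _ (bd_c hφ).star (bd_c hφ),
    ← E'.star_f (bd_c hφ)]
  simp only [smul_apply, inner_smul_right, mul_ap, star_eq_adjoint, adjoint_inner_right,
    one_apply_eq_self]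
  ring_nf
  rfl

theorem exists_close (C : Cpl μ μ' W) (hV : IsCompact V) {r : K →L[ℂ] K} (hr : Cm W r)
    {ε : ℝ≥0∞} (hε : 0 < ε) : ∃ L, IsCompact L ∧ ∀ᶠ b in 𝓝 (1 : G),
      C.t.Tr ((C.s.π b⁻¹ * r * C.s.π b⁻¹⁻¹ - C.t.P L * r) * C.t.P V⁻¹) ≤ 4 * ε := by
  have mV := hV.inv.measurableSet
  have h0 : C.t.Tr (C.t.P V⁻¹) ≠ ∞ := by rw [C.t.Tr_P mV]; exact hV.inv.measure_ne_top
  have mL := fun n => (isCompact_compactCovering G' n).measurableSet
  have h1 := C.t.tendsto_Tr_mul (l := 𝓝 (1 : G)) (F := fun b => C.s.π b⁻¹ * r * C.s.π b⁻¹⁻¹ - r)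
    (C := ‖r‖ + ‖r‖) (.of_forall fun b => ⟨cm_sub (C.s.conj _ hr _) hr, (norm_sub_le _ _).trans
      (add_le_add_left (C.s.norm_conj_le _ r) _)⟩) (fun ξ => by
      simpa using (((C.s.cont_conj r ξ).comp continuous_inv).tendsto 1).sub_const (r ξ))
    (C.t.cm_P mV) h0
  have h2 := C.t.tendsto_Tr_mul (l := atTop) (F := fun n => C.t.P (compactCovering G' n)ᶜ) (C := 1)
    (.of_forall fun n => ⟨C.t.cm_P (mL n).compl, C.t.norm_P_le (mL n).compl⟩) (fun ξ => by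
      have := C.t.tendsto_m (l := atTop) (F := fun n => (compactCovering G' n)ᶜ.indicator 1)
        (C := 1) (fun n => (Bd.ind (mL n).compl).meas) (fun n x => norm_ind_le _ x) Bd.zero
        (.of_forall fun x => tendsto_const_nhds.congr' (by
          obtain ⟨m, hm⟩ := exists_mem_compactCovering x
          filter_upwards [eventually_ge_atTop m] with n hn
          simp [compactCovering_subset G' hn hm])) ξ
      rwa [C.t.m_zero] at this) (cm_mul hr (C.t.cm_P mV))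
    (ne_top_of_le_ne_top (by finiteness) (C.t.Tr_mul_le r _))
  obtain ⟨n, hn⟩ := (h2.eventually (ge_mem_nhds hε)).exists
  refine ⟨_, isCompact_compactCovering G' n, (h1.eventually (ge_mem_nhds hε)).mono fun b hb => ?_⟩
  rw [C.t.P_compl (mL n), ← mul_assoc, sub_mul, one_mul] at hn
  rw [← sub_add_sub_cancel _ r, add_mul]
  exact (C.t.Tr_add_le _ _).trans ((add_le_add (mul_le_mul_right hb 2)
    (mul_le_mul_right hn 2)).trans_eq (by ring))

variable {dir : Z₀ → Y} {Op : Set (Y × Y')} {e : Y × Y' → ℂ} {κ : G' → Y → ℂ} {κ' : G' → Y' → ℂ}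
  {u u' : K →L[ℂ] K} {Ψ : POM Z₀ K} [MeasurableConstSMul G' Y] [MeasurableConstSMul G' Z₀]

theorem Pvm.tr (h : Pvm C E) (g : G) : Pvm C (tr C.s g E) :=
  ⟨isP_tr _ g h.isP, fun F hF => C.s.conj _ (h.cm F hF) g, cov_tr C g h.cov⟩

theorem Loc.tr (h : Loc C dir E Ψ) (g : G) : Loc C dir (tr C.s g E) (tr C.s g Ψ) :=
  ⟨fun F hF => C.s.conj _ (h.cm F hF) g, cov_tr C g h.cov, fun φ F hφ hF => by
    rw [tr_f, h.mod φ F hφ hF, C.s.conj_mul]; rfl⟩

theorem star_conj (S : Side μ W) (g : G) (x : K →L[ℂ] K) :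
    star (S.π g * x * S.π g⁻¹) = S.π g * star x * S.π g⁻¹ := S.conj_adj g x

theorem Un.tr {S : Set G} (h : Un C S E κ u) (g : G) :
    Un C ∅ (tr C.s g E) κ (C.s.π g * u * C.s.π g⁻¹) :=
  ⟨⟨C.s.conj _ h.mem.1 g, fun φ hφ => by
      rw [tr_f, ← C.s.conj_mul, ← C.s.conj_mul, h.mem.2.1 φ hφ], fun _ hs => hs.elim, fun k => by
      rw [← conj_comm, h.mem.2.2.2, C.s.conj_mul]; rfl⟩,
    by rw [star_conj, ← C.s.conj_mul, h.l, mul_one, pi_mul_inv],
    by rw [star_conj, ← C.s.conj_mul, h.r, mul_one, pi_mul_inv]⟩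

/-- the limit of the averages is a multiple of the adjoint of `u'` -/
theorem scal {S' : Set G} (hV : Bp μ' V) (hL : IsCompact L) (lm : Lm C U ν V (fun _ => y₀) E')
    (hK : Ker Op κ κ' e) (pE' : Pvm C E') (hu' : Un C S' E' κ' u') (hS : Moore S')
    (ai : ∀ s ∈ S', AI U ν s) {D : ι → K →L[ℂ] K} {d : ℝ} (nD : ∀ n, ‖D n‖ ≤ d)
    (cD : ∀ n, Cm W (D n)) : ∃ c : ℂ, ∀ f' : C_c(Y', ℝ),
      IsL C.s U ν (fun n => Av C.t V L (D n) fun h => f' (h • y₀) * κ' h (h • y₀))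
        (c • (E'.f (fun y => (f' y : ℂ)) * star u')) := by
  have cκ : ∀ k, Continuous (κ' k) := fun k => hK.cκ'.comp (Continuous.prodMk_right k)
  have b1 : Bd fun h : G' => κ' h (h • y₀) := ⟨(hK.cκ'.comp (continuous_id.prodMk
    (continuous_id.smul continuous_const))).measurable, 1, fun h => (hK.nκ' _ _).le⟩
  have ex : ∀ {g : G' → ℂ}, Bd g → ∃ d, 0 ≤ d ∧ ∀ n, ‖Av C.t V L (D n) g‖ ≤ d :=
    fun {g} hg => let ⟨b, h0, hb⟩ := hg.nonneg
      ⟨√(μ'.real L) * (b * |d| * √(μ'.real V⁻¹)), by positivity, fun n =>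
        (norm_Av C.t hV.cpt hL hg.meas h0 hb _).trans (by
          gcongr; exact (nD n).trans (le_abs_self d))⟩
  obtain ⟨d, d0, hd⟩ := ex b1
  obtain ⟨Λ, hΛ⟩ := exists_isL (S := C.s) (U := U) (ν := ν) d0 hd
  have h4 : ∀ k, C.t.π k * Λ * C.t.π k⁻¹ = Λ * E'.f (star (κ' k)) := fun k => by
    refine mod_lim hV hL lm pE'.isP (cκ k).star nD b1 ?_ hΛ
    have h5 := hΛ.mul_cp (fun g => (C.comm g k).symm) fun g => (C.comm g k⁻¹).symm
    have h6 : (fun h => κ' (k⁻¹ * h) ((k⁻¹ * h) • y₀)) =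
        (fun h => κ' h (h • y₀)) * fun h => star (κ' k (h • y₀)) := funext fun h => by
      have h6 := hK.coc k (k⁻¹ * h) (h • y₀)
      rw [mul_inv_cancel_left, ← mul_smul] at h6
      rw [Pi.mul_apply, h6, mul_right_comm, Complex.star_def, Complex.mul_conj', hK.nκ']
      simp
    simp only [conj_Av C.t hV.cpt hL b1, h6] at h5
    exact h5
  obtain ⟨c, hc⟩ := C.erg hS (x := Λ * u') ⟨cm_mul (hΛ.cm fun n => cm_Av C.t hV.cpt hL b1 (cD n))
    hu'.mem.1, cp_of_conj fun k => by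
      rw [C.t.conj_mul, h4, hu'.mem.2.2.2, mul_assoc, ← mul_assoc (E'.f _),
        ← E'.star_f (bd_c (cκ k)), (pE'.isP.star_mul_self (bd_c (cκ k)) (hK.nκ' k)).1, one_mul]⟩
    fun s hs => comm_of_conj (by rw [C.s.conj_mul, hΛ.inv hd (ai s hs), hu'.mem.2.2.1 s hs])
  have h7 : Λ = c • star u' := by
    rw [← mul_one Λ, ← hu'.r, ← mul_assoc, hc, smul_mul_assoc, one_mul]
  refine ⟨c, fun f' => ?_⟩
  obtain ⟨d', d0', hd'⟩ := ex (b1.mul (bd_o (G' := G') (bd_cc f') y₀))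
  obtain ⟨X, hX⟩ := exists_isL (S := C.s) (U := U) (ν := ν) d0' hd'
  rw [mod_lim hV hL lm pE'.isP (Complex.continuous_ofReal.comp f'.continuous) nD b1 hX hΛ, h7,
    smul_mul_assoc, mul_comm (fun h => κ' h (h • y₀))] at hX
  rw [← (Xm.star (fun k => bd_c (cκ k)) hu'.mem).2.1 _ (bd_cc f')]
  exact hX

theorem ae_un {B : Set G} (hB : IsCompact B) (z : G) : ∀ᵐ g ∂un μ B z, z⁻¹ * g ∈ B :=
  (ae_map_iff (measurable_const_mul _).aemeasurable (measurable_const_mul _ hB.measurableSet)).2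
    ((ProbabilityTheory.ae_cond_mem hB.measurableSet).mono fun b hb => by simpa using hb)

theorem eig_inv (S : Side μ W) {r : K →L[ℂ] K} {a : G} {χ : ℂ} (h0 : ‖χ‖ = 1)
    (h : S.π a * r * S.π a⁻¹ = χ • r) (g : G) : S.π g⁻¹ * r * S.π g⁻¹⁻¹ =
      χ⁻¹ • (S.π (a⁻¹ * g)⁻¹ * r * S.π (a⁻¹ * g)⁻¹⁻¹) := by
  rw [eq_inv_smul_iff₀ (norm_ne_zero_iff.1 (by rw [h0]; exact one_ne_zero)), ← smul_mul_assoc,
    ← mul_smul_comm, ← h, S.conj_conj, mul_inv_rev a⁻¹, inv_inv a]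

/-- **RS** from **EST** -/
theorem rs [OpensMeasurableSpace Y] {M : ℝ≥0∞} {S' : Set G} {a : ι → G}
    (hE : EST C V y₀ dir Op e κ κ' M) (hK : Ker Op κ κ' e) (pE : Pvm C E) (pE' : Pvm C E')
    (hu : Un C ∅ E κ u) (hu' : Un C S' E' κ' u') (hP : Path C V y₀ S' E E' u U a) :
    RS C dir E E' Op (5 * M) e u u' := fun ε hε => by
  have hV := hP.bp
  have b0 : Bd ({x | (x, y₀) ∈ Op}.indicator fun x => e (x, y₀)) :=
    Bd.indicator ⟨hK.meas.comp measurable_prodMk_right, 1, fun x => (hK.ne _).le⟩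
      (hK.opn.preimage (Continuous.prodMk_left y₀)).measurableSet
  obtain ⟨r, hr⟩ : ∃ r, r = u * E.f ({x | (x, y₀) ∈ Op}.indicator fun x => e (x, y₀)) := ⟨_, rfl⟩
  have cr : Cm W r := hr ▸ cm_mul hu.mem.1 (pE.cm _ b0)
  obtain ⟨L', hL', h1⟩ := exists_close C hV.cpt cr (ε := ENNReal.ofReal ε ^ 2) (by positivity)
  obtain ⟨B, hB, bB, lm⟩ := hP.lm _ h1
  haveI := fun n => prob_un bB.cpt bB.pos (a n)
  choose χ hχ using hP.ph
  have nu : ∀ ξ, ‖u ξ‖ = ‖ξ‖ := P092SB.norm_unit hu.l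
  have nχ : ∀ n, ‖χ n‖ = 1 := fun n => by
    simpa [norm_smul, mul_ap, C.s.norm_π, nu, C.s.nΩ] using
      (congrArg (fun T : K →L[ℂ] K => ‖T C.s.Ω‖) (hχ n)).symm
  have h2 : ∀ n, C.s.π (a n) * r * C.s.π (a n)⁻¹ = χ n • r := fun n => by
    rw [hr, C.s.conj_mul, hχ, hP.fix n _ b0, smul_mul_assoc]
  obtain ⟨c, hc⟩ := scal hV hL' lm hK pE' hu' hP.moore
    (fun s hs => ai_of_tendsto bB.cpt (hP.ai s hs)) (D := fun n => (χ n)⁻¹ • r) (d := ‖r‖)
    (fun n => by rw [norm_smul, norm_inv, nχ, inv_one, one_mul]) fun n => cm_smul _ cr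
  refine ⟨(((μ'.real V)⁻¹ : ℝ) : ℂ) * c, fun Ψ L Q Q' c₀ f f' n φ p lΨ mL pr ap => ?_⟩
  have bf : Bd f := ⟨ap.bf, 1, ap.nf⟩
  have b2 : Bd fun h : G' => f' (h • y₀) * κ' h (h • y₀) := (bd_o (bd_cc f') y₀).mul
    ⟨(hK.cκ'.comp (continuous_id.prodMk (continuous_id.smul continuous_const))).measurable, 1,
      fun h => (hK.nκ' _ _).le⟩
  have cL := lΨ.cm _ (Bd.ind mL)
  have h8 := (pl_sum Finset.univ fun j => pl_of (lm (p j)) (fun n => C.t.cm_m (bd_wf hV _))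
    (cm_mul cL (pE.cm _ (ap.bφ j)))).sub (pl_of ((hc f').smul (((μ'.real V)⁻¹ : ℝ) : ℂ))
      (fun n => cm_smul _ (cm_Av C.t hV.cpt hL' b2 (cm_smul _ cr)))
      (cm_mul cL (cm_mul (C.adj_cm hu.mem.1) (pE.cm _ bf))))
  refine le_trans (le_of_eq (congrArg _ ?_)) (h8.tr_le (c := 5 * M * c₀ * ENNReal.ofReal ε ^ 2)
    fun m => (ae_un bB.cpt (a m)).mono fun g hg => ?_)
  · rw [mul_sub, Finset.mul_sum, smul_smul]
    simp only [mul_assoc, mul_smul_comm, POM.P, star_eq_adjoint]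
  · have h10 := hE _ _ _ _ L' L Q Q' c₀ f f' n φ p ε (pE.tr g⁻¹) (lΨ.tr g⁻¹) (hu.tr g⁻¹)
      (cm_smul (χ m)⁻¹ cr) hL' mL pr ap
    rw [tr_f C.s g⁻¹ E (indicator _ _), ← C.s.conj_mul, ← hr, eig_inv C.s (nχ m) (h2 m),
      mul_smul_comm _ (C.t.P L'), ← smul_sub, smul_mul_assoc, C.t.Tr_smul, ← ofReal_norm, norm_inv,
      nχ, inv_one, ENNReal.ofReal_one, one_pow, one_mul] at h10
    refine le_trans (le_of_eq (congrArg _ ?_)) (h10.trans ((mul_le_mul_right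
      (add_le_add_right (hB hg) _) _).trans_eq (by ring)))
    rw [mul_sub, Finset.mul_sum, star_conj]
    simp only [C.s.conj_mul]
    simp only [tr_f, POM.P, mul_assoc, star_eq_adjoint]

end Vale.Agent.P092RK
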