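import Vale.Agent.P092RK.Sint

/-!
P092, rank one, block A (helper93): two sided domination by the three lines theorem.
-/

set_option linter.all false

open scoped InnerProductSpace
open MeasureTheory Filter Topology ContinuousLinearMap

namespace Vale.Agent.P092RK

variable {Ω K ι : Type*} [MeasurableSpace Ω] {ν : Measure Ω} [NormedAddCommGroup K]
  [InnerProductSpace ℂ K] [CompleteSpace K] [IsFiniteMeasure ν]
  {U V : Ω → K →L[ℂ] K} {z : ι → Ω → K →L[ℂ] K} {la lb lα lβ : K →L[ℂ] K}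

/-- the analytic family -/
noncomputable def Gu (ν : Measure Ω) (U V z : Ω → K →L[ℂ] K) (la lb lα lβ : K →L[ℂ] K) (u : ℂ) :
    K →L[ℂ] K :=
  pw lα (-u) * sI ν (fun ω => U ω * pw la u * z ω * pw lb (-u) * V ω) * pw lβ u

/-- `∫ U (exp la) V ≤ exp lα` -/
def Row (ν : Measure Ω) (V : Ω → K →L[ℂ] K) (la lα : K →L[ℂ] K) : Prop :=
  ∀ ξ, ∫ ω, ‖pw la (1 / 2) (V ω ξ)‖ ^ 2 ∂ν ≤ ‖pw lα (1 / 2) ξ‖ ^ 2

theorem line (hU : Sf ν U) (hV : Sf ν V) (hUV : ∀ ω, star (U ω) = V ω) (hz : ∀ i, Sf ν (z i))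
    (ha : IsSelfAdjoint la) (hb : IsSelfAdjoint lb) (hα : IsSelfAdjoint lα)
    (hβ : IsSelfAdjoint lβ) (ra : Row ν V la lα) (rb : Row ν V lb lβ) (s : Finset ι)
    (hR : ∀ ω ξ, ∑ i ∈ s, ‖z i ω ξ‖ ^ 2 ≤ ‖pw lb 1 ξ‖ ^ 2) {u : ℂ} (hu : u.re = 1 / 2) (x : K) :
    ∑ i ∈ s, ‖Gu ν U V (z i) la lb lα lβ u x‖ ^ 2 ≤ ‖pw lβ 1 x‖ ^ 2 := by
  set η : ι → K := fun i => Gu ν U V (z i) la lb lα lβ u x with hη
  set u' := starRingEnd ℂ u with hu'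
  have hu2 : u'.re = 1 / 2 := hu
  have k : ∀ i, Sf ν fun ω => U ω * pw la u * z i ω * pw lb (-u) * V ω := fun i =>
    (((hU.mul (Sf.const _)).mul (hz i)).mul (Sf.const _)).mul hV
  have kp : Sf ν fun ω => pw la u' * V ω := (Sf.const _).mul hV
  have kq : ∀ i, Sf ν fun ω => z i ω * pw lb (-u) * V ω := fun i =>
    ((hz i).mul (Sf.const _)).mul hV
  have h1 : ∀ i, ‖η i‖ ^ 2 ≤ (∫ ω, ‖(pw la u' * V ω) (pw lα (-u') (η i))‖ ^ 2 ∂ν) / 2 +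
      (∫ ω, ‖(z i ω * pw lb (-u) * V ω) (pw lβ u x)‖ ^ 2 ∂ν) / 2 := by
    intro i
    have e : ⟪η i, η i⟫_ℂ = ∫ ω, ⟪pw lα (-u') (η i),
        (U ω * pw la u * z i ω * pw lb (-u) * V ω) (pw lβ u x)⟫_ℂ ∂ν := by
      rw [← (k i).inner_sI, hu', ← map_neg, ← star_pw hα, star_eq_adjoint, adjoint_inner_left]
      rfl
    rw [← inner_self_eq_norm_sq (𝕜 := ℂ), e, ← add_div,
      ← integral_add (kp.int_sq _) ((kq i).int_sq _), ← integral_div]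
    refine (RCLike.re_le_norm _).trans ((norm_integral_le_integral_norm _).trans
      (integral_mono_of_nonneg (ae_of_all _ fun ω => norm_nonneg _)
        (((kp.int_sq _).add ((kq i).int_sq _)).div_const _) (ae_of_all _ fun ω => ?_)))
    have e2 : ∀ y y' : K, ⟪y, (U ω * pw la u * z i ω * pw lb (-u) * V ω) y'⟫_ℂ =
        ⟪(pw la u' * V ω) y, (z i ω * pw lb (-u) * V ω) y'⟫_ℂ := by
      intro y y'
      rw [show pw la u' * V ω = adjoint (U ω * pw la u) by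
        rw [← hUV, hu', ← star_pw ha, ← star_mul, star_eq_adjoint], adjoint_inner_left]
      rfl
    simp only [e2]
    refine (norm_inner_le_norm _ _).trans ?_
    nlinarith [sq_nonneg (‖(pw la u' * V ω) (pw lα (-u') (η i))‖ -
      ‖(z i ω * pw lb (-u) * V ω) (pw lβ u x)‖)]
  have h2 : ∀ i, ∫ ω, ‖(pw la u' * V ω) (pw lα (-u') (η i))‖ ^ 2 ∂ν ≤ ‖η i‖ ^ 2 := by
    intro i
    have h3 := ra (pw lα (-u') (η i))
    rw [pw_pw, norm_pw hα (v := 0) (by simp [hu2]), pw_zero] at h3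
    refine le_of_eq_of_le (integral_congr_ae (ae_of_all _ fun ω => ?_)) h3
    exact congrArg (· ^ 2) (norm_pw ha (by simp [hu2]) _)
  have h3 : ∑ i ∈ s, ∫ ω, ‖(z i ω * pw lb (-u) * V ω) (pw lβ u x)‖ ^ 2 ∂ν ≤ ‖pw lβ 1 x‖ ^ 2 := by
    have h4 := rb (pw lβ u x)
    rw [pw_pw, norm_pw hβ (v := 1) (by simp [hu]; norm_num)] at h4
    rw [← integral_finset_sum _ fun i _ => (kq i).int_sq _]
    refine (integral_mono_of_nonneg (ae_of_all _ fun ω => by positivity)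
      (((Sf.const (pw lb (1 / 2))).mul hV).int_sq _) (ae_of_all _ fun ω => ?_)).trans h4
    refine (hR ω (pw lb (-u) (V ω (pw lβ u x)))).trans_eq ?_
    rw [pw_pw]
    exact congrArg (· ^ 2) (norm_pw hb (by simp [hu]; norm_num) _)
  have h4 := Finset.sum_le_sum fun i (_ : i ∈ s) =>
    (h1 i).trans (add_le_add (div_le_div_of_nonneg_right (h2 i) zero_le_two) le_rfl)
  rw [Finset.sum_add_distrib, ← Finset.sum_div, ← Finset.sum_div] at h4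
  linarith

theorem star_Gu {z : Ω → K →L[ℂ] K} (hU : Sf ν U) (hV : Sf ν V) (hUV : ∀ ω, star (U ω) = V ω)
    (hz : Sf ν z) (hz' : Sf ν fun ω => star (z ω)) (ha : IsSelfAdjoint la)
    (hb : IsSelfAdjoint lb) (hα : IsSelfAdjoint lα) (hβ : IsSelfAdjoint lβ) (u : ℂ) :
    star (Gu ν U V z la lb lα lβ u) =
      Gu ν U V (fun ω => star (z ω)) lb la lβ lα (-starRingEnd ℂ u) := by
  have e : ∀ ω, star (U ω * pw la u * z ω * pw lb (-u) * V ω) = U ω * pw lb (-starRingEnd ℂ u) *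
      star (z ω) * pw la (- -starRingEnd ℂ u) * V ω := by
    intro ω
    simp only [star_mul, star_pw ha, star_pw hb, ← hUV, star_star, map_neg, neg_neg, mul_assoc]
  rw [Gu, Gu, star_mul, star_mul, star_pw hα, star_pw hβ,
    ((((hU.mul (Sf.const _)).mul hz).mul (Sf.const _)).mul hV).star_sI (by
      simp only [e]; exact (((hU.mul (Sf.const _)).mul hz').mul (Sf.const _)).mul hV)]
  simp only [e]
  simp only [map_neg, neg_neg, mul_assoc]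

theorem diff_bil {E F H : Type*} [NormedAddCommGroup E] [NormedSpace ℂ E] [NormedAddCommGroup F]
    [NormedSpace ℂ F] [NormedAddCommGroup H] [NormedSpace ℂ H] (B : E →L[ℂ] F →L[ℂ] H) {f : ℂ → E}
    {g : ℂ → F} (hf : Differentiable ℂ f) (hg : Differentiable ℂ g) :
    Differentiable ℂ fun u => B (f u) (g u) := (B.differentiable.comp hf).clm_apply hg

theorem diff_neg (l : K →L[ℂ] K) : Differentiable ℂ fun u => pw l (-u) :=
  Differentiable.comp (g := pw l) (f := fun u : ℂ => -u) diff_pw differentiable_neg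

theorem sing_log (hU : Sf ν U) (hV : Sf ν V) (hUV : ∀ ω, star (U ω) = V ω) (hz : ∀ i, Sf ν (z i))
    (hz' : ∀ i, Sf ν fun ω => star (z i ω)) (ha : IsSelfAdjoint la) (hb : IsSelfAdjoint lb)
    (hα : IsSelfAdjoint lα) (hβ : IsSelfAdjoint lβ) (ra : Row ν V la lα) (rb : Row ν V lb lβ)
    (hL : ∀ s : Finset ι, ∀ ω ξ, ∑ i ∈ s, ‖star (z i ω) ξ‖ ^ 2 ≤ ‖pw la 1 ξ‖ ^ 2)
    (hR : ∀ s : Finset ι, ∀ ω ξ, ∑ i ∈ s, ‖z i ω ξ‖ ^ 2 ≤ ‖pw lb 1 ξ‖ ^ 2) {x : K} {C : ℝ}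
    (hC : 0 ≤ C) (hRL : ∀ u : ℂ, ∀ c : ℝ,
      (∀ s : Finset ι, ∑ i ∈ s, ‖star (Gu ν U V (z i) la lb lα lβ u) x‖ ^ 2 ≤ c) →
      ∀ s : Finset ι, ∑ i ∈ s, ‖Gu ν U V (z i) la lb lα lβ u x‖ ^ 2 ≤ C ^ 2 * c) (s : Finset ι) :
    ∑ i ∈ s, ‖sI ν (fun ω => U ω * z i ω * V ω) x‖ ^ 2 ≤ C * ‖pw lα 1 x‖ * ‖pw lβ 1 x‖ := by
  choose B hB using fun i => exists_bil hU hV (hz i)
  set F : ℂ → PiLp 2 fun _ : s => K :=
    fun u => WithLp.toLp 2 fun i => Gu ν U V (z i) la lb lα lβ u x with hF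
  have hn : ∀ u, ‖F u‖ ^ 2 = ∑ i ∈ s, ‖Gu ν U V (z i) la lb lα lβ u x‖ ^ 2 := fun u => by
    rw [PiLp.norm_sq_eq_of_L2, ← Finset.sum_coe_sort s]
  have hd : Differentiable ℂ F := by
    refine (differentiable_piLp 2).2 fun i => ?_
    have h1 : Differentiable ℂ fun u =>
        pw lα (-u) * B i (pw la u) (pw lb (-u)) * pw lβ u :=
      ((diff_neg lα).mul (diff_bil (B i) diff_pw (diff_neg lb))).mul diff_pw
    simp only [hB] at h1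
    exact h1.clm_apply (differentiable_const x)
  obtain ⟨c1, p1, b1⟩ := bdd_pw ha
  obtain ⟨c2, p2, b2⟩ := bdd_pw hb
  obtain ⟨c3, p3, b3⟩ := bdd_pw hα
  obtain ⟨c4, p4, b4⟩ := bdd_pw hβ
  have h := Complex.HadamardThreeLines.norm_le_interp_of_mem_verticalClosedStrip' (f := F) (z := 0)
    (a := C * ‖pw lα 1 x‖) (b := ‖pw lβ 1 x‖) (l := -(1 / 2)) (u := 1 / 2) (by norm_num)
    ⟨by norm_num, by norm_num⟩ hd.diffContOnCl
    ⟨√(∑ i ∈ s, (c3 * (‖B i‖ * c1 * c2) * c4 * ‖x‖) ^ 2), ?_⟩ (fun u hu => ?_) fun u hu => ?_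
  · have h2 := pow_le_pow_left₀ (norm_nonneg _) h 2
    rw [hn, mul_pow, ← Real.rpow_two, ← Real.rpow_two (_ ^ _), ← Real.rpow_mul (by positivity),
      ← Real.rpow_mul (by positivity)] at h2
    norm_num at h2
    simpa [Gu, pw_zero] using h2
  · rintro _ ⟨u, hu, rfl⟩
    have h1 : |u.re| ≤ 1 := abs_le.2 ⟨by linarith [hu.1], by linarith [hu.2]⟩
    have h2 : |(-u).re| ≤ 1 := by rwa [Complex.neg_re, abs_neg]
    refine Real.le_sqrt_of_sq_le ((hn u).trans_le (Finset.sum_le_sum fun i _ => ?_))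
    refine pow_le_pow_left₀ (norm_nonneg _) ((le_opNorm _ _).trans ?_) 2
    rw [Gu, ← hB]
    have h3 := b1 u h1
    have h4 := b2 _ h2
    refine mul_le_mul_of_nonneg_right ((norm_mul_le _ _).trans (mul_le_mul ((norm_mul_le _ _).trans
      (mul_le_mul (b3 _ h2) (((B i).le_opNorm₂ _ _).trans ?_) (norm_nonneg _) p3)) (b4 _ h1)
      (norm_nonneg _) (by positivity))) (norm_nonneg _)
    gcongr
  · refine abs_le_of_sq_le_sq' ?_ (by positivity) |>.2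
    rw [hn, mul_pow]
    refine hRL u _ (fun s => ?_) s
    simp only [star_Gu hU hV hUV (hz _) (hz' _) ha hb hα hβ]
    refine line hU hV hUV hz' hb ha hβ hα rb ra s (hL s) ?_ x
    rw [Complex.neg_re, Complex.conj_re, show u.re = -(1 / 2) from hu, neg_neg]
  · refine abs_le_of_sq_le_sq' ?_ (norm_nonneg _) |>.2
    rw [hn]
    exact line hU hV hUV hz ha hb hα hβ ra rb s (hR s) hu x

theorem exists_log {a : K →L[ℂ] K} (ha : 0 ≤ a) {ε : ℝ} (hε : 0 < ε) : ∃ l : K →L[ℂ] K,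
    IsSelfAdjoint l ∧ (∀ T, Commute a T → Commute l T) ∧
      (∀ ξ, pw l 1 ξ = a ξ + (ε : ℂ) • ξ) ∧ (∀ ξ, ‖a ξ‖ ^ 2 ≤ ‖pw l 1 ξ‖ ^ 2) ∧
      ∀ ξ, ‖pw l (1 / 2) ξ‖ ^ 2 = (⟪ξ, a ξ⟫_ℂ).re + ε * ‖ξ‖ ^ 2 := by
  have h1 : IsStrictlyPositive (a + algebraMap ℝ (K →L[ℂ] K) ε) :=
    IsStrictlyPositive.nonneg_add ha (isStrictlyPositive_algebraMap hε)
  have h2 : ∀ ξ, pw (CFC.log (a + algebraMap ℝ (K →L[ℂ] K) ε)) 1 ξ = a ξ + (ε : ℂ) • ξ := by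
    intro ξ
    rw [pw_one, CFC.exp_log _ h1, Algebra.algebraMap_eq_smul_one]
    rfl
  have h3 := ((nonneg_iff_isPositive a).1 ha).re_inner_nonneg_left
  refine ⟨_, IsSelfAdjoint.log, fun T hT => Commute.cfc_real (hT.add_left
    (Algebra.commutes ε T)) _, h2, fun ξ => ?_, fun ξ => ?_⟩
  · rw [h2, norm_add_sq (𝕜 := ℂ), inner_smul_right]
    have := h3 ξ
    simp only [RCLike.re_to_complex, Complex.re_ofReal_mul] at this ⊢
    nlinarith [sq_nonneg ‖(ε : ℂ) • ξ‖, mul_nonneg hε.le this]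
  · rw [sq_pw IsSelfAdjoint.log, show ((2 * (1 / 2 : ℂ).re : ℝ) : ℂ) = 1 by norm_num, h2,
      inner_add_right, inner_smul_right, Complex.add_re, Complex.re_ofReal_mul,
      ← inner_self_eq_norm_sq (𝕜 := ℂ)]
    rfl

theorem sI_nonneg (hU : Sf ν U) (hV : Sf ν V) (hUV : ∀ ω, star (U ω) = V ω) {a : K →L[ℂ] K}
    (ha : 0 ≤ a) : 0 ≤ sI ν (fun ω => U ω * a * V ω) ∧
      ∀ ξ, (⟪ξ, sI ν (fun ω => U ω * a * V ω) ξ⟫_ℂ).re = ∫ ω, (⟪V ω ξ, a (V ω ξ)⟫_ℂ).re ∂ν := by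
  have k := (hU.mul (Sf.const a)).mul hV
  have e : ∀ ω, star (U ω * a * V ω) = U ω * a * V ω := fun ω => by
    rw [star_mul, star_mul, ← hUV, star_star, ha.isSelfAdjoint.star_eq, mul_assoc]
  have h1 : ∀ ξ, (⟪ξ, sI ν (fun ω => U ω * a * V ω) ξ⟫_ℂ).re =
      ∫ ω, (⟪V ω ξ, a (V ω ξ)⟫_ℂ).re ∂ν := by
    intro ξ
    rw [k.inner_sI]
    refine (integral_re ((k.int ξ).const_inner (𝕜 := ℂ) ξ)).symm.trans
      (integral_congr_ae (ae_of_all _ fun ω => ?_))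
    simp only
    nth_rewrite 2 [← hUV]
    rw [star_eq_adjoint, adjoint_inner_left]
    rfl
  refine ⟨(nonneg_iff_isPositive _).2 (isPositive_def'.2 ⟨?_, fun ξ => ?_⟩), h1⟩
  · rw [IsSelfAdjoint, k.star_sI (by simp only [e]; exact k)]
    simp only [e]
  · rw [reApplyInnerSelf_apply, inner_re_symm]
    exact (integral_nonneg fun ω =>
      ((nonneg_iff_isPositive a).1 ha).re_inner_nonneg_right _).trans_eq (h1 ξ).symm

theorem exists_row (hU : Sf ν U) (hV : Sf ν V) (hUV : ∀ ω, star (U ω) = V ω)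
    (h1 : ∀ ω ξ, ‖V ω ξ‖ ≤ ‖ξ‖) {a : K →L[ℂ] K} (ha : 0 ≤ a) {ε : ℝ} (hε : 0 < ε) :
    ∃ l l' : K →L[ℂ] K, IsSelfAdjoint l ∧ IsSelfAdjoint l' ∧ (∀ T, Commute a T → Commute l T) ∧
      (∀ T, Commute (sI ν fun ω => U ω * a * V ω) T → Commute l' T) ∧ Row ν V l l' ∧
      (∀ ξ, ‖a ξ‖ ^ 2 ≤ ‖pw l 1 ξ‖ ^ 2) ∧ ∀ ξ, ‖pw l' 1 ξ‖ ≤
        ‖sI ν (fun ω => U ω * a * V ω) ξ‖ + ε * (ν.real Set.univ + 1) * ‖ξ‖ := by
  obtain ⟨h2, h3⟩ := sI_nonneg hU hV hUV ha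
  obtain ⟨l, a1, a2, -, a4, a5⟩ := exists_log ha hε
  have hε' : 0 < ε * (ν.real Set.univ + 1) := by positivity
  obtain ⟨l', b1, b2, b3, -, b5⟩ := exists_log h2 hε'
  refine ⟨l, l', a1, b1, a2, b2, fun ξ => ?_, a4, fun ξ => ?_⟩
  · have i1 : Integrable (fun ω => (⟪V ω ξ, a (V ω ξ)⟫_ℂ).re) ν := by
      have := (((Sf.const (pw l (1 / 2))).mul hV).int_sq ξ).sub ((hV.int_sq ξ).const_mul ε)
      refine this.congr (ae_of_all _ fun ω => ?_)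
      exact sub_eq_of_eq_add (a5 _)
    simp only [a5, b5, h3]
    rw [integral_add i1 ((hV.int_sq ξ).const_mul ε), integral_const_mul, mul_assoc]
    refine add_le_add le_rfl (mul_le_mul_of_nonneg_left ?_ hε.le)
    refine (integral_mono (hV.int_sq ξ) (integrable_const (‖ξ‖ ^ 2)) fun ω =>
      pow_le_pow_left₀ (norm_nonneg _) (h1 ω ξ) 2).trans ?_
    rw [integral_const, smul_eq_mul]
    nlinarith [sq_nonneg ‖ξ‖]
  · rw [b3]
    refine (norm_add_le _ _).trans_eq ?_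
    rw [norm_smul, Complex.norm_real, Real.norm_of_nonneg hε'.le]

/-- **two sided domination**: `∑ z z* ≤ a²`, `∑ z* z ≤ b²` and the comparison of the row and column
norms bound the integral by the geometric mean of the averages of `a` and `b`. -/
theorem sing (hU : Sf ν U) (hV : Sf ν V) (hUV : ∀ ω, star (U ω) = V ω)
    (h1 : ∀ ω ξ, ‖V ω ξ‖ ≤ ‖ξ‖) (hz : ∀ i, Sf ν (z i)) (hz' : ∀ i, Sf ν fun ω => star (z i ω))
    {a b : K →L[ℂ] K} (ha : 0 ≤ a) (hb : 0 ≤ b)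
    (hL : ∀ s : Finset ι, ∀ ω ξ, ∑ i ∈ s, ‖star (z i ω) ξ‖ ^ 2 ≤ ‖a ξ‖ ^ 2)
    (hR : ∀ s : Finset ι, ∀ ω ξ, ∑ i ∈ s, ‖z i ω ξ‖ ^ 2 ≤ ‖b ξ‖ ^ 2) {S : Set (K →L[ℂ] K)}
    (ca : ∀ T ∈ S, Commute a T) (cb : ∀ T ∈ S, Commute b T)
    (cα : ∀ T ∈ S, Commute (sI ν fun ω => U ω * a * V ω) T)
    (cβ : ∀ T ∈ S, Commute (sI ν fun ω => U ω * b * V ω) T) {x : K} {C : ℝ} (hC : 0 ≤ C)
    (hRL : ∀ p q p' q' : K →L[ℂ] K, (∀ T ∈ S, Commute p T) → (∀ T ∈ S, Commute q T) →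
      (∀ T ∈ S, Commute p' T) → (∀ T ∈ S, Commute q' T) → ∀ c : ℝ,
      (∀ s : Finset ι, ∑ i ∈ s,
        ‖star (p * sI ν (fun ω => U ω * p' * z i ω * q' * V ω) * q) x‖ ^ 2 ≤ c) →
      ∀ s : Finset ι, ∑ i ∈ s,
        ‖(p * sI ν (fun ω => U ω * p' * z i ω * q' * V ω) * q) x‖ ^ 2 ≤ C ^ 2 * c) (s : Finset ι) :
    ∑ i ∈ s, ‖sI ν (fun ω => U ω * z i ω * V ω) x‖ ^ 2 ≤
      C * ‖sI ν (fun ω => U ω * a * V ω) x‖ * ‖sI ν (fun ω => U ω * b * V ω) x‖ := by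
  have hc : Continuous fun ε : ℝ =>
      C * (‖sI ν (fun ω => U ω * a * V ω) x‖ + ε * (ν.real Set.univ + 1) * ‖x‖) *
        (‖sI ν (fun ω => U ω * b * V ω) x‖ + ε * (ν.real Set.univ + 1) * ‖x‖) := by fun_prop
  have h2 := (hc.tendsto 0).mono_left (nhdsWithin_le_nhds (s := Set.Ioi 0))
  simp only [zero_mul, add_zero] at h2
  refine ge_of_tendsto h2 (eventually_mem_nhdsWithin.mono fun ε hε => ?_)
  obtain ⟨la, lα, a1, a2, a3, a4, a5, a6, a7⟩ := exists_row hU hV hUV h1 ha hε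
  obtain ⟨lb, lβ, b1, b2, b3, b4, b5, b6, b7⟩ := exists_row hU hV hUV h1 hb hε
  refine (sing_log hU hV hUV hz hz' a1 b1 a2 b2 a5 b5 (fun s ω ξ => (hL s ω ξ).trans (a6 ξ))
    (fun s ω ξ => (hR s ω ξ).trans (b6 ξ)) hC (fun u => hRL _ _ _ _
      (fun T hT => comm_pw (a4 T (cα T hT)) _) (fun T hT => comm_pw (b4 T (cβ T hT)) _)
      (fun T hT => comm_pw (a3 T (ca T hT)) _) fun T hT => comm_pw (b3 T (cb T hT)) _) s).trans ?_
  exact mul_le_mul (mul_le_mul_of_nonneg_left (a7 x) hC) (b7 x) (norm_nonneg _)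
    (mul_nonneg hC ((norm_nonneg _).trans (a7 x)))

end Vale.Agent.P092RK
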