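import Vale.Agent.P092RK.Sing
import Vale.Agent.P092UB.Defs

/-!
P092, rank one, block A (helper93): the singular piece on a bimodule.
-/

set_option linter.all false

open scoped InnerProductSpace
open MeasureTheory Filter Topology ContinuousLinearMap

namespace Vale.Agent.P092RK

open Vale.Agent.P092CP Vale.Agent.P092UB
open Vale.Agent.P092.H790 (aesm_field)

section gen

variable {X Y : Type*} [NormedAddCommGroup X] [InnerProductSpace ℂ X] [CompleteSpace X]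
  [NormedAddCommGroup Y] [InnerProductSpace ℂ Y] [CompleteSpace Y]

theorem exp_inter {σ : ℂ →+* ℂ} (T : X →SL[σ] Y) {A : X →L[ℂ] X} {A' : Y →L[ℂ] Y}
    (h : ∀ ξ, T (A ξ) = A' (T ξ)) (ξ : X) :
    T (NormedSpace.exp A ξ) = NormedSpace.exp A' (T ξ) := by
  have h1 : ∀ (k : ℕ) ξ, T ((A ^ k) ξ) = (A' ^ k) (T ξ) := by
    intro k
    induction k with
    | zero => intro ξ; rfl
    | succ k ih => intro ξ; rw [pow_succ, pow_succ]; exact (ih _).trans (congrArg _ (h ξ))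
  have h2 := T.hasSum ((ContinuousLinearMap.apply ℂ X ξ).hasSum
    (NormedSpace.exp_series_hasSum_exp' (𝕂 := ℂ) A))
  have h3 := (ContinuousLinearMap.apply ℂ Y (T ξ)).hasSum
    (NormedSpace.exp_series_hasSum_exp' (𝕂 := ℂ) A')
  refine h2.unique (h3.congr_fun fun k => ?_)
  simp only [ContinuousLinearMap.apply_apply, smul_apply, map_smulₛₗ, map_inv₀, map_natCast, h1]

theorem row_le {Ω : Type*} [MeasurableSpace Ω] {ν : Measure Ω} {T : Ω → X →L[ℂ] X} {f : Ω → X}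
    (hT : ∀ ξ, Integrable (fun ω => ‖star (T ω) ξ‖ ^ 2) ν)
    (h1 : ∀ ξ, ∫ ω, ‖star (T ω) ξ‖ ^ 2 ∂ν ≤ ‖ξ‖ ^ 2) (hf : Integrable (fun ω => ‖f ω‖ ^ 2) ν)
    (hi : Integrable (fun ω => T ω (f ω)) ν) :
    ‖∫ ω, T ω (f ω) ∂ν‖ ^ 2 ≤ ∫ ω, ‖f ω‖ ^ 2 ∂ν := by
  set η := ∫ ω, T ω (f ω) ∂ν with hη
  have h2 : ‖η‖ ^ 2 ≤ (∫ ω, ‖star (T ω) η‖ ^ 2 ∂ν) / 2 + (∫ ω, ‖f ω‖ ^ 2 ∂ν) / 2 := by
    rw [← inner_self_eq_norm_sq (𝕜 := ℂ), ← add_div, ← integral_add (hT _) hf, ← integral_div]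
    nth_rewrite 2 [hη]
    rw [← integral_inner hi]
    refine (RCLike.re_le_norm _).trans ((norm_integral_le_integral_norm _).trans
      (integral_mono_of_nonneg (ae_of_all _ fun ω => norm_nonneg _)
        (((hT _).add hf).div_const _) (ae_of_all _ fun ω => ?_)))
    simp only
    rw [← adjoint_inner_left, ← star_eq_adjoint]
    refine (norm_inner_le_norm _ _).trans ?_
    nlinarith [sq_nonneg (‖star (T ω) η‖ - ‖f ω‖)]
  linarith [h1 η]

end gen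

variable {G G' K : Type} [Group G] [TopologicalSpace G] [IsTopologicalGroup G]
  [LocallyCompactSpace G] [SecondCountableTopology G] [T2Space G] [MeasurableSpace G] [BorelSpace G]
  [Group G'] [TopologicalSpace G'] [IsTopologicalGroup G'] [LocallyCompactSpace G']
  [SecondCountableTopology G'] [T2Space G'] [MeasurableSpace G'] [BorelSpace G']
  [NormedAddCommGroup K] [InnerProductSpace ℂ K] [CompleteSpace K] {μ : Measure G}
  [μ.IsHaarMeasure] {μ' : Measure G'} [μ'.IsHaarMeasure] {W : Set (K →L[ℂ] K)}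
  {C : Cpl μ μ' W} {c : ℝ} (B : Bim C c) {x y la lb lα lβ : K →L[ℂ] K}

theorem M_of_comm (hx : C.t.M x) (h : ∀ T, Commute x T → Commute y T) : C.t.M y :=
  C.t.M_iff.2 fun T hT => h T (C.t.M_iff.1 hx T hT)

theorem M_pw (hx : C.t.M x) (u : ℂ) : C.t.M (pw x u) := M_of_comm hx fun _ h => comm_pw h u

theorem b_ext {ξ η : B.X} (h : ∀ i, B.co i ξ = B.co i η) : ξ = η := by
  have h1 := B.nrm (ξ - η)
  simp only [map_sub, h, sub_self, norm_zero, ne_eq, OfNat.ofNat_ne_zero, not_false_eq_true,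
    zero_pow] at h1
  exact sub_eq_zero.1 (norm_eq_zero.1 (pow_eq_zero_iff two_ne_zero |>.1 (h1.unique hasSum_zero)))

theorem b_mul (hx : C.t.M x) (hy : C.t.M y) (ξ : B.X) : B.l (x * y) ξ = B.l x (B.l y ξ) :=
  b_ext B fun i => by rw [B.co_l _ (hx.mul hy), B.co_l _ hx, B.co_l _ hy]; rfl

theorem b_one (ξ : B.X) : B.l 1 ξ = ξ := b_ext B fun i => B.co_l _ C.t.M_one i ξ

theorem b_norm (hx : C.t.M x) (ξ : B.X) : ‖B.l x ξ‖ ≤ ‖x‖ * ‖ξ‖ := by
  refine (abs_le_of_sq_le_sq' ?_ (by positivity)).2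
  rw [mul_pow]
  refine hasSum_le (fun i => ?_) (B.nrm _) ((B.nrm ξ).mul_left _)
  rw [B.co_l _ hx, ← mul_pow]
  exact pow_le_pow_left₀ (norm_nonneg _) (x.le_opNorm _) 2

theorem b_pw (hx : C.t.M x) (u : ℂ) (ξ : B.X) : B.l (pw x u) ξ = pw (B.l x) u ξ :=
  b_ext B fun i => by
    rw [B.co_l _ (M_pw hx u)]
    exact (exp_inter (B.co i) (fun ξ => by simp only [smul_apply, map_smul, B.co_l _ hx]) ξ).symm

/-- the right action -/
noncomputable def rt (x : K →L[ℂ] K) : B.X →L[ℂ] B.X := B.J.comp ((B.l x).comp B.J)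

theorem rt_apply (ξ : B.X) : rt B x ξ = B.J (B.l x (B.J ξ)) := rfl

theorem rt_pw (hx : C.t.M x) (u : ℂ) (ξ : B.X) :
    rt B (pw x (starRingEnd ℂ u)) ξ = pw (rt B x) u ξ := by
  rw [rt_apply, b_pw B hx]
  refine (exp_inter B.J (A' := u • rt B x) (fun ξ => ?_) _).trans (congrArg _ (B.JJ ξ))
  simp only [smul_apply, map_smulₛₗ, Complex.conj_conj, rt_apply, B.JJ]

include B in
theorem b_c : 0 ≤ c := zero_le_one.trans B.one_le

variable {P : Type} [MeasurableSpace P] {p : Measure P} [IsProbabilityMeasure p] {γ : P → G}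
  {z : P → B.X}

theorem aesm_G {P : Type*} [MeasurableSpace P] {p : Measure P} {γ : P → G} (hγ : Measurable γ) :
    AEStronglyMeasurable γ p := hγ.aestronglyMeasurable

theorem b_int (hγ : Measurable γ) (hz : AEStronglyMeasurable z p) {D : ℝ} (hD : ∀ q, ‖z q‖ ≤ D)
    (T : B.X →L[ℂ] B.X) : Integrable (fun q => B.σ (γ q) (T (z q))) p ∧
      ∀ q, ‖B.σ (γ q) (T (z q))‖ ≤ c * (‖T‖ * D) := by
  have h : ∀ q, ‖B.σ (γ q) (T (z q))‖ ≤ c * (‖T‖ * D) := fun q => (B.nσ _ _).trans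
    (mul_le_mul_of_nonneg_left ((T.le_opNorm _).trans
      (mul_le_mul_of_nonneg_left (hD q) (norm_nonneg _))) (b_c B))
  exact ⟨(integrable_const _).mono' (aesm_field (fun ξ => (B.cσ ξ).comp_aestronglyMeasurable
    (aesm_G hγ)) (T.continuous.comp_aestronglyMeasurable hz)) (ae_of_all _ h), h⟩

theorem sf_pi (C : Cpl μ μ' W) (hγ : Measurable γ) : (Sf p fun q => C.s.π (γ q)) ∧
    Sf p fun q => C.s.π (γ q)⁻¹ :=
  ⟨⟨fun ξ => (C.s.cont ξ).comp_aestronglyMeasurable (aesm_G hγ), 1, fun _ => C.s.norm_π_le _⟩,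
    fun ξ => (C.s.cont ξ).comp_aestronglyMeasurable (aesm_G hγ.inv), 1, fun _ => C.s.norm_π_le _⟩

/-- the integrand of the analytic family -/
noncomputable def Tq (la lb lα lβ : K →L[ℂ] K) (u : ℂ) (g : G) (ξ : B.X) : B.X :=
  B.l (pw lα (-u)) (rt B (pw lβ (starRingEnd ℂ u))
    (B.σ g (B.l (pw la u) (rt B (pw lb (starRingEnd ℂ (-u))) ξ))))

theorem J_Tq (ha : C.t.M la) (hb : C.t.M lb) (hα : C.t.M lα) (hβ : C.t.M lβ) (u : ℂ) (g : G)
    (ξ : B.X) : Tq B la lb lα lβ u g ξ =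
      B.J (Tq B lb la lβ lα (-starRingEnd ℂ u) g (B.J ξ)) := by
  simp only [Tq, rt_apply, map_neg, neg_neg, Complex.conj_conj]
  rw [B.lr _ _ (M_pw hβ _) (M_pw hα _), B.JJ, B.lr _ _ (M_pw hb _) (M_pw ha _), B.σJ]

theorem int_Tq (hγ : Measurable γ) (hz : AEStronglyMeasurable z p) {D : ℝ} (hD : ∀ q, ‖z q‖ ≤ D)
    (u : ℂ) : Integrable (fun q => Tq B la lb lα lβ u (γ q) (z q)) p :=
  (B.l _).integrable_comp ((rt B _).integrable_comp
    (b_int B hγ hz hD (B.l (pw la u) * rt B (pw lb (starRingEnd ℂ (-u))))).1)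

theorem lineB (hγ : Measurable γ) (hz : AEStronglyMeasurable z p) {D : ℝ} (hD : ∀ q, ‖z q‖ ≤ D)
    (ha : C.t.M la) (hb : C.t.M lb) (hα : C.t.M lα) (hβ : C.t.M lβ) (sa : IsSelfAdjoint la)
    (sb : IsSelfAdjoint lb) (sα : IsSelfAdjoint lα) (sβ : IsSelfAdjoint lβ)
    (ra : Row p (fun q => C.s.π (γ q)⁻¹) la lα) (rb : Row p (fun q => C.s.π (γ q)⁻¹) lb lβ)
    (hR : ∀ q, B.Dom (B.J (z q)) (pw lb 1)) {u : ℂ} (hu : u.re = 1 / 2) :
    ‖∫ q, Tq B la lb lα lβ u (γ q) (z q) ∂p‖ ≤ c ^ 2 * ‖pw lβ 1 C.t.Ω‖ := by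
  have hc := b_c B
  obtain ⟨hU, hV⟩ := sf_pi (p := p) C hγ
  set u' := starRingEnd ℂ u with hu'
  have hu2 : u'.re = 1 / 2 := hu
  set ξ : P → B.X := fun q => rt B (pw lβ u') (B.σ (γ q) (rt B (pw lb (-u')) (z q))) with hξ
  have hi := (b_int B hγ hz hD (rt B (pw lb (-u')))).1
  have h1 : ∀ q, ‖ξ q‖ ≤ c ^ 2 * ‖pw lb (1 / 2) (C.s.π (γ q)⁻¹ (pw lβ u C.t.Ω))‖ := by
    intro q
    have m1 := C.M_σ (M_pw hβ u') (γ q)⁻¹
    have e1 : B.l (pw lβ u') (B.J (B.σ (γ q) (rt B (pw lb (-u')) (z q)))) = B.σ (γ q)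
        (B.l (sg C (γ q)⁻¹ (pw lβ u') * pw lb (-u')) (B.J (z q))) := by
      rw [b_mul B m1 (M_pw hb _), B.σl _ _ m1, sg, C.s.conj_conj, mul_inv_cancel, inv_one,
        map_one, one_mul, mul_one, rt_apply, B.σJ, B.JJ]
    have e2 : ‖pw lb 1 (adjoint (sg C (γ q)⁻¹ (pw lβ u') * pw lb (-u')) C.t.Ω)‖ =
        ‖pw lb (1 / 2) (C.s.π (γ q)⁻¹ (pw lβ u C.t.Ω))‖ := by
      have h2 := C.norm_s_Ω ((C.M_σ (M_pw hb (1 - u)) (γ q)).mul (M_pw hβ u)) (γ q)
      simp only [mul_ap, C.s.norm_π] at h2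
      rw [← star_eq_adjoint, star_mul, star_pw sb, star_eq_adjoint, C.s.conj_adj, ← star_eq_adjoint,
        star_pw sβ, hu', map_neg, Complex.conj_conj, inv_inv, mul_ap, pw_pw, ← sub_eq_add_neg,
        norm_pw sb (u := 1 / 2) (v := 1 - u) (by simp [hu]; norm_num), ← h2]
      rfl
    simp only [hξ]
    rw [rt_apply]
    refine (B.nJ _).trans ?_
    rw [e1, ← e2, sq, mul_assoc c c]
    exact mul_le_mul_of_nonneg_left ((B.nσ _ _).trans
      (mul_le_mul_of_nonneg_left (hR q _ (m1.mul (M_pw hb _))) hc)) hc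
  have i1 := ((Sf.const (pw lb (1 / 2))).mul hV).int_sq (pw lβ u C.t.Ω)
  have i2 : Integrable (fun q => ‖ξ q‖ ^ 2) p := by
    refine (i1.const_mul ((c ^ 2) ^ 2)).mono'
      (((rt B _).integrable_comp hi).aestronglyMeasurable.norm.pow 2) (ae_of_all _ fun q => ?_)
    rw [norm_pow, norm_norm, ← mul_pow]
    exact pow_le_pow_left₀ (norm_nonneg _) (h1 q) 2
  have h2 : ∫ q, ‖ξ q‖ ^ 2 ∂p ≤ (c ^ 2 * ‖pw lβ 1 C.t.Ω‖) ^ 2 := by
    have h3 := rb (pw lβ u C.t.Ω)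
    rw [pw_pw, norm_pw sβ (v := 1) (by simp [hu]; norm_num)] at h3
    refine (integral_mono i2 (i1.const_mul ((c ^ 2) ^ 2)) fun q => ?_).trans ?_
    · simp only [← mul_pow]
      exact pow_le_pow_left₀ (norm_nonneg _) (h1 q) 2
    · rw [integral_const_mul, mul_pow]
      exact mul_le_mul_of_nonneg_left h3 (by positivity)
  have e : ∀ i q, B.co i (Tq B la lb lα lβ u (γ q) (z q)) =
      (pw lα (-u) * sg C (γ q) (pw la u)) (B.co i (ξ q)) := by
    intro i q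
    have m1 := C.M_σ (M_pw ha u) (γ q)
    rw [Tq, B.co_l _ (M_pw hα _), B.σl _ _ (M_pw ha u), rt_apply, ← B.lr _ _ m1 (M_pw hβ _),
      B.co_l _ m1, map_neg]
    rfl
  have e2 : ∀ q η, ‖star (pw lα (-u) * sg C (γ q) (pw la u)) η‖ =
      ‖pw la (1 / 2) (C.s.π (γ q)⁻¹ (pw lα (-u') η))‖ := by
    intro q η
    rw [star_mul, star_pw sα, star_eq_adjoint, C.s.conj_adj, ← star_eq_adjoint, star_pw sa,
      map_neg, ← norm_pw sa (u := u') (by simp [hu2])]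
    exact C.s.norm_π _ _
  have i3 := int_Tq B (la := la) (lb := lb) (lα := lα) (lβ := lβ) hγ hz hD u
  have i4 : ∀ i, Integrable (fun q => ‖B.co i (ξ q)‖ ^ 2) p := fun i =>
    i2.mono' (((B.co i).integrable_comp
      ((rt B _).integrable_comp hi)).aestronglyMeasurable.norm.pow 2) (ae_of_all _ fun q => by
      rw [norm_pow, norm_norm]
      exact le_hasSum (B.nrm _) i fun _ _ => sq_nonneg _)
  refine (abs_le_of_sq_le_sq' (le_trans ?_ h2) (by positivity)).2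
  refine (B.nrm _).tsum_eq ▸ (B.nrm _).summable.tsum_le_of_sum_le fun s => ?_
  refine le_trans (Finset.sum_le_sum (g := fun i => ∫ q, ‖B.co i (ξ q)‖ ^ 2 ∂p) fun i _ => ?_) ?_
  · have i5 := (B.co i).integrable_comp i3
    rw [← (B.co i).integral_comp_comm i3]
    simp only [e] at i5 ⊢
    refine row_le (fun η => ?_) (fun η => ?_) (i4 i) i5
    · simp only [e2]
      exact ((Sf.const (pw la (1 / 2))).mul hV).int_sq _
    · simp only [e2]
      refine (ra _).trans_eq ?_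
      rw [pw_pw, norm_pw sα (v := 0) (by simp [hu2]), pw_zero]
      rfl
  · rw [← integral_finset_sum _ fun i _ => i4 i]
    exact integral_mono (integrable_finset_sum _ fun i _ => i4 i) i2 fun q =>
      sum_le_hasSum s (fun _ _ => sq_nonneg _) (B.nrm _)

theorem bdd_strip {E : Type*} [NormedAddCommGroup E] {f : ℂ → E} {D : ℝ}
    (h : ∀ u : ℂ, |u.re| ≤ 1 → ‖f u‖ ≤ D) : BddAbove ((norm ∘ f) ''
      Complex.HadamardThreeLines.verticalClosedStrip (-(1 / 2)) (1 / 2)) :=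
  ⟨D, by
    rintro _ ⟨u, hu, rfl⟩
    exact h u (abs_le.2 ⟨by linarith [hu.1], by linarith [hu.2]⟩)⟩

theorem singB_log (hγ : Measurable γ) (hz : AEStronglyMeasurable z p) {D : ℝ}
    (hD : ∀ q, ‖z q‖ ≤ D) (ha : C.t.M la) (hb : C.t.M lb) (hα : C.t.M lα) (hβ : C.t.M lβ)
    (sa : IsSelfAdjoint la) (sb : IsSelfAdjoint lb) (sα : IsSelfAdjoint lα)
    (sβ : IsSelfAdjoint lβ) (ra : Row p (fun q => C.s.π (γ q)⁻¹) la lα)
    (rb : Row p (fun q => C.s.π (γ q)⁻¹) lb lβ) (hL : ∀ q, B.Dom (z q) (pw la 1))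
    (hR : ∀ q, B.Dom (B.J (z q)) (pw lb 1)) :
    ‖∫ q, B.σ (γ q) (z q) ∂p‖ ^ 2 ≤ c ^ 5 * (‖pw lα 1 C.t.Ω‖ * ‖pw lβ 1 C.t.Ω‖) := by
  have hc := b_c B
  have k := b_int B hγ hz hD
  have kb : ∀ T : B.X →L[ℂ] B.X, ‖∫ q, B.σ (γ q) (T (z q)) ∂p‖ ≤ c * D * ‖T‖ := fun T =>
    (norm_integral_le_of_norm_le_const (ae_of_all _ (k T).2)).trans_eq (by simp; ring)
  let Φ : (B.X →L[ℂ] B.X) →L[ℂ] B.X := LinearMap.mkContinuous
    { toFun := fun T => ∫ q, B.σ (γ q) (T (z q)) ∂p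
      map_add' := fun S T => by
        simp only [add_apply, map_add]; exact integral_add (k S).1 (k T).1
      map_smul' := fun t T => by simp only [smul_apply, map_smul]; exact integral_smul t _ } _ kb
  set F : ℂ → B.X := fun u => ∫ q, Tq B la lb lα lβ u (γ q) (z q) ∂p with hF
  have e : ∀ u, F u = pw (B.l lα) (-u) (pw (rt B lβ) u
      (Φ (pw (B.l la) u * pw (rt B lb) (-u)))) := by
    intro u
    simp only [hF, Tq, b_pw B hα, b_pw B ha, rt_pw B hβ, rt_pw B hb]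
    have i1 := (k (pw (B.l la) u * pw (rt B lb) (-u))).1
    exact ((pw (B.l lα) (-u)).integral_comp_comm ((pw (rt B lβ) u).integrable_comp i1)).trans
      (congrArg _ ((pw (rt B lβ) u).integral_comp_comm i1))
  have hd : Differentiable ℂ F := by
    rw [funext e]
    exact (diff_neg _).clm_apply (diff_pw.clm_apply
      (Φ.differentiable.comp (diff_pw.mul (diff_neg _))))
  obtain ⟨c1, p1, b1⟩ := bdd_pw sa
  obtain ⟨c2, p2, b2⟩ := bdd_pw sb
  obtain ⟨c3, p3, b3⟩ := bdd_pw sα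
  obtain ⟨c4, p4, b4⟩ := bdd_pw sβ
  have nl : ∀ {x : K →L[ℂ] K} {d d' : ℝ} {ξ : B.X}, C.t.M x → ‖x‖ ≤ d → ‖ξ‖ ≤ d' →
      ‖B.l x ξ‖ ≤ d * d' := fun hx h1 h2 => (b_norm B hx _).trans
    (mul_le_mul h1 h2 (norm_nonneg _) ((norm_nonneg _).trans h1))
  have nr : ∀ {x : K →L[ℂ] K} {d d' : ℝ} {ξ : B.X}, C.t.M x → ‖x‖ ≤ d → ‖ξ‖ ≤ d' →
      ‖rt B x ξ‖ ≤ c * (d * (c * d')) := fun hx h1 h2 => by
    rw [rt_apply]
    exact (B.nJ _).trans (mul_le_mul_of_nonneg_left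
      (nl hx h1 ((B.nJ _).trans (mul_le_mul_of_nonneg_left h2 hc))) hc)
  have h := Complex.HadamardThreeLines.norm_le_interp_of_mem_verticalClosedStrip' (f := F) (z := 0)
    (a := c * (c ^ 2 * ‖pw lα 1 C.t.Ω‖)) (b := c ^ 2 * ‖pw lβ 1 C.t.Ω‖) (l := -(1 / 2))
    (u := 1 / 2) (by norm_num) ⟨by norm_num, by norm_num⟩ hd.diffContOnCl
    (bdd_strip (D := c3 * (c * (c4 * (c * (c * (c1 * (c * (c2 * (c * D))))))))) fun u hu => ?_)
    (fun u hu => ?_) fun u hu => lineB B hγ hz hD ha hb hα hβ sa sb sα sβ ra rb hR hu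
  · have h2 := pow_le_pow_left₀ (norm_nonneg _) h 2
    rw [mul_pow, ← Real.rpow_two (_ ^ _), ← Real.rpow_two (_ ^ _), ← Real.rpow_mul (by positivity),
      ← Real.rpow_mul (by positivity), e] at h2
    norm_num at h2
    simp only [pw_zero, mul_one, one_apply] at h2
    exact h2.trans_eq (by ring)
  · have h2 : |(-u).re| ≤ 1 := by rwa [Complex.neg_re, abs_neg]
    refine (norm_integral_le_of_norm_le_const (ae_of_all _ fun q => nl (M_pw hα _) (b3 _ h2)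
      (nr (M_pw hβ _) (b4 (starRingEnd ℂ u) hu) ((B.nσ _ _).trans (mul_le_mul_of_nonneg_left
      (nl (M_pw ha _) (b1 _ hu) (nr (M_pw hb _) (b2 (starRingEnd ℂ (-u)) h2) (hD q)))
      hc))))).trans_eq (by simp)
  · have hz' := B.J.continuous.comp_aestronglyMeasurable hz
    have hD' : ∀ q, ‖B.J (z q)‖ ≤ c * D := fun q =>
      (B.nJ _).trans (mul_le_mul_of_nonneg_left (hD q) hc)
    simp only [hF, J_Tq B ha hb hα hβ u]
    rw [B.J.integral_comp_commSL (by simp) (int_Tq B hγ hz' hD' _)]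
    refine (B.nJ _).trans (mul_le_mul_of_nonneg_left (lineB B hγ hz' hD' hb ha hβ hα sb sa sβ sα
      rb ra (fun q => by rw [B.JJ]; exact hL q) ?_) hc)
    rw [Complex.neg_re, Complex.conj_re, show u.re = -(1 / 2) from hu, neg_neg]

theorem M_sI (hγ : Measurable γ) (hx : C.t.M x) :
    C.t.M (sI p fun q => C.s.π (γ q) * x * C.s.π (γ q)⁻¹) := by
  obtain ⟨hU, hV⟩ := sf_pi (p := p) C hγ
  have k := (hU.mul (Sf.const x)).mul hV
  refine C.t.M_iff.2 fun T hT => ?_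
  have h1 := k.mul_sI 1 T
  have h2 := k.mul_sI T 1
  simp only [one_mul, mul_one] at h1 h2
  rw [h1, h2]
  exact congrArg _ (funext fun q => C.t.M_iff.1 (C.M_σ hx _) T hT)

/-- **SING** -/
theorem singB (C : Cpl μ μ' W) : SING C := by
  refine fun c => ⟨|c| ^ 5, by positivity, fun B P _ p _ γ z a b hγ hz ha hb pa pb hL hR => ?_⟩
  rw [abs_of_nonneg (b_c B)]
  have hc := b_c B
  obtain ⟨hU, hV⟩ := sf_pi (p := p) C hγ
  have hUV : ∀ q, star (C.s.π (γ q)) = C.s.π (γ q)⁻¹ := fun q => C.s.star_π _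
  have h1 : ∀ q ξ, ‖C.s.π (γ q)⁻¹ ξ‖ ≤ ‖ξ‖ := fun q ξ => (C.s.norm_π _ _).le
  have hD : ∀ q, ‖z q‖ ≤ ‖a (adjoint (1 : K →L[ℂ] K) C.t.Ω)‖ := fun q => by
    have := hL q 1 C.t.M_one
    rwa [b_one] at this
  have hf : Continuous fun ε : ℝ => c ^ 5 * ((‖av C p γ a‖ + ε * (p.real Set.univ + 1) * ‖C.t.Ω‖) *
      (‖av C p γ b‖ + ε * (p.real Set.univ + 1) * ‖C.t.Ω‖)) := by fun_prop
  have h2 := (hf.tendsto 0).mono_left (nhdsWithin_le_nhds (s := Set.Ioi 0))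
  simp only [zero_mul, add_zero] at h2
  refine ge_of_tendsto h2 (eventually_mem_nhdsWithin.mono fun ε hε => ?_)
  obtain ⟨la, lα, a1, a2, a3, a4, a5, a6, a7⟩ := exists_row hU hV hUV h1 pa hε
  obtain ⟨lb, lβ, b1, b2, b3, b4, b5, b6, b7⟩ := exists_row hU hV hUV h1 pb hε
  refine (singB_log B hγ hz hD (M_of_comm ha a3) (M_of_comm hb b3) (M_of_comm (M_sI hγ ha) a4)
    (M_of_comm (M_sI hγ hb) b4) a1 b1 a2 b2 a5 b5
    (fun q x hx => (hL q x hx).trans (abs_le_of_sq_le_sq' (a6 _) (norm_nonneg _)).2)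
    fun q x hx => (hR q x hx).trans (abs_le_of_sq_le_sq' (b6 _) (norm_nonneg _)).2).trans ?_
  have c1 := a7 C.t.Ω
  have c2 := b7 C.t.Ω
  rw [((hU.mul (Sf.const _)).mul hV).sI_apply] at c1 c2
  exact mul_le_mul_of_nonneg_left (mul_le_mul c1 c2 (norm_nonneg _) ((norm_nonneg _).trans c1))
    (by positivity)

end Vale.Agent.P092RK
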