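import Vale.Agent.P092RK.Three
import Vale.Agent.P092RK.Rate
import Vale.Agent.P092.H19.Re.Sl2

/-!
P092, rank one, block K (helper93): the Cartan projection of the long root group; moments of the
Gaussian measures.
-/

set_option linter.all false

open Matrix MeasureTheory
open scoped InnerProductSpace

namespace Vale.Agent.P092RK

open Vale.Agent.P092.H793.Re Vale.Agent.P092RG

attribute [local instance] Matrix.linftyOpNormedRing Matrix.linftyOpNormedAlgebra

variable {n : ℕ} {G : Type} [Group G] [TopologicalSpace G] {ρ : G →* SLn n} {w : Fin n → ℝ}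

theorem Ad_a_apply (h : R1 ρ w) (s : ℝ) (X : Mat n) (a b : Fin n) :
    Ad ρ (h.a s) X a b = Real.exp (s * (w a - w b)) * X a b := by
  rw [Ad, ← h.a_neg, h.a_val, h.a_val, Matrix.mul_diagonal, Matrix.diagonal_mul, mul_right_comm,
    ← Real.exp_add]
  congr 2
  ring

theorem ip_Ad_K (h : R1 ρ w) {κ : G} (hκ : κ ∈ h.K) (X Y : Mat n) :
    ip (Ad ρ κ X) (Ad ρ κ Y) = ip X Y := by
  rw [h.Ad_K hκ, h.Ad_K hκ, ip_ort (h.K_tr_mul hκ)]

theorem Ad_K_tr (h : R1 ρ w) {κ : G} (hκ : κ ∈ h.K) (X : Mat n) : (Ad ρ κ X)ᵀ = Ad ρ κ Xᵀ := by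
  rw [h.Ad_K hκ, h.Ad_K hκ]
  simp only [transpose_mul, transpose_transpose, Matrix.mul_assoc]

theorem Ad_br (g : G) (X Y : Mat n) : Ad ρ g (br X Y) = br (Ad ρ g X) (Ad ρ g Y) := by
  rw [br, br, Ad_sub, Ad_mm, Ad_mm]

theorem br_H_apply (X : Mat n) (a b : Fin n) : br (diagonal w) X a b = (w a - w b) * X a b := by
  rw [br, Matrix.sub_apply, Matrix.mul_diagonal, Matrix.diagonal_mul]; ring

theorem ip_Ad_a (h : R1 ρ w) (s : ℝ) {R : Mat n} (hs : Rᵀ = -R)
    (h4 : br (diagonal w) (br (diagonal w) R) = (4 : ℝ) • R) :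
    ip (Ad ρ (h.a s) R) (Ad ρ (h.a s) R) = Real.cosh (4 * s) * ip R R := by
  have h1 : ∀ a b, R b a = -R a b := fun a b => congrFun (congrFun hs a) b
  have h2 : ip (Ad ρ (h.a s) R) (Ad ρ (h.a s) R) =
      ∑ a, ∑ b, Real.exp (2 * s * (w a - w b)) * (R a b * R a b) := by
    rw [ip_eq]
    refine Finset.sum_congr rfl fun a _ => Finset.sum_congr rfl fun b _ => ?_
    rw [Ad_a_apply, mul_mul_mul_comm, ← Real.exp_add]
    congr 2
    ring
  have h3 : ip (Ad ρ (h.a s) R) (Ad ρ (h.a s) R) =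
      ∑ a, ∑ b, Real.exp (-(2 * s * (w a - w b))) * (R a b * R a b) := by
    rw [h2, Finset.sum_comm]
    refine Finset.sum_congr rfl fun a _ => Finset.sum_congr rfl fun b _ => ?_
    rw [h1 a b, neg_mul_neg]
    congr 2
    ring
  refine mul_left_cancel₀ (two_ne_zero (α := ℝ)) ?_
  rw [two_mul]
  nth_rewrite 1 [h2]
  rw [h3, ip_eq, ← Finset.sum_add_distrib, ← mul_assoc, Finset.mul_sum]
  refine Finset.sum_congr rfl fun a _ => ?_
  rw [← Finset.sum_add_distrib, Finset.mul_sum]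
  refine Finset.sum_congr rfl fun b _ => ?_
  by_cases h0 : R a b = 0
  · simp [h0]
  · have h5 := congrFun (congrFun h4 a) b
    rw [br_H_apply, br_H_apply, Matrix.smul_apply, smul_eq_mul, ← mul_assoc] at h5
    have h6 := mul_right_cancel₀ h0 h5
    have h7 : (w a - w b - 2) * (w a - w b + 2) = 0 := by linarith
    rw [← add_mul, Real.cosh_eq]
    congr 1
    rcases mul_eq_zero.1 h7 with e | e
    · rw [show w a - w b = 2 by linarith, show 2 * s * 2 = 4 * s by ring]; ring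
    · rw [show w a - w b = -2 by linarith, show 2 * s * -2 = -(4 * s) by ring, neg_neg]; ring

theorem size' (h : R1 ρ w) {y : Mat n} (hy : y ∈ h.g 2) {κ κ' : G} (hκ : κ ∈ h.K) (hκ' : κ' ∈ h.K)
    {s : ℝ} (e : ex ρ y = κ * h.a s * κ') : 4 * Real.sinh s ^ 2 = cc w * ip y y := by
  have hH : Ad ρ (ex ρ y) (diagonal w) = diagonal w - (2 : ℝ) • y := by
    simpa using h.Ad_nn_H (h.g 1).zero_mem hy
  have hyt := h.tr_mem hy
  have o1 : ip (diagonal w) y = 0 := ip_wt (wt_diag w) hy.2 (by norm_num)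
  have o2 : ip (diagonal w) yᵀ = 0 := ip_wt (wt_diag w) hyt.2 (by norm_num)
  have o3 : ip y yᵀ = 0 := ip_wt hy.2 hyt.2 (by norm_num)
  have o4 : ip yᵀ yᵀ = ip y y := ip_tr y y
  have hp := h.h2_pos
  by_cases hs : s = 0
  · have h1 := ip_Ad_K h (h.K.mul_mem hκ hκ') (diagonal w) (diagonal w)
    rw [hs, h.a_zero, mul_one] at e
    rw [← e, hH] at h1
    simp only [ip_sub_left, ip_sub_right, ip_smul_left, ip_smul_right, ip_comm y, o1] at h1
    rw [hs, show ip y y = 0 by linarith]; simp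
  by_cases hy0 : y = 0
  · exfalso
    obtain ⟨a, ha⟩ := h.exists_top
    have h1 : h.a s ∈ h.K := by
      have : h.a s = κ⁻¹ * κ'⁻¹ := by
        rw [hy0, h.ex_zero] at e
        rw [eq_inv_mul_iff_mul_eq, ← mul_eq_one_iff_eq_inv, ← e]
      rw [this]; exact h.K.mul_mem (h.K.inv_mem hκ) (h.K.inv_mem hκ')
    have h2 := congrFun (congrFun (h.K_mul_tr h1) a) a
    rw [h.a_tr, h.a_val, diagonal_mul_diagonal, diagonal_apply_eq, Matrix.one_apply_eq,
      ← Real.exp_add, Real.exp_eq_one_iff, ha] at h2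
    exact hs ((mul_eq_zero.1 (by linarith : s * h.lam = 0)).resolve_right h.lam_pos.ne')
  set t := cc w * ip y y with ht
  have ht0 : 0 < t := mul_pos (cc_pos h) (ip_pos hy0)
  have hc : t * ip (diagonal w) (diagonal w) = 2 * ip y y := by rw [ht, cc]; field_simp
  have b1 : y * yᵀ - yᵀ * y = t • diagonal w := by rw [h.sl2 hy, ht, cc]; congr 1; ring
  have b2 := hy.2.comm
  have b3 := hyt.2.comm
  have hY : Ad ρ (ex ρ y) y = y := by rw [h.Ad_ex hy.1 (by simp)]; simp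
  have hT : Ad ρ (ex ρ y) yᵀ = yᵀ + t • diagonal w - t • y := by
    have tr : Vale.Agent.P092.H19.Re.Trip y (t⁻¹ • yᵀ) (diagonal w) :=
      ⟨by rw [Matrix.mul_smul, Matrix.smul_mul, ← smul_sub, b1, smul_smul, inv_mul_cancel₀ ht0.ne',
          one_smul], b2,
        by rw [Matrix.mul_smul, Matrix.smul_mul, ← smul_sub, b3, smul_comm, neg_smul]⟩
    have h1 := congrArg (fun M => t • (NormedSpace.exp y * M)) (tr.c1 1)
    simp only [neg_smul, one_smul, one_pow] at h1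
    have h0 : NormedSpace.exp y * NormedSpace.exp (-y) = 1 := by
      rw [← Matrix.exp_add_of_commute _ _ (Commute.refl y).neg_right, add_neg_cancel,
        NormedSpace.exp_zero]
    rw [← Matrix.mul_assoc, ← Matrix.mul_assoc]
      at h1
    erw [h0] at h1
    rw [Matrix.one_mul, Matrix.mul_smul, Matrix.smul_mul, smul_smul,
      mul_inv_cancel₀ ht0.ne', one_smul, smul_sub, smul_add, smul_smul, mul_inv_cancel₀ ht0.ne',
      one_smul] at h1
    rw [Ad, ← h.ex_neg hy.1, ex_val hy.1, ex_val (lie_neg hy.1)]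
    exact h1
  set W := (2 : ℝ) • (y + yᵀ) - t • diagonal w with hW
  have hWs : Wᵀ = W := by simp [hW, transpose_sub, transpose_add, add_comm]
  have hWl : Lie ρ W := h.lie_sub' (lie_smul _ (h.lie_add' hy.1 hyt.1)) (lie_smul _ h.lie)
  have h1 : Ad ρ (ex ρ y) W = (2 : ℝ) • (y + yᵀ) + t • diagonal w := by
    rw [hW, Ad_sub, Ad_smul, Ad_smul, Ad_add, hY, hT, hH]; module
  have h2 : (Ad ρ (h.a s) (Ad ρ κ' W))ᵀ = Ad ρ (h.a s) (Ad ρ κ' W) := by
    have : Ad ρ (h.a s) (Ad ρ κ' W) = Ad ρ κ⁻¹ (Ad ρ (ex ρ y) W) := by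
      rw [e, Ad_mul, Ad_mul, Ad_inv_Ad]
    rw [this, Ad_K_tr h (h.K.inv_mem hκ), h1]
    simp [transpose_add, add_comm]
  have h3 : (Ad ρ κ' W)ᵀ = Ad ρ κ' W := by rw [Ad_K_tr h hκ', hWs]
  have h4 : Ad ρ κ' W ∈ h.g 0 := by
    refine ⟨lie_Ad _ hWl, fun a b h0 => ?_⟩
    have h5 := congrFun (congrFun h2 a) b
    have h6 : Ad ρ κ' W b a = Ad ρ κ' W a b := congrFun (congrFun h3 a) b
    rw [transpose_apply, Ad_a_apply, Ad_a_apply, h6] at h5
    have h7 := Real.exp_injective (mul_right_cancel₀ h0 h5)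
    exact (mul_eq_zero.1 (by linarith : s * (w a - w b) = 0)).resolve_left hs
  obtain ⟨μ, hμ⟩ : ∃ μ : ℝ, Ad ρ κ' W = μ • diagonal w := ⟨_, h.sym_zero h4 h3⟩
  have h5 : μ ^ 2 = t ^ 2 + 4 * t := by
    have h6 := ip_Ad_K h hκ' W W
    rw [hμ, hW] at h6
    simp only [ip_sub_left, ip_sub_right, ip_add_left, ip_add_right, ip_smul_left, ip_smul_right,
      ip_comm y (diagonal w), ip_comm yᵀ (diagonal w), ip_comm yᵀ y, o1, o2, o3, o4] at h6
    refine mul_right_cancel₀ hp.ne' ?_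
    linear_combination h6 - 4 * hc
  have h6 : br W (br W (y - yᵀ)) = (4 * μ ^ 2) • (y - yᵀ) := by
    have c1 : br W (y - yᵀ) = (-2 * t) • (y + yᵀ) - (4 * t) • diagonal w := by
      simp only [hW, br, Matrix.sub_mul, Matrix.mul_sub, Matrix.add_mul, Matrix.mul_add,
        Matrix.smul_mul, Matrix.mul_smul]
      linear_combination (norm := module) (-4 : ℝ) • b1 - t • b2 + t • b3
    rw [c1, h5]
    simp only [hW, br, Matrix.sub_mul, Matrix.mul_sub, Matrix.add_mul, Matrix.mul_add,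
      Matrix.smul_mul, Matrix.mul_smul]
    linear_combination (norm := module) (2 * t ^ 2 + 8 * t) • b2 + (2 * t ^ 2 + 8 * t) • b3
  have h7 : br (diagonal w) (br (diagonal w) (Ad ρ κ' (y - yᵀ))) = (4 : ℝ) • Ad ρ κ' (y - yᵀ) := by
    have c1 := congrArg (Ad ρ κ') h6
    rw [Ad_br, Ad_br, hμ, smul_br, smul_br, br_smul, smul_smul, Ad_smul, ← sq, mul_comm,
      mul_smul] at c1
    exact smul_right_injective _ (by rw [h5]; positivity) c1
  have h8 := ip_Ad_a h s (by rw [Ad_K_tr h hκ', ← Ad_neg]; simp) h7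
  rw [ip_Ad_K h hκ', ← ip_Ad_K h hκ, ← Ad_mul, ← Ad_mul, ← e, Ad_sub, hY, hT] at h8
  simp only [ip_sub_left, ip_sub_right, ip_add_left, ip_add_right, ip_smul_left, ip_smul_right,
    ip_comm y (diagonal w), ip_comm yᵀ (diagonal w), ip_comm yᵀ y, o1, o2, o3, o4] at h8
  have h9 : Real.cosh (4 * s) = 1 + 2 * t + t ^ 2 / 2 := by
    refine mul_right_cancel₀ (ip_pos hy0).ne' ?_
    linear_combination -h8 / 2 + t / 2 * hc
  rw [show 4 * s = 2 * (2 * s) by ring, Real.cosh_two_mul, Real.sinh_sq, Real.cosh_two_mul,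
    Real.cosh_sq] at h9
  have h10 : (4 * Real.sinh s ^ 2 - t) * (4 + 4 * Real.sinh s ^ 2 + t) = 0 := by
    linear_combination 2 * h9
  exact sub_eq_zero.1 ((mul_eq_zero.1 h10).resolve_right (by positivity))

/-- the Cartan projection of the long root group -/
theorem size (h : R1 ρ w) (y : Eu h.m2) {κ κ' : G} (hκ : κ ∈ h.K) (hκ' : κ' ∈ h.K) {s : ℝ}
    (hs : 0 ≤ s) (e : nz h y = κ * h.a s * κ') : 2 * Real.sinh s = √(cc w) * ‖y‖ := by
  have h1 := size' h (emb_mem h y) hκ hκ' e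
  rw [ip_emb_self] at h1
  rw [← sq_eq_sq₀ (by have := Real.sinh_nonneg_iff.2 hs; positivity) (by positivity), mul_pow,
    mul_pow, Real.sq_sqrt (cc_pos h).le, ← h1]
  norm_num

/-- the radius of `nz h y` -/
noncomputable def rad (w : Fin n → ℝ) (t : ℝ) : ℝ := Real.arsinh (√(cc w) * t / 2)

theorem nz_kak (h : R1 ρ w) (y : Eu h.m2) :
    ∃ κ ∈ h.K, ∃ κ' ∈ h.K, nz h y = κ * h.a (rad w ‖y‖) * κ' := by
  obtain ⟨κ, hκ, κ', hκ', s, hs, e⟩ := h.kak (nz h y)
  refine ⟨κ, hκ, κ', hκ', ?_⟩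
  rw [rad, ← size h y hκ hκ' hs e, mul_div_cancel_left₀ _ two_ne_zero, Real.arsinh_sinh, e]

theorem rad_nonneg {t : ℝ} (ht : 0 ≤ t) : 0 ≤ rad w t :=
  Real.arsinh_nonneg_iff.2 (by positivity)

theorem rad_cont : Continuous (rad w) := Real.continuous_arsinh.comp (by fun_prop)

theorem exp_rad_le {t : ℝ} (ht : 0 ≤ t) : Real.exp (rad w t) ≤ 1 + √(cc w) * t := by
  have h1 : Real.exp (rad w t) - Real.exp (-rad w t) = √(cc w) * t := by
    have := Real.sinh_eq (rad w t)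
    rw [rad, Real.sinh_arsinh] at this
    rw [rad]; linarith
  have h2 : Real.exp (-rad w t) ≤ 1 := Real.exp_le_one_iff.2 (neg_nonpos.2 (rad_nonneg ht))
  linarith

theorem le_exp_rad (t : ℝ) : √(cc w) * t ≤ Real.exp (rad w t) := by
  have := Real.sinh_eq (rad w t)
  rw [rad, Real.sinh_arsinh] at this
  rw [rad]; linarith [Real.exp_pos (-Real.arsinh (√(cc w) * t / 2))]

section gauss

variable {m : ℕ}

theorem Z_two {a : ℝ} (ha : 0 < a) : Z m (2 * a) = 2 ^ ((m : ℝ) / 2) * Z m a := by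
  rw [Z_eq ha, Z_eq (by positivity), Real.mul_rpow (by norm_num) ha.le]; ring

/-- domination of the first moment by a wider Gaussian -/
theorem dom_ea {a : ℝ} (ha : 1 ≤ a) (y : Eu m) :
    (1 + ‖y‖) * (ea a y / Z m a) ≤ 4 * 2 ^ ((m : ℝ) / 2) * √a * (ea (2 * a) y / Z m (2 * a)) := by
  have ha0 : 0 < a := by linarith
  have hs : 1 ≤ √a := Real.one_le_sqrt.2 ha
  have hz := Z_pos (m := m) ha0
  have h1 := sq_ea_le ha0 y
  have h2 := ea_mono ha0 (by linarith : a ≤ 2 * a) y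
  have h3 := ea_pos a y
  have h4 : ‖y‖ * ea a y ≤ 3 * √a * ea (2 * a) y := by
    refine le_of_mul_le_mul_left ?_ (by positivity : 0 < 4 * √a)
    have e : √a * √a = a := Real.mul_self_sqrt ha0.le
    have h5 : 4 * √a * ‖y‖ ≤ ‖y‖ ^ 2 + 4 * a := by nlinarith [sq_nonneg (‖y‖ - 2 * √a)]
    calc _ = 4 * √a * ‖y‖ * ea a y := by ring
      _ ≤ (‖y‖ ^ 2 + 4 * a) * ea a y := by gcongr
      _ ≤ 12 * a * ea (2 * a) y := by nlinarith
      _ = 12 * (√a * √a) * ea (2 * a) y := by rw [e]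
      _ = _ := by ring
  rw [Z_two ha0, show 4 * 2 ^ ((m : ℝ) / 2) * √a * (ea (2 * a) y / (2 ^ ((m : ℝ) / 2) * Z m a)) =
    4 * √a * ea (2 * a) y / Z m a by field_simp, ← mul_div_assoc]
  refine div_le_div_of_nonneg_right ?_ hz.le
  nlinarith

theorem integrable_sq_gauE {a : ℝ} (ha : 0 < a) :
    Integrable (fun y : Eu m => ‖y‖ ^ 2) (gauE m a) := by
  rw [gauE, integrable_withDensity_iff_integrable_smul'
    ((ea_cont a).div_const _).measurable.ennreal_ofReal (ae_of_all _ fun _ => ENNReal.ofReal_lt_top)]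
  refine ((integrable_sq_ea ha).div_const (Z m a)).congr (ae_of_all _ fun y => ?_)
  simp only
  rw [ENNReal.toReal_ofReal (div_pos (ea_pos a y) (Z_pos ha)).le, smul_eq_mul]
  ring

theorem integral_sq_gauE {a : ℝ} (ha : 0 < a) : ∫ y : Eu m, ‖y‖ ^ 2 ∂gauE m a = 2 * a * m := by
  rw [integral_gauE ha, ← mul_div_cancel_right₀ (2 * a * m) (Z_pos (m := m) ha).ne', ← moment ha,
    ← integral_div]
  exact integral_congr_ae (ae_of_all _ fun y => by simp only [smul_eq_mul]; ring)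

end gauss

end Vale.Agent.P092RK
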