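import Vale.Agent.P092RK.Lie

/-!
P092, rank one, block K (helper93): the multiplicity of the long root is not two.
-/

set_option linter.all false

open Matrix
open scoped InnerProductSpace

namespace Vale.Agent.P092RK

open Vale.Agent.P092.H793.Re Vale.Agent.P092RG

variable {n : ℕ} {G : Type} [Group G] [TopologicalSpace G] {ρ : G →* SLn n} {w : Fin n → ℝ}

/-- the commutator -/
def br (A B : Mat n) : Mat n := A * B - B * A

theorem jac (A B C : Mat n) : br A (br B C) = br (br A B) C + br B (br A C) := by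
  unfold br; noncomm_ring

theorem jac' (A B C : Mat n) : br (br A B) C = br A (br B C) + br (br A C) B := by
  unfold br; noncomm_ring

theorem br_anti (A B : Mat n) : br A B = -br B A := by unfold br; rw [neg_sub]

theorem br_neg (A B : Mat n) : br A (-B) = -br A B := by unfold br; noncomm_ring

theorem br_zero (A : Mat n) : br A 0 = 0 := by simp [br]

theorem zero_br (A : Mat n) : br 0 A = 0 := by simp [br]

theorem smul_br (c : ℝ) (A B : Mat n) : br (c • A) B = c • br A B := by
  simp [br, smul_sub]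

theorem br_smul (c : ℝ) (A B : Mat n) : br A (c • B) = c • br A B := by
  simp [br, smul_sub]

theorem ip_Jy_skew (y A B : Mat n) : ip (Jy y A) B = -ip A (Jy y B) := by
  rw [ip_comm A, ip_Jy, ip_Jy, neg_neg, ← ip_neg_right, neg_sub]

theorem skew_br (h : R1 ρ w) {X U : Mat n} (hX : X ∈ h.g 1) (hU : U ∈ h.g 1) (h0 : ip X U = 0) :
    br U Xᵀ = -br X Uᵀ := by
  have := skew_of_ort h hX hU h0
  simpa only [br, transpose_sub, transpose_mul, transpose_transpose] using this

theorem triv (h : R1 ρ w) {X U y : Mat n} (hX : X ∈ h.g 1) (hU : U ∈ h.g 1) (hy : y ∈ h.g 2)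
    (h1 : ip X X = 1) (h0 : ip X U = 0) (hc : br X U = 0) : br X (Jy y U) = 0 := by
  have hA := Jy_mem h hy hX
  have eA : Jy y X = br y Xᵀ := rfl
  have eB : Jy y U = br y Uᵀ := rfl
  set A := Jy y X
  set B := Jy y U
  set M := br X Uᵀ with hM
  have cX : br X y = 0 := sub_eq_zero.2 (comm21 h hy hX).symm
  have cU : br U y = 0 := sub_eq_zero.2 (comm21 h hy hU).symm
  have ct : br Uᵀ Xᵀ = 0 := by
    have := congrArg transpose hc
    simpa only [br, transpose_sub, transpose_mul, transpose_zero] using this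
  have e1 : br U Xᵀ = -M := skew_br h hX hU h0
  have e2 : br M Xᵀ = -(cc w / 2) • Uᵀ := by
    have h2 : br X Xᵀ = _ := h.sl2 hX
    have h3 : br (diagonal w) Uᵀ = _ := (h.tr_mem hU).2.comm
    rw [hM, jac', ct, br_zero, zero_add, h2, smul_br, h3, h1, cc, smul_smul]
    congr 1
    ring
  have e3 : br M A = br (br M y) Xᵀ - (cc w / 2) • B := by
    rw [eA, jac, e2, br_smul, ← eB, neg_smul, sub_eq_add_neg]
  have e4 : br U Aᵀ = -br A Uᵀ :=
    skew_br h hA hU (by rw [ip_Jy]; exact by rw [show X * U - U * X = 0 from hc]; simp [ip])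
  have e5 : br X (br A Uᵀ) = -cc w • B - br M A := by
    have h2 : br X A = _ := br_Jy h hy hX
    rw [jac, h2, smul_br, ← eB, h1, mul_one, ← hM, br_anti A, sub_eq_add_neg]
  have e6 : br X (br U Aᵀ) = -(br (br M y) Xᵀ + br M A) := by
    have h2 : br X Aᵀ = -br A Xᵀ := skew_br h hA hX (by rw [ip_comm]; exact ip_Jy_self y X)
    have h3 : br U A = br M y := by
      rw [eA, jac, cU, zero_br, zero_add, e1, br_neg, ← br_anti]
    rw [jac, hc, zero_br, zero_add, h2, br_neg, jac, h3, e1, br_neg, ← br_anti]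
  rw [e4, br_neg, neg_inj, e5, e3] at e6
  have e7 : Jy (br M y) X = 0 := by
    have : (3 : ℝ) • br (br M y) Xᵀ = 0 := by
      linear_combination (norm := module) -e6
    exact (smul_eq_zero.1 this).resolve_left (by norm_num)
  have hm : br M y ∈ h.g 2 :=
    h.mem_cast (h.br_mem (h.br_mem hX (h.tr_mem hU)) hy) (by norm_num)
  have e8 := ip_Jy_Jy h hm hX (br M y)
  rw [e7, h1, mul_one, ip_zero_left] at e8
  have e9 := eq_zero_of_ip ((mul_eq_zero.1 e8.symm).resolve_left (cc_pos h).ne')
  rw [hM, jac', cX, zero_br, add_zero, br_anti Uᵀ, br_neg, ← eB, neg_eq_zero] at e9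
  exact e9

theorem three_le (h : R1 ρ w) (hm : 2 ≤ h.m2) : 3 ≤ h.m2 := by
  by_contra h3
  obtain ⟨X, hX, h1⟩ := exists_unit h
  let i : Fin h.m2 := ⟨0, by omega⟩
  let j : Fin h.m2 := ⟨1, by omega⟩
  have hy := emb_mem h (eb i)
  have hz := emb_mem h (eb j)
  have hyy : ip (emb h (eb i)) (emb h (eb i)) = 1 := by simp [ip_emb_self, eb]
  have hzz : ip (emb h (eb j)) (emb h (eb j)) = 1 := by simp [ip_emb_self, eb]
  have hzy : ip (emb h (eb j)) (emb h (eb i)) = 0 := by
    simp [ip_emb, eb, EuclideanSpace.inner_single_left, i, j]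
  have hV := Jy_mem h hz hX
  have hU := Jy_mem h hy hV
  have h0 : ip X (Jy (emb h (eb i)) (Jy (emb h (eb j)) X)) = 0 := by
    rw [ip_comm, ip_Jy_skew, ip_Jy_Jy h hy hX, hzy]; simp
  have hc : br X (Jy (emb h (eb i)) (Jy (emb h (eb j)) X)) = 0 := by
    obtain ⟨t, ht⟩ := emb_surj h (h.mem_cast (h.br_mem hX hU) one_add_one_eq_two)
    have h4 : ∀ l, t l = -ip (Jy (emb h (eb l)) X) (Jy (emb h (eb i)) (Jy (emb h (eb j)) X)) := by
      intro l
      rw [ip_Jy, neg_neg, ← ht, ip_emb]
      simp [eb, EuclideanSpace.inner_single_left]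
    have h5 : t = 0 := by
      ext l
      have : l = i ∨ l = j := by
        have := l.2
        simp only [Fin.ext_iff, i, j]
        omega
      rcases this with rfl | rfl
      · rw [h4, ip_Jy_skew, Jy_Jy h hy hV, ip_smul_right, ip_Jy_self]; simp
      · rw [h4, ip_Jy_self]; simp
    rw [br, ← ht, h5, map_zero]
  have h6 := triv h hX hU hy h1 h0 hc
  have h7 := ip_Jy (emb h (eb j)) X (Jy (emb h (eb i)) (Jy (emb h (eb i)) (Jy (emb h (eb j)) X)))
  rw [show _ - _ = (0 : Mat n) from h6, ip_zero_right, Jy_Jy h hy hV, ip_smul_right,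
    ip_Jy_Jy h hz hX, hyy, hzz, h1] at h7
  nlinarith [cc_pos h]

end Vale.Agent.P092RK
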