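import Vale.Agent.P092UB.Vst

/-!
P092, rank one, block A (helper93): A3, the iteration from one contraction step to `UB`.
-/

set_option linter.all false

open MeasureTheory Filter Topology Set
open scoped InnerProductSpace ENNReal

namespace Vale.Agent.P092RK

open Vale.Agent.P092.H793.Re Vale.Agent.P092RG Vale.Agent.P092UB Vale.Agent.P092CP

variable {n : ℕ} {G G' K : Type} [Group G] [TopologicalSpace G] [IsTopologicalGroup G]
  [LocallyCompactSpace G] [SecondCountableTopology G] [T2Space G] [MeasurableSpace G] [BorelSpace G]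
  [Group G'] [TopologicalSpace G'] [IsTopologicalGroup G'] [LocallyCompactSpace G']
  [SecondCountableTopology G'] [T2Space G'] [MeasurableSpace G'] [BorelSpace G']
  [NormedAddCommGroup K] [InnerProductSpace ℂ K] [CompleteSpace K] {μ : Measure G}
  [μ.IsHaarMeasure] {μ' : Measure G'} [μ'.IsHaarMeasure] {W : Set (K →L[ℂ] K)}
  {ρ : G →* SLn n} {w : Fin n → ℝ} {C : Cpl μ μ' W} {c : ℝ}

/-- **A2**: one average halves the displacement, up to a constant -/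
def A2 (C : Cpl μ μ' W) (h : R1 ρ w) : Prop :=
  ∀ (c : ℝ) (N : Set G → ℝ → ℝ), ∃ (m : Measure G) (C₂ : ℝ), IsProbabilityMeasure m ∧
    Integrable h.rr m ∧ (∀ κ ∈ h.K, m.map (fun g => κ * g) = m) ∧
    ∀ (B : Bim C c) (V : Set B.X), Vs B N V → ∀ ξ ∈ V, ∀ s : ℝ,
      (∀ g, h.rr g ≤ 1 → ‖B.σ g ξ - ξ‖ ≤ s) → ∀ x, h.rr x ≤ 1 →
      ‖B.σ x (∫ g, B.σ g ξ ∂m) - ∫ g, B.σ g ξ ∂m‖ ≤ s / 2 + C₂

theorem disp_le (h : R1 ρ w) (B : Bim C c) {ξ : B.X} {s : ℝ}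
    (hs : ∀ g, h.rr g ≤ 1 → ‖B.σ g ξ - ξ‖ ≤ s) (g : G) :
    ‖B.σ g ξ - ξ‖ ≤ c * (1 + h.rr g) * s := by
  have c1 := B.one_le
  have s0 : 0 ≤ s := (norm_nonneg _).trans (hs 1 (by simp [h.rr_one]))
  have H : ∀ k : ℕ, ∀ g, h.rr g ≤ k + 1 → ‖B.σ g ξ - ξ‖ ≤ c * (k + 1) * s := by
    intro k
    induction k with
    | zero => exact fun g hg => (hs g (by simpa using hg)).trans (by simp; nlinarith)
    | succ k ih =>
      intro g hg
      push_cast at hg ⊢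
      have k0 : (0 : ℝ) ≤ k := k.cast_nonneg
      by_cases h1 : h.rr g ≤ k + 1
      · exact (ih g h1).trans (by gcongr; linarith)
      obtain ⟨κ, hκ, κ', hκ', e⟩ := h.kak_rr g
      have e1 : g = κ * h.a (h.rr g - 1) * (h.a 1 * κ') := by
        rw [mul_assoc, ← mul_assoc (h.a _), ← h.a_add, sub_add_cancel, ← mul_assoc, ← e]
      have h2 := ih (κ * h.a (h.rr g - 1)) (by
        rw [h.rr_K_mul hκ, h.rr_a, abs_of_nonneg (by linarith)]; linarith)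
      have h3 := (B.nσ (κ * h.a (h.rr g - 1)) _).trans (mul_le_mul_of_nonneg_left
        (hs (h.a 1 * κ') (by rw [h.rr_mul_K _ hκ', h.rr_a, abs_one])) (by linarith))
      have h4 := norm_add_le_of_le h3 h2
      rw [map_sub, sub_add_sub_cancel, ← ContinuousLinearMap.mul_apply, ← map_mul, ← e1] at h4
      linarith
  refine (H ⌊h.rr g⌋₊ g (Nat.lt_floor_add_one _).le).trans ?_
  have := Nat.floor_le (h.rr_nonneg g)
  exact mul_le_mul_of_nonneg_right (mul_le_mul_of_nonneg_left (by linarith) (by linarith)) s0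

theorem sig_int (B : Bim C c) (ν : Measure G) [IsFiniteMeasure ν] (ξ : B.X) :
    Integrable (fun g => B.σ g ξ) ν :=
  (integrable_const _).mono' (B.cσ ξ).aestronglyMeasurable (ae_of_all _ fun g => B.nσ g ξ)

theorem sig_conv (B : Bim C c) (m ν : Measure G) [IsFiniteMeasure m] [IsFiniteMeasure ν]
    (ξ : B.X) : ∫ g, B.σ g ξ ∂(m ∗ₘ ν) = ∫ g, B.σ g (∫ g, B.σ g ξ ∂ν) ∂m := by
  rw [integral_mconv (sig_int B _ ξ)]
  refine integral_congr_ae (ae_of_all _ fun g => ?_)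
  simp only [map_mul, ContinuousLinearMap.mul_apply]
  exact (B.σ g).integral_comp_comm (sig_int B ν ξ)

theorem sig_mem {B : Bim C c} {N : Set G → ℝ → ℝ} {V : Set B.X} (hV : Vs B N V) (ν : Measure G)
    [IsProbabilityMeasure ν] {ξ : B.X} (hξ : ξ ∈ V) : ∫ g, B.σ g ξ ∂ν ∈ V :=
  hV.convex.integral_mem hV.closed (ae_of_all _ fun g => hV.σ g ξ hξ) (sig_int B ν ξ)

theorem sig_near (h : R1 ρ w) (B : Bim C c) {m : Measure G} [IsProbabilityMeasure m]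
    (hm : Integrable h.rr m) {ξ : B.X} {s : ℝ} (hs : ∀ g, h.rr g ≤ 1 → ‖B.σ g ξ - ξ‖ ≤ s) :
    ‖∫ g, B.σ g ξ ∂m - ξ‖ ≤ c * (1 + ∫ g, h.rr g ∂m) * s := by
  have h1 := norm_integral_le_of_norm_le ((((integrable_const (1 : ℝ)).add hm).const_mul c).mul_const s)
    (ae_of_all m (disp_le h B hs))
  rw [integral_sub (sig_int B m ξ) (integrable_const _), integral_mul_const, integral_const_mul,
    integral_add' (integrable_const _) hm] at h1
  simpa using h1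

theorem iter (h : R1 ρ w) {B : Bim C c} {N : Set G → ℝ → ℝ} {V : Set B.X} (hV : Vs B N V)
    {m : Measure G} [IsProbabilityMeasure m] (hm : Integrable h.rr m) {C₂ : ℝ}
    (hK : ∀ κ ∈ h.K, m.map (fun g => κ * g) = m) (H : ∀ ξ ∈ V, ∀ s : ℝ,
      (∀ g, h.rr g ≤ 1 → ‖B.σ g ξ - ξ‖ ≤ s) → ∀ x, h.rr x ≤ 1 →
      ‖B.σ x (∫ g, B.σ g ξ ∂m) - ∫ g, B.σ g ξ ∂m‖ ≤ s / 2 + C₂) {ξ : B.X} (hξ : ξ ∈ V) {s : ℝ}
    (hs : ∀ g, h.rr g ≤ 1 → ‖B.σ g ξ - ξ‖ ≤ s) (k : ℕ) :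
    ∃ ν : Measure G, IsProbabilityMeasure ν ∧ (k ≠ 0 → ∀ κ ∈ h.K, ν.map (fun g => κ * g) = ν) ∧
      (∀ g, h.rr g ≤ 1 → ‖B.σ g (∫ g, B.σ g ξ ∂ν) - ∫ g, B.σ g ξ ∂ν‖ ≤ s / 2 ^ k + 2 * |C₂|) ∧
      ‖∫ g, B.σ g ξ ∂ν - ξ‖ ≤
        c * (1 + ∫ g, h.rr g ∂m) * (2 * s - 2 * (s / 2 ^ k) + 2 * |C₂| * k) := by
  induction k with
  | zero =>
    refine ⟨Measure.dirac 1, inferInstance, fun h => absurd rfl h, fun g hg => ?_, by simp⟩
    simpa using (hs g hg).trans (le_add_of_nonneg_right (by positivity))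
  | succ k ih =>
    obtain ⟨ν, h1, -, h2, h3⟩ := ih
    refine ⟨m ∗ₘ ν, inferInstance, fun _ κ hκ => ?_, fun g hg => ?_, ?_⟩
    · rw [← Measure.dirac_mconv, ← Measure.mconv_assoc, Measure.dirac_mconv, hK κ hκ]
    · rw [sig_conv]
      refine (H _ (sig_mem hV ν hξ) _ h2 g hg).trans ?_
      rw [pow_succ, ← div_div]
      linarith [le_abs_self C₂]
    · have h4 := norm_add_le_of_le (sig_near h B hm h2) h3
      rw [sub_add_sub_cancel, ← sig_conv, ← mul_add] at h4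
      refine h4.trans_eq ?_
      rw [pow_succ, ← div_div]
      push_cast
      ring

theorem conj_int (C : Cpl μ μ' W) (ν : Measure G) [IsFiniteMeasure ν] (x : K →L[ℂ] K) (ξ : K) :
    Integrable (fun g => sg C g x ξ) ν :=
  (integrable_const (‖x‖ * ‖ξ‖)).mono' (C.s.cont_conj x ξ).aestronglyMeasurable
    (ae_of_all _ fun g => by
      simp only [ContinuousLinearMap.mul_apply, C.s.norm_π]
      exact (x.le_opNorm _).trans_eq (by rw [C.s.norm_π]))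

theorem rl_Ev (C : Cpl μ μ' W) (ν : Measure G) [IsProbabilityMeasure ν] {H : Type}
    [NormedAddCommGroup H] [InnerProductSpace ℝ H] {T : H → K →L[ℂ] K} (hT : RL T) (ξ : K) :
    RL fun v => ∫ g, sg C g (T v) ξ ∂ν := by
  obtain ⟨a, ha⟩ := hT.bdd
  refine ⟨fun u v => ?_, fun t v => ?_, a * ‖ξ‖, fun v => ?_⟩
  · rw [← integral_add (conj_int C ν _ _) (conj_int C ν _ _)]
    simp only [hT.add, sg, mul_add, add_mul, ContinuousLinearMap.add_apply]
  · rw [← integral_smul]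
    simp only [hT.smul, sg, mul_smul_comm, smul_mul_assoc, ContinuousLinearMap.smul_apply]
  · refine (norm_integral_le_of_norm_le_const (C := a * ‖ξ‖ * ‖v‖) (ae_of_all _ fun g => ?_)).trans_eq
      (by simp)
    simp only [ContinuousLinearMap.mul_apply, C.s.norm_π]
    refine ((T v).le_opNorm _).trans ?_
    rw [C.s.norm_π, mul_right_comm]
    exact mul_le_mul_of_nonneg_right (ha v) (norm_nonneg _)

theorem rl_sub {H : Type} [NormedAddCommGroup H] [InnerProductSpace ℝ H] {T T' : H → K}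
    (hT : RL T) (hT' : RL T') : RL fun v => T v - T' v := by
  simpa [sub_eq_add_neg, Pi.add_def] using hT.add' (hT'.clm (-ContinuousLinearMap.id ℂ K))

theorem hsle_of (B : Bim C c) {H : Type} [NormedAddCommGroup H] [InnerProductSpace ℝ H]
    [CompleteSpace H] (e : HilbertBasis B.I ℝ H) {T : H → K} (hT : RL T) {ζ : B.X}
    (hζ : ∀ i, T (e i) = B.co i ζ) {s : ℝ} (hs' : ‖ζ‖ ≤ s) : HSle T s := fun ι v hv => by
  refine (hs_on hT hv e).trans ?_
  rw [P092UB.hs, tsum_congr fun i => by rw [hζ i], tsum_enorm_sq (B.nrm ζ).summable, (B.nrm ζ).tsum_eq,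
    ENNReal.ofReal_pow (norm_nonneg _)]
  gcongr

/-- **A3** -/
theorem ub_of_a2 (C : Cpl μ μ' W) (h : R1 ρ w) {r : G' → ℝ} (hr : Measurable r)
    (hr' : ∀ R, μ' {x | r x ≤ R} ≠ ∞) (H : A2 C h) : UB C h r := by
  intro c D hD
  obtain ⟨N, hN⟩ := exists_model C hr hr' hD c
  obtain ⟨m, C₂, hm, hi, hK, H⟩ := H (c ^ 2 + 1) N
  have i0 : 0 ≤ ∫ g, h.rr g ∂m := integral_nonneg h.rr_nonneg
  set a := (c ^ 2 + 1) * (1 + ∫ g, h.rr g ∂m) * (2 + 2 * |C₂|) with ha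
  have a0 : 0 < a := by positivity
  refine ⟨(c ^ 2 + 1) * (1 + 2 * |C₂|), by positivity, fun ε hε => ?_⟩
  obtain ⟨C₁, h1⟩ := hN _ (h.isCompact_ball 1) (ε / a) (by positivity)
  refine ⟨a * (C₁ + 2), fun Λ O => ?_⟩
  obtain ⟨B, V, ξ, e, hV, hξ, h2, h3⟩ := h1 Λ O
  set s := ε / a * Λ + C₁ with hs
  have s0 : 0 ≤ s := (norm_nonneg _).trans (h3 1 (by simp [h.rr_one]))
  obtain ⟨ν, n1, n2, n3, n4⟩ := iter h hV hi hK (H B V hV) hξ h3 (⌈s⌉₊ + 1)
  have r1 := (bb_mc C.t O.mF O.nF e).rl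
  have k1 : s / 2 ^ (⌈s⌉₊ + 1) ≤ 1 := by
    rw [div_le_one (by positivity)]
    refine (Nat.le_ceil s).trans ?_
    exact_mod_cast (Nat.le_succ _).trans Nat.lt_two_pow_self.le
  have e1 : ∀ x i, B.co i (B.σ x (∫ g, B.σ g ξ ∂ν)) =
      C.s.π x (Ev C ν (O.co (e i)) (C.s.π x⁻¹ C.t.Ω)) := fun x i => by
    rw [Ev, ← (C.s.π x).integral_comp_comm (conj_int C ν _ _),
      ← (B.σ x).integral_comp_comm (sig_int B ν ξ), ← (B.co i).integral_comp_comm
        ((B.σ x).integrable_comp (sig_int B ν ξ))]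
    refine integral_congr_ae (ae_of_all _ fun g => ?_)
    simp only [← ContinuousLinearMap.mul_apply (B.σ x), ← map_mul, h2]
    simp only [sg, map_mul, mul_inv_rev, ContinuousLinearMap.mul_apply]
  have e2 : ∀ i, B.co i (∫ g, B.σ g ξ ∂ν) = Ev C ν (O.co (e i)) C.t.Ω := fun i => by
    simpa using e1 1 i
  have e3 : ∀ i, B.co i ξ = C.t.m (O.co (e i)) C.t.Ω := fun i => by simpa [sg] using h2 1 i
  refine ⟨ν, n1, n2 (Nat.succ_ne_zero _), fun x => hsle_of B e ?_ (ζ := B.σ x _ - _)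
    (fun i => by rw [map_sub, e1, e2]) ((disp_le h B n3 x).trans ?_), hsle_of B e ?_
    (fun i => by rw [map_sub, e2, e3]) (n4.trans ?_)⟩
  · exact rl_sub ((rl_Ev C ν r1 (C.s.π x⁻¹ C.t.Ω)).clm (C.s.π x)) (rl_Ev C ν r1 C.t.Ω)
  · have := h.rr_nonneg x
    rw [mul_right_comm]
    gcongr
  · exact rl_sub (rl_Ev C ν r1 C.t.Ω) (r1.ap C.t.Ω)
  · have k2 : ((⌈s⌉₊ + 1 : ℕ) : ℝ) ≤ s + 2 := by
      push_cast; linarith [Nat.ceil_lt_add_one s0]
    have k3 : 0 ≤ s / 2 ^ (⌈s⌉₊ + 1) := by positivity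
    calc _ ≤ (c ^ 2 + 1) * (1 + ∫ g, h.rr g ∂m) * ((2 + 2 * |C₂|) * (s + 2)) := by
          gcongr
          nlinarith [abs_nonneg C₂]
      _ = a * (s + 2) := by rw [ha]; ring
      _ = _ := by rw [hs]; field_simp; ring

end Vale.Agent.P092RK
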